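import Mathlib

/-! Definitions used in the statements. -/

namespace Vale.Agent.P017.H524

/-- `X_0(15)` in its minimal model `y² + x y + y = x³ + x² - 10 x - 10` (Cremona `15a1`) -/
def X015 : WeierstrassCurve ℚ := ⟨1, 1, 1, -10, -10⟩

/-- `a` is a square modulo every prime divisor of `n` -/
def SqMod (a n : ℤ) : Prop := ∀ q : ℕ, q.Prime → (q : ℤ) ∣ n → IsSquare (a : ZMod q)

/-- The criterion: two lists of congruence and quadratic residue conditions on the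
factorizations `b c = -P` and `a b = P` have only the trivial solutions. -/
def Crit (P : ℤ) : Prop :=
  (∀ s b c : ℤ, (s = 1 ∨ s = 3) → b * c = -P →
    (P % 4 = 3 → (s * b) % 4 = 1) →
    (P % 8 = 5 → (s * b) % 8 = 1 ∨ (s * b) % 8 = 3) →
    (P % 8 = 1 → (s * b) % 8 = 1 ∨ (s * b) % 8 = 7) →
    (P % 3 = 2 → s = 1) →
    (P % 5 = 1 ∨ P % 5 = 4 → (s * b) % 5 = 1 ∨ (s * b) % 5 = 4) →
    SqMod (s * b) c → SqMod (s * c) b → s = 1 ∧ (b = 1 ∨ c = 1)) ∧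
  (∀ t a b : ℤ, (t = 1 ∨ t = 2 ∨ t = 5 ∨ t = 10) → 0 < a → a * b = P →
    (P % 4 = 3 → t = 1 ∨ t = 5) →
    (P % 8 = 5 → ((t = 1 ∨ t = 5) ∧ a % 4 = 1) ∨ ((t = 2 ∨ t = 10) ∧ a % 4 = 3)) →
    (P % 8 = 1 → a % 4 = 1) →
    (P % 3 = 1 → (t * a) % 3 = 1) →
    (P % 5 = 2 ∨ P % 5 = 3 → t = 1 ∨ t = 2) →
    SqMod (t * a) b → SqMod (t * b) a → t = 1 ∧ (a = 1 ∨ b = 1))

end Vale.Agent.P017.H524
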