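import Vale.Agent.P017.H524.Class

/-! The condition at `2` for `P ≡ 5 mod 8`. -/

namespace Vale.Agent.P017.H524

variable {P b1 b2 b3 u1 u2 u3 m e : ℤ}

theorem mod8_of_cast {x : ℤ} {k : ℕ} (hk : k < 8) (h : (x : ZMod 8) = (k : ZMod 8)) :
    x % 8 = k := by
  have h1 : ((x - k : ℤ) : ZMod 8) = 0 := by push_cast; rw [h]; ring
  have h2 := (ZMod.intCast_zmod_eq_zero_iff_dvd _ 8).mp h1
  push_cast at h2
  omega

theorem L2five (hP8 : P % 8 = 5) (d : Dat P b1 b2 b3 u1 u2 u3 m e) :
    (b1 % 8 = 1 ∨ b1 % 8 = 3) ∧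
      ((¬ (2 : ℤ) ∣ b2 ∧ (b1 - b2) % 4 = 0) ∨ (∃ c2, b2 = 2 * c2 ∧ (b1 + c2) % 4 = 0)) := by
  have hb1 : ¬ (2 : ℤ) ∣ b1 := by
    intro h
    have := prime_b1 d (q := 2) Nat.prime_two (by exact_mod_cast h)
    push_cast at this
    omega
  have hP : (P : ZMod 8) = 5 := by
    have := ZMod.intCast_mod P 8
    rw [← this]
    push_cast
    rw [hP8]; decide
  have par : ∀ x y : ℤ, ¬ (2 : ℤ) ∣ x → ¬ (2 : ℤ) ∣ y → ¬ (2 : ℤ) ∣ x * y := by
    intro x y hx hy h
    rcases int_prime2.dvd_or_dvd h with h | h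
    · exact hx h
    · exact hy h
  have parsq : ∀ x : ℤ, (2 : ℤ) ∣ x ^ 2 → (2 : ℤ) ∣ x := fun x h => int_prime2.dvd_of_dvd_pow h
  have hP2 : ¬ (2 : ℤ) ∣ P := by omega
  have odd' : ∀ x : ℤ, ¬ (2 : ℤ) ∣ x → x % 2 = 1 := by intro x hx; omega
  have c8 : ∀ (x : ℤ) (k : ℕ), k < 8 → (x : ZMod 8) = (k : ZMod 8) → x % 8 = k :=
    fun x k hk h => mod8_of_cast hk h
  by_cases hb2 : (2 : ℤ) ∣ b2
  · have hb3 : (2 : ℤ) ∣ b3 := by
      have he' : b2 * b1 * b3 = e ^ 2 := by rw [← d.he]; ring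
      rcases prime_dvd_other d.s2 he' Nat.prime_two (by exact_mod_cast hb2) with h | h
      · exact absurd (by exact_mod_cast h) hb1
      · exact_mod_cast h
    obtain ⟨c2, rfl⟩ := hb2
    obtain ⟨c3, rfl⟩ := hb3
    have hc2 : ¬ (2 : ℤ) ∣ c2 := sqf_not int_prime2 d.s2
    have hc3 : ¬ (2 : ℤ) ∣ c3 := sqf_not int_prime2 d.s3
    have he : (2 : ℤ) ∣ e := by
      apply parsq
      rw [← d.he]; exact ⟨b1 * c2 * (2 * c3), by ring⟩
    obtain ⟨f, rfl⟩ := he
    have hf : b1 * c2 * c3 = f ^ 2 := by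
      have h9 : (4 : ℤ) * (b1 * c2 * c3) = 4 * f ^ 2 := by linear_combination d.he
      exact mul_left_cancel₀ (by norm_num) h9
    have hfodd : ¬ (2 : ℤ) ∣ f := by
      intro h
      have h1 : (2 : ℤ) ∣ b1 * c2 * c3 := by rw [hf]; exact dvd_pow h (by norm_num)
      exact par _ _ (par _ _ hb1 hc2) hc3 h1
    have hf8 := odd_sq8 (odd' f hfodd)
    have hmodd : ¬ (2 : ℤ) ∣ m := by
      intro hm
      refine cop2 d ?_ hm
      have : b1 * u1 ^ 2 = 2 * c2 * u2 ^ 2 - P * m ^ 2 := by rw [d.h2]; ring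
      rw [this]
      exact dvd_sub ⟨c2 * u2 ^ 2, by ring⟩ (dvd_mul_of_dvd_right (dvd_pow hm (by norm_num)) _)
    have hm8 := odd_sq8 (odd' m hmodd)
    have hu1 : ¬ (2 : ℤ) ∣ u1 := by
      intro h
      have h1 : (2 : ℤ) ∣ P * m ^ 2 := by
        have : P * m ^ 2 = 2 * c2 * u2 ^ 2 - b1 * u1 ^ 2 := by rw [d.h2]; ring
        rw [this]
        exact dvd_sub ⟨c2 * u2 ^ 2, by ring⟩ (dvd_mul_of_dvd_right (dvd_pow h (by norm_num)) _)
      exact par _ _ hP2 (fun h => hmodd (parsq _ h)) h1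
    have hu18 := odd_sq8 (odd' u1 hu1)
    have e1 : c3 * u3 ^ 2 = c2 * u2 ^ 2 + 40 * P * m ^ 2 := by
      have h9 : (2 : ℤ) * (c3 * u3 ^ 2) = 2 * (c2 * u2 ^ 2 + 40 * P * m ^ 2) := by
        linear_combination d.h3 - d.h2
      exact mul_left_cancel₀ (by norm_num) h9
    have z2 := congrArg (Int.cast : ℤ → ZMod 8) d.h2
    push_cast at z2
    rw [hu18, hm8, hP] at z2
    have zf := congrArg (Int.cast : ℤ → ZMod 8) hf
    push_cast at zf
    rw [hf8] at zf
    have fin : ∀ x y : ZMod 8, (x = 1 ∧ 2 * y = 6) ∨ (x = 3 ∧ 6 * y = 6) →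
        (x = 1 ∨ x = 3) ∧ (x + y = 4 ∨ x + y = 0) := by decide
    have concl : ((b1 : ZMod 8) = 1 ∧ 2 * (c2 : ZMod 8) = 6) ∨
        ((b1 : ZMod 8) = 3 ∧ 6 * (c2 : ZMod 8) = 6) := by
      by_cases hu2 : (2 : ℤ) ∣ u2
      · have hu3 : (2 : ℤ) ∣ u3 := by
          have h1 : (2 : ℤ) ∣ c3 * u3 ^ 2 := by
            rw [e1]
            exact dvd_add (dvd_mul_of_dvd_right (dvd_pow hu2 (by norm_num)) _)
              ⟨20 * P * m ^ 2, by ring⟩
          rcases int_prime2.dvd_or_dvd h1 with h | h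
          · exact absurd h hc3
          · exact parsq _ h
        obtain ⟨w2, rfl⟩ := hu2
        obtain ⟨w3, rfl⟩ := hu3
        have e2 : c3 * w3 ^ 2 = c2 * w2 ^ 2 + 10 * P * m ^ 2 := by
          have h9 : (4 : ℤ) * (c3 * w3 ^ 2) = 4 * (c2 * w2 ^ 2 + 10 * P * m ^ 2) := by
            linear_combination e1
          exact mul_left_cancel₀ (by norm_num) h9
        by_cases hw2 : (2 : ℤ) ∣ w2
        · exfalso
          have hw3 : (2 : ℤ) ∣ w3 := by
            have h1 : (2 : ℤ) ∣ c3 * w3 ^ 2 := by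
              rw [e2]
              exact dvd_add (dvd_mul_of_dvd_right (dvd_pow hw2 (by norm_num)) _)
                ⟨5 * P * m ^ 2, by ring⟩
            rcases int_prime2.dvd_or_dvd h1 with h | h
            · exact absurd h hc3
            · exact parsq _ h
          obtain ⟨x2, rfl⟩ := hw2
          obtain ⟨x3, rfl⟩ := hw3
          have e3 : 2 * (c3 * x3 ^ 2 - c2 * x2 ^ 2) = 5 * (P * m ^ 2) := by
            have h9 : (2 : ℤ) * (2 * (c3 * x3 ^ 2 - c2 * x2 ^ 2)) = 2 * (5 * (P * m ^ 2)) := by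
              linear_combination e2
            exact mul_left_cancel₀ (by norm_num) h9
          have h5 : (2 : ℤ) ∣ 5 * (P * m ^ 2) := ⟨_, e3.symm⟩
          exact par _ _ (by norm_num) (par _ _ hP2 (fun h => hmodd (parsq _ h))) h5
        · have hw3 : ¬ (2 : ℤ) ∣ w3 := by
            intro h
            have h1 : (2 : ℤ) ∣ c2 * w2 ^ 2 := by
              have : c2 * w2 ^ 2 = c3 * w3 ^ 2 - 10 * P * m ^ 2 := by rw [e2]; ring
              rw [this]
              exact dvd_sub (dvd_mul_of_dvd_right (dvd_pow h (by norm_num)) _)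
                ⟨5 * P * m ^ 2, by ring⟩
            exact par _ _ hc2 (fun h => hw2 (parsq _ h)) h1
          have hw28 := odd_sq8 (odd' w2 hw2)
          have hw38 := odd_sq8 (odd' w3 hw3)
          have z3 := congrArg (Int.cast : ℤ → ZMod 8) e2
          push_cast at z3
          rw [hw28, hw38, hm8, hP] at z3
          push_cast at z2
          rw [mul_pow, hw28] at z2
          have key : ∀ x y z : ZMod 8, 2 * y * (2 ^ 2 * 1) = x * 1 + 5 * 1 →
              z * 1 = y * 1 + 10 * 5 * 1 → x * y * z = 1 →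
              (x = 1 ∧ 2 * y = 6) ∨ (x = 3 ∧ 6 * y = 6) := by decide
          exact key _ _ _ z2 z3 zf
      · have hu3 : ¬ (2 : ℤ) ∣ u3 := by
          intro h
          have h1 : (2 : ℤ) ∣ c2 * u2 ^ 2 := by
            have : c2 * u2 ^ 2 = c3 * u3 ^ 2 - 40 * P * m ^ 2 := by rw [e1]; ring
            rw [this]
            exact dvd_sub (dvd_mul_of_dvd_right (dvd_pow h (by norm_num)) _)
              ⟨20 * P * m ^ 2, by ring⟩
          exact par _ _ hc2 (fun h => hu2 (parsq _ h)) h1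
        have hu28 := odd_sq8 (odd' u2 hu2)
        have hu38 := odd_sq8 (odd' u3 hu3)
        have z3 := congrArg (Int.cast : ℤ → ZMod 8) e1
        push_cast at z3
        rw [hu28, hu38, hm8, hP] at z3
        rw [hu28] at z2
        have key : ∀ x y z : ZMod 8, 2 * y * 1 = x * 1 + 5 * 1 →
            z * 1 = y * 1 + 40 * 5 * 1 → x * y * z = 1 →
            (x = 1 ∧ 2 * y = 6) ∨ (x = 3 ∧ 6 * y = 6) := by decide
        exact key _ _ _ z2 z3 zf
    obtain ⟨f1, f2⟩ := fin _ _ concl
    refine ⟨?_, Or.inr ⟨c2, rfl, ?_⟩⟩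
    · rcases f1 with h | h
      · left; exact_mod_cast c8 b1 1 (by norm_num) (by simpa using h)
      · right; exact_mod_cast c8 b1 3 (by norm_num) (by simpa using h)
    · rcases f2 with h | h
      · have := c8 (b1 + c2) 4 (by norm_num) (by push_cast; simpa using h)
        omega
      · have := c8 (b1 + c2) 0 (by norm_num) (by push_cast; simpa using h)
        omega
  · have hb3 : ¬ (2 : ℤ) ∣ b3 := by
      intro h
      have he' : b3 * b1 * b2 = e ^ 2 := by rw [← d.he]; ring
      rcases prime_dvd_other d.s3 he' Nat.prime_two (by exact_mod_cast h) with h' | h'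
      · exact hb1 (by exact_mod_cast h')
      · exact hb2 (by exact_mod_cast h')
    have heodd : ¬ (2 : ℤ) ∣ e := by
      intro h
      have h1 : (2 : ℤ) ∣ b1 * b2 * b3 := by rw [d.he]; exact dvd_pow h (by norm_num)
      exact par _ _ (par _ _ hb1 hb2) hb3 h1
    have he8 := odd_sq8 (odd' e heodd)
    have ze := congrArg (Int.cast : ℤ → ZMod 8) d.he
    push_cast at ze
    rw [he8] at ze
    have z2 := congrArg (Int.cast : ℤ → ZMod 8) d.h2
    push_cast at z2
    rw [hP] at z2
    have z3 := congrArg (Int.cast : ℤ → ZMod 8) d.h3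
    push_cast at z3
    rw [hP] at z3
    have fin : ∀ x y : ZMod 8, (x = 1 ∧ (y = 1 ∨ y = 5)) ∨ (x = 3 ∧ (y = 3 ∨ y = 7)) →
        (x = 1 ∨ x = 3) ∧ (x - y = 4 ∨ x - y = 0) := by decide
    have concl : ((b1 : ZMod 8) = 1 ∧ ((b2 : ZMod 8) = 1 ∨ (b2 : ZMod 8) = 5)) ∨
        ((b1 : ZMod 8) = 3 ∧ ((b2 : ZMod 8) = 3 ∨ (b2 : ZMod 8) = 7)) := by
      by_cases hm : (2 : ℤ) ∣ m
      · have hn1 : ¬ (2 : ℤ) ∣ b1 * u1 ^ 2 := fun h => cop2 d h hm
        have hu1 : ¬ (2 : ℤ) ∣ u1 :=
          fun h => hn1 (dvd_mul_of_dvd_right (dvd_pow h (by norm_num)) _)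
        have hu2 : ¬ (2 : ℤ) ∣ u2 := by
          intro h
          apply hn1
          have : b1 * u1 ^ 2 = b2 * u2 ^ 2 - P * m ^ 2 := by rw [d.h2]; ring
          rw [this]
          exact dvd_sub (dvd_mul_of_dvd_right (dvd_pow h (by norm_num)) _)
            (dvd_mul_of_dvd_right (dvd_pow hm (by norm_num)) _)
        have hu3 : ¬ (2 : ℤ) ∣ u3 := by
          intro h
          apply hn1
          have : b1 * u1 ^ 2 = b3 * u3 ^ 2 - 81 * P * m ^ 2 := by rw [d.h3]; ring
          rw [this]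
          exact dvd_sub (dvd_mul_of_dvd_right (dvd_pow h (by norm_num)) _)
            (dvd_mul_of_dvd_right (dvd_pow hm (by norm_num)) _)
        rw [odd_sq8 (odd' _ hu2), odd_sq8 (odd' _ hu1)] at z2
        rw [odd_sq8 (odd' _ hu3), odd_sq8 (odd' _ hu1)] at z3
        have hm4 : (m : ZMod 8) ^ 2 = 0 ∨ (m : ZMod 8) ^ 2 = 4 := by
          obtain ⟨k, rfl⟩ := hm
          push_cast
          have : ∀ x : ZMod 8, (2 * x) ^ 2 = 0 ∨ (2 * x) ^ 2 = 4 := by decide
          exact this _
        have key : ∀ x y z : ZMod 8, ∀ w : ZMod 8, (w = 0 ∨ w = 4) → y * 1 = x * 1 + 5 * w →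
            z * 1 = x * 1 + 81 * 5 * w → x * y * z = 1 →
            (x = 1 ∧ (y = 1 ∨ y = 5)) ∨ (x = 3 ∧ (y = 3 ∨ y = 7)) := by decide
        exact key _ _ _ _ hm4 z2 z3 ze
      · rw [odd_sq8 (odd' _ hm)] at z2 z3
        by_cases hu1 : (2 : ℤ) ∣ u1
        · have hPm : ¬ (2 : ℤ) ∣ P * m ^ 2 := par _ _ hP2 (fun h => hm (parsq _ h))
          have hu2 : ¬ (2 : ℤ) ∣ u2 := by
            intro h
            apply hPm
            have : P * m ^ 2 = b2 * u2 ^ 2 - b1 * u1 ^ 2 := by rw [d.h2]; ring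
            rw [this]
            exact dvd_sub (dvd_mul_of_dvd_right (dvd_pow h (by norm_num)) _)
              (dvd_mul_of_dvd_right (dvd_pow hu1 (by norm_num)) _)
          have hu3 : ¬ (2 : ℤ) ∣ u3 := by
            intro h
            have h81' : ¬ (2 : ℤ) ∣ 81 * (P * m ^ 2) := par _ _ (by norm_num) hPm
            apply h81'
            have : 81 * (P * m ^ 2) = b3 * u3 ^ 2 - b1 * u1 ^ 2 := by rw [d.h3]; ring
            rw [this]
            exact dvd_sub (dvd_mul_of_dvd_right (dvd_pow h (by norm_num)) _)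
              (dvd_mul_of_dvd_right (dvd_pow hu1 (by norm_num)) _)
          rw [odd_sq8 (odd' _ hu2)] at z2
          rw [odd_sq8 (odd' _ hu3)] at z3
          have hu4 : (u1 : ZMod 8) ^ 2 = 0 ∨ (u1 : ZMod 8) ^ 2 = 4 := by
            obtain ⟨k, rfl⟩ := hu1
            push_cast
            have : ∀ x : ZMod 8, (2 * x) ^ 2 = 0 ∨ (2 * x) ^ 2 = 4 := by decide
            exact this _
          have key : ∀ x y z : ZMod 8, ∀ w : ZMod 8, (w = 0 ∨ w = 4) → y * 1 = x * w + 5 * 1 →
              z * 1 = x * w + 81 * 5 * 1 → x * y * z = 1 →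
              (x = 1 ∧ (y = 1 ∨ y = 5)) ∨ (x = 3 ∧ (y = 3 ∨ y = 7)) := by decide
          exact key _ _ _ _ hu4 z2 z3 ze
        · have hn1 : b1 * u1 ^ 2 % 2 = 1 := odd' _ (par _ _ hb1 (fun h => hu1 (parsq _ h)))
          have hPm : P * m ^ 2 % 2 = 1 := odd' _ (par _ _ hP2 (fun h => hm (parsq _ h)))
          have hu2 : (2 : ℤ) ∣ u2 := by
            have h2 : (2 : ℤ) ∣ b2 * u2 ^ 2 := by rw [d.h2]; omega
            rcases int_prime2.dvd_or_dvd h2 with h | h
            · exact absurd h hb2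
            · exact parsq _ h
          have hu3 : (2 : ℤ) ∣ u3 := by
            have h2 : (2 : ℤ) ∣ b3 * u3 ^ 2 := by
              rw [d.h3]
              have : 81 * P * m ^ 2 = 81 * (P * m ^ 2) := by ring
              omega
            rcases int_prime2.dvd_or_dvd h2 with h | h
            · exact absurd h hb3
            · exact parsq _ h
          obtain ⟨w2, rfl⟩ := hu2
          obtain ⟨w3, rfl⟩ := hu3
          rw [odd_sq8 (odd' _ hu1)] at z2 z3
          have e2 : b3 * w3 ^ 2 = b2 * w2 ^ 2 + 20 * P * m ^ 2 := by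
            have h9 : (4 : ℤ) * (b3 * w3 ^ 2) = 4 * (b2 * w2 ^ 2 + 20 * P * m ^ 2) := by
              linear_combination d.h3 - d.h2
            exact mul_left_cancel₀ (by norm_num) h9
          push_cast at z2
          by_cases hw2 : (2 : ℤ) ∣ w2
          · have hw3 : (2 : ℤ) ∣ w3 := by
              have h1 : (2 : ℤ) ∣ b3 * w3 ^ 2 := by
                rw [e2]
                exact dvd_add (dvd_mul_of_dvd_right (dvd_pow hw2 (by norm_num)) _)
                  ⟨10 * P * m ^ 2, by ring⟩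
              rcases int_prime2.dvd_or_dvd h1 with h | h
              · exact absurd h hb3
              · exact parsq _ h
            obtain ⟨x2, rfl⟩ := hw2
            obtain ⟨x3, rfl⟩ := hw3
            have e3 : b3 * x3 ^ 2 = b2 * x2 ^ 2 + 5 * P * m ^ 2 := by
              have h9 : (4 : ℤ) * (b3 * x3 ^ 2) = 4 * (b2 * x2 ^ 2 + 5 * P * m ^ 2) := by
                linear_combination e2
              exact mul_left_cancel₀ (by norm_num) h9
            have zz := congrArg (Int.cast : ℤ → ZMod 8) e3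
            push_cast at zz z2
            rw [hP, odd_sq8 (odd' _ hm)] at zz
            have hb1' : (b1 : ZMod 8) = 3 := by
              have : ∀ x y w : ZMod 8, y * (2 * (2 * w)) ^ 2 = x * 1 + 5 * 1 → x = 3 := by decide
              exact this _ _ _ z2
            have hxx : ((x2 : ZMod 8) ^ 2 = 1 ∧ ((x3 : ZMod 8) ^ 2 = 0 ∨ (x3 : ZMod 8) ^ 2 = 4)) ∨
                (((x2 : ZMod 8) ^ 2 = 0 ∨ (x2 : ZMod 8) ^ 2 = 4) ∧ (x3 : ZMod 8) ^ 2 = 1) := by
              have evsq : ∀ k : ℤ, (2 : ℤ) ∣ k → (k : ZMod 8) ^ 2 = 0 ∨ (k : ZMod 8) ^ 2 = 4 := by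
                rintro _ ⟨k, rfl⟩
                push_cast
                have : ∀ x : ZMod 8, (2 * x) ^ 2 = 0 ∨ (2 * x) ^ 2 = 4 := by decide
                exact this _
              have hodd5 : (5 * P * m ^ 2) % 2 = 1 := by
                have : 5 * P * m ^ 2 = 5 * (P * m ^ 2) := by ring
                omega
              by_cases hx2 : (2 : ℤ) ∣ x2
              · right
                refine ⟨evsq _ hx2, ?_⟩
                apply odd_sq8
                apply odd'
                intro hx3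
                have h1 : (2 : ℤ) ∣ 5 * P * m ^ 2 := by
                  have : 5 * P * m ^ 2 = b3 * x3 ^ 2 - b2 * x2 ^ 2 := by rw [e3]; ring
                  rw [this]
                  exact dvd_sub (dvd_mul_of_dvd_right (dvd_pow hx3 (by norm_num)) _)
                    (dvd_mul_of_dvd_right (dvd_pow hx2 (by norm_num)) _)
                omega
              · left
                refine ⟨odd_sq8 (odd' _ hx2), evsq _ ?_⟩
                by_contra hx3
                have h1 := odd' _ (par _ _ hb3 (fun h => hx3 (parsq _ h)))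
                have h2 := odd' _ (par _ _ hb2 (fun h => hx2 (parsq _ h)))
                omega
            have key : ∀ y z v w : ZMod 8, ((v = 1 ∧ (w = 0 ∨ w = 4)) ∨ ((v = 0 ∨ v = 4) ∧ w = 1)) →
                z * w = y * v + 5 * 5 * 1 → 3 * y * z = 1 → y = 3 ∨ y = 7 := by decide
            right
            refine ⟨hb1', ?_⟩
            rw [hb1'] at ze
            exact key _ _ _ _ hxx zz ze
          · exfalso
            have hw3 : ¬ (2 : ℤ) ∣ w3 := by
              intro h
              have h1 : (2 : ℤ) ∣ b2 * w2 ^ 2 := by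
                have : b2 * w2 ^ 2 = b3 * w3 ^ 2 - 20 * P * m ^ 2 := by rw [e2]; ring
                rw [this]
                exact dvd_sub (dvd_mul_of_dvd_right (dvd_pow h (by norm_num)) _)
                  ⟨10 * P * m ^ 2, by ring⟩
              exact par _ _ hb2 (fun h => hw2 (parsq _ h)) h1
            have zz := congrArg (Int.cast : ℤ → ZMod 8) e2
            push_cast at zz
            rw [hP, odd_sq8 (odd' _ hm), odd_sq8 (odd' _ hw2), odd_sq8 (odd' _ hw3)] at zz
            rw [mul_pow, odd_sq8 (odd' _ hw2)] at z2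
            have key : ∀ x y z : ZMod 8, y * (2 ^ 2 * 1) = x * 1 + 5 * 1 →
                z * 1 = y * 1 + 20 * 5 * 1 → x * y * z = 1 → False := by decide
            exact key _ _ _ z2 zz ze
    obtain ⟨f1, f2⟩ := fin _ _ concl
    refine ⟨?_, Or.inl ⟨hb2, ?_⟩⟩
    · rcases f1 with h | h
      · left; exact_mod_cast c8 b1 1 (by norm_num) (by simpa using h)
      · right; exact_mod_cast c8 b1 3 (by norm_num) (by simpa using h)
    · rcases f2 with h | h
      · have := c8 (b1 - b2) 4 (by norm_num) (by push_cast; simpa using h)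
        omega
      · have := c8 (b1 - b2) 0 (by norm_num) (by push_cast; simpa using h)
        omega

end Vale.Agent.P017.H524
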