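import Vale.Agent.P017.H524.ClassD
import Vale.Agent.P017.H524.Local5
import Vale.Agent.P017.H524.Local1

/-! The square classes for an odd squarefree `P` satisfying the criterion. -/

namespace Vale.Agent.P017.H524

variable {P b1 b2 b3 u1 u2 u3 m e : ℤ}

theorem prime_h30' (h2 : P % 2 = 1) (h3 : P % 3 ≠ 0) (h5 : P % 5 ≠ 0) :
    ∀ q : ℕ, q.Prime → (q : ℤ) ∣ P → ¬ (q : ℤ) ∣ 6480 := by
  intro q hq hqP h
  have hp : Prime (q : ℤ) := Nat.prime_iff_prime_int.mp hq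
  have h30 : (q : ℤ) ∣ 30 ^ 4 := h.trans (by norm_num)
  have h2' : (q : ℤ) ∣ 2 * (3 * 5) := by
    have := hp.dvd_of_dvd_pow h30
    norm_num; exact this
  have cast : ∀ k : ℕ, k.Prime → (q : ℤ) ∣ k → q = k := by
    intro k hk h
    exact (Nat.prime_dvd_prime_iff_eq hq hk).mp (by exact_mod_cast h)
  rcases hp.dvd_or_dvd h2' with h | h
  · have := cast 2 Nat.prime_two (by exact_mod_cast h)
    subst this; push_cast at hqP; omega
  rcases hp.dvd_or_dvd h with h | h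
  · have := cast 3 Nat.prime_three (by exact_mod_cast h)
    subst this; push_cast at hqP; omega
  · have := cast 5 Nat.prime_five (by exact_mod_cast h)
    subst this; push_cast at hqP; omega

/-- the conditions at `2` -/
def Two (P b1 b2 : ℤ) : Prop :=
  (P % 4 = 3 → b1 % 4 = 1 ∧ ¬ (2 : ℤ) ∣ b2) ∧
  (P % 8 = 5 → (b1 % 8 = 1 ∨ b1 % 8 = 3) ∧
    ((¬ (2 : ℤ) ∣ b2 ∧ (b1 - b2) % 4 = 0) ∨ ((2 : ℤ) ∣ b2 ∧ (b1 + b2 / 2) % 4 = 0))) ∧
  (P % 8 = 1 → (b1 % 8 = 1 ∨ b1 % 8 = 7) ∧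
    ((¬ (2 : ℤ) ∣ b2 ∧ (b1 - b2) % 4 = 0) ∨ ((2 : ℤ) ∣ b2 ∧ (b1 - b2 / 2) % 4 = 0)))

theorem two_of (d : Dat P b1 b2 b3 u1 u2 u3 m e) : Two P b1 b2 := by
  refine ⟨?_, ?_, ?_⟩
  · intro h
    obtain ⟨h1, h2⟩ := L2 h d
    exact ⟨h2, h1⟩
  · intro h
    obtain ⟨h1, h2⟩ := L2five h d
    refine ⟨h1, ?_⟩
    rcases h2 with h2 | ⟨c, hc, h2⟩
    · left; exact h2
    · right
      have e1 : b2 / 2 = c := by rw [hc]; exact Int.mul_ediv_cancel_left _ (by norm_num)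
      rw [e1]
      exact ⟨⟨c, hc⟩, h2⟩
  · intro h
    obtain ⟨h1, h2⟩ := L2one h d
    refine ⟨h1, ?_⟩
    rcases h2 with h2 | ⟨c, hc, h2⟩
    · left; exact h2
    · right
      have e1 : b2 / 2 = c := by rw [hc]; exact Int.mul_ediv_cancel_left _ (by norm_num)
      rw [e1]
      exact ⟨⟨c, hc⟩, h2⟩

/-- the congruences on `b2` when `b1 = 1` -/
theorem numA {l a : ℤ} (_hP2 : P % 2 = 1) (hl : l = 1 ∨ l = 2 ∨ l = 5 ∨ l = 10)
    (hb2 : b2 = l * a) (hT : Two P 1 b2) (ha : a % 2 = 1) (h3 : P % 3 = 1 → b2 % 3 = 1)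
    (h5 : P % 5 = 2 ∨ P % 5 = 3 → ¬ (5 : ℤ) ∣ b2) :
    (P % 4 = 3 → l = 1 ∨ l = 5) ∧
    (P % 8 = 5 → ((l = 1 ∨ l = 5) ∧ a % 4 = 1) ∨ ((l = 2 ∨ l = 10) ∧ a % 4 = 3)) ∧
    (P % 8 = 1 → a % 4 = 1) ∧ (P % 3 = 1 → (l * a) % 3 = 1) ∧
    (P % 5 = 2 ∨ P % 5 = 3 → l = 1 ∨ l = 2) := by
  obtain ⟨t1, t2, t3⟩ := hT
  rcases hl with rfl | rfl | rfl | rfl
  · refine ⟨fun _ => by omega, fun h => ?_, fun h => ?_, fun h => ?_, fun h => by omega⟩
    · have := t2 h; omega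
    · have := t3 h; omega
    · have := h3 h; omega
  · refine ⟨fun h => ?_, fun h => ?_, fun h => ?_, fun h => ?_, fun h => by omega⟩
    · have := t1 h; omega
    · have := t2 h; omega
    · have := t3 h; omega
    · have := h3 h; omega
  · refine ⟨fun _ => by omega, fun h => ?_, fun h => ?_, fun h => ?_, fun h => ?_⟩
    · have := t2 h; omega
    · have := t3 h; omega
    · have := h3 h; omega
    · have := h5 h; omega
  · refine ⟨fun h => ?_, fun h => ?_, fun h => ?_, fun h => ?_, fun h => ?_⟩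
    · have := t1 h; omega
    · have := t2 h; omega
    · have := t3 h; omega
    · have := h3 h; omega
    · have := h5 h; omega

/-- the congruences on `b2` when `b1 = -P` -/
theorem numB {l t a : ℤ} (hP2 : P % 2 = 1)
    (hl : (l = 5 ∧ t = 1) ∨ (l = 10 ∧ t = 2) ∨ (l = 1 ∧ t = 5) ∨ (l = 2 ∧ t = 10))
    (hb2 : b2 = l * a) (hT : Two P (-P) b2) (ha : a % 2 = 1) (h3 : P % 3 = 1 → b2 % 3 = 1)
    (h5 : P % 5 = 2 ∨ P % 5 = 3 → (5 : ℤ) ∣ b2) (_h5P : P % 5 ≠ 0) (haP : l = 1 ∨ l = 2 → ¬ (5 : ℤ) ∣ a) :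
    (P % 4 = 3 → t = 1 ∨ t = 5) ∧
    (P % 8 = 5 → ((t = 1 ∨ t = 5) ∧ (-a) % 4 = 1) ∨ ((t = 2 ∨ t = 10) ∧ (-a) % 4 = 3)) ∧
    (P % 8 = 1 → (-a) % 4 = 1) ∧ (P % 3 = 1 → (t * (-a)) % 3 = 1) ∧
    (P % 5 = 2 ∨ P % 5 = 3 → t = 1 ∨ t = 2) := by
  obtain ⟨t1, t2, t3⟩ := hT
  rcases hl with ⟨rfl, rfl⟩ | ⟨rfl, rfl⟩ | ⟨rfl, rfl⟩ | ⟨rfl, rfl⟩
  · refine ⟨fun _ => by omega, fun h => ?_, fun h => ?_, fun h => ?_, fun h => by omega⟩
    · have := t2 h; omega
    · have := t3 h; omega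
    · have := h3 h; omega
  · refine ⟨fun h => ?_, fun h => ?_, fun h => ?_, fun h => ?_, fun h => by omega⟩
    · have := t1 h; omega
    · have := t2 h; omega
    · have := t3 h; omega
    · have := h3 h; omega
  · have h5a := haP (Or.inl rfl)
    refine ⟨fun _ => by omega, fun h => ?_, fun h => ?_, fun h => ?_, fun h => ?_⟩
    · have := t2 h; omega
    · have := t3 h; omega
    · have := h3 h; omega
    · have := h5 h; omega
  · have h5a := haP (Or.inr rfl)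
    refine ⟨fun h => ?_, fun h => ?_, fun h => ?_, fun h => ?_, fun h => ?_⟩
    · have := t1 h; omega
    · have := t2 h; omega
    · have := t3 h; omega
    · have := h3 h; omega
    · have := h5 h; omega

theorem b2_form (hP : P ≠ 0) (d : Dat P b1 b2 b3 u1 u2 u3 m e) :
    ∃ l a b : ℤ, (l = 1 ∨ l = 2 ∨ l = 5 ∨ l = 10) ∧ b2 = l * a ∧ a * b = P := by
  have h := b2_dvd hP d
  have five : ∀ x : ℤ, x ∣ 5 * P → ∃ l a b : ℤ, (l = 1 ∨ l = 5) ∧ x = l * a ∧ a * b = P := by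
    intro x hx
    by_cases h5 : (5 : ℤ) ∣ x
    · obtain ⟨a, rfl⟩ := h5
      obtain ⟨b, hb⟩ := (mul_dvd_mul_iff_left (by norm_num : (5 : ℤ) ≠ 0)).mp hx
      exact ⟨5, a, b, Or.inr rfl, rfl, hb.symm⟩
    · have : IsCoprime x 5 := ((Prime.coprime_iff_not_dvd int_prime5).mpr h5).symm
      obtain ⟨b, hb⟩ := this.dvd_of_dvd_mul_left hx
      exact ⟨1, x, b, Or.inl rfl, by ring, hb.symm⟩
  by_cases h2 : (2 : ℤ) ∣ b2
  · obtain ⟨c, rfl⟩ := h2
    have hc : c ∣ 5 * P := by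
      rw [show 10 * P = 2 * (5 * P) by ring] at h
      exact (mul_dvd_mul_iff_left (by norm_num : (2 : ℤ) ≠ 0)).mp h
    obtain ⟨l, a, b, hl, hx, hab⟩ := five c hc
    rcases hl with rfl | rfl
    · exact ⟨2, a, b, by norm_num, by rw [hx]; ring, hab⟩
    · exact ⟨10, a, b, by norm_num, by rw [hx]; ring, hab⟩
  · have hc : b2 ∣ 5 * P := by
      have : IsCoprime b2 2 := ((Prime.coprime_iff_not_dvd int_prime2).mpr h2).symm
      rw [show 10 * P = (5 * P) * 2 by ring] at h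
      exact this.dvd_of_dvd_mul_right h
    obtain ⟨l, a, b, hl, hx, hab⟩ := five b2 hc
    rcases hl with rfl | rfl
    · exact ⟨1, a, b, by norm_num, hx, hab⟩
    · exact ⟨5, a, b, by norm_num, hx, hab⟩

theorem odd_of_mul {a b : ℤ} (h : (a * b) % 2 = 1) : a % 2 = 1 := by
  rcases Int.emod_two_eq_zero_or_one a with h1 | h1
  · rw [Int.mul_emod, h1] at h; simp at h
  · exact h1

/-- the four classes -/
theorem classesU (hsq : Squarefree P) (hP0 : 0 < P) (h2 : P % 2 = 1)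
    (h15 : (P % 3 = 1 ∧ (P % 5 = 1 ∨ P % 5 = 4)) ∨ (P % 3 = 2 ∧ (P % 5 = 2 ∨ P % 5 = 3)))
    (hC : Crit P) (d : Dat P b1 b2 b3 u1 u2 u3 m e) (hpos : 0 < b1 * b2) :
    (b1 = 1 ∧ b2 = 1) ∨ (b1 = 1 ∧ b2 = P) ∨ (b1 = -P ∧ b2 = -5) ∨ (b1 = -P ∧ b2 = -5 * P) := by
  have hP3 : P % 3 ≠ 0 := by omega
  have hP5 : P % 5 ≠ 0 := by omega
  have h30 := prime_h30' h2 hP3 hP5
  have hT := two_of d
  have l5 := L5' hP5 d
  have sgn : (0 < b1 ∧ 0 < b2) ∨ (b1 < 0 ∧ b2 < 0) := by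
    rcases lt_or_gt_of_ne d.b10 with h | h
    · right; exact ⟨h, by nlinarith⟩
    · left; exact ⟨h, by nlinarith⟩
  have sg1 : b1 = 1 → 0 < b2 := by
    intro h
    rcases sgn with h' | h'
    · exact h'.2
    · exfalso; rw [h] at h'; linarith [h'.1]
  have sg2 : b1 = -P → b2 < 0 := by
    intro h
    rcases sgn with h' | h'
    · exfalso; rw [h] at h'; linarith [h'.1]
    · exact h'.2
  have l3b : P % 3 = 1 → b2 % 3 = 1 := fun h => L3b h d
  have hb1 : b1 = 1 ∨ b1 = -P := by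
    have key : ∀ s b0 c : ℤ, (s = 1 ∨ s = 3) → b1 = s * b0 → b0 * c = -P →
        s = 1 ∧ (b0 = 1 ∨ c = 1) := by
      intro s b0 c hs hb hc
      have hk : s ∣ 6480 := by rcases hs with rfl | rfl <;> norm_num
      obtain ⟨s1, s2⟩ := sq_b1 hsq h30 d hk hb hc
      refine hC.1 s b0 c hs hc ?_ ?_ ?_ ?_ ?_ s1 s2
      · rw [← hb]; exact fun h => (hT.1 h).1
      · rw [← hb]; exact fun h => (hT.2.1 h).1
      · rw [← hb]; exact fun h => (hT.2.2 h).1
      · intro h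
        rcases hs with hs | hs
        · exact hs
        · exfalso; exact L3a h d ⟨b0, by rw [hb, hs]⟩
      · rw [← hb]; intro h
        rcases l5 with h' | h'
        · exact h'.1
        · exact h'.1 h
    by_cases hd3 : (3 : ℤ) ∣ b1
    · exfalso
      obtain ⟨b0, hb0⟩ := hd3
      have hb1d := b1_dvd hP0.ne' d
      rw [hb0] at hb1d
      obtain ⟨c, hc⟩ := (mul_dvd_mul_iff_left (by norm_num : (3 : ℤ) ≠ 0)).mp hb1d
      have := (key 3 b0 (-c) (Or.inr rfl) hb0 (by rw [hc]; ring)).1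
      norm_num at this
    · have : IsCoprime b1 3 := ((Prime.coprime_iff_not_dvd int_prime3).mpr hd3).symm
      obtain ⟨c, hc⟩ := this.dvd_of_dvd_mul_left (b1_dvd hP0.ne' d)
      rcases (key 1 b1 (-c) (Or.inl rfl) (by ring) (by rw [hc]; ring)).2 with h | h
      · left; exact h
      · right
        have : c = -1 := by linarith
        rw [this] at hc; linarith
  obtain ⟨l, a, b, hl, hla, hab⟩ := b2_form hP0.ne' d
  have ha2 : a % 2 = 1 := odd_of_mul (b := b) (by rw [hab]; exact h2)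
  have hl6480 : l ∣ 6480 := by rcases hl with rfl | rfl | rfl | rfl <;> norm_num
  have ha5 : ¬ (5 : ℤ) ∣ a := by
    intro h
    have h5 : (5 : ℤ) ∣ P := by rw [← hab]; exact dvd_mul_of_dvd_left h _
    clear * - h5 hP5
    omega
  rcases hb1 with hb1 | hb1
  · have hs : 0 < b2 := sg1 hb1
    have ha0 : 0 < a := by
      clear * - hs hla hl
      rcases hl with rfl | rfl | rfl | rfl <;> omega
    have h5 : P % 5 = 2 ∨ P % 5 = 3 → ¬ (5 : ℤ) ∣ b2 := by
      intro h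
      rcases l5 with h' | h'
      · exact h'.2
      · exfalso
        have h'' := h'.2.1 h
        rw [hb1] at h''
        clear * - h''
        omega
    rw [hb1] at hT
    obtain ⟨n1, n2, n3, n4, n5⟩ := numA h2 hl hla hT ha2 l3b h5
    obtain ⟨s1, s2⟩ := sq_b2 hsq h30 d (t := 1) (k := l) (r := 1) (a := a) (b := b)
      (Or.inl ⟨hb1, rfl⟩) (by rw [hla]; ring) (one_dvd _) ⟨l, hl6480, hla⟩ hab
    obtain ⟨hl1, hh⟩ := hC.2 l a b hl ha0 hab n1 n2 n3 n4 n5 s1 s2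
    rcases hh with h | h
    · left; exact ⟨hb1, by rw [hla, hl1, h]; ring⟩
    · right; left; exact ⟨hb1, by rw [hla, hl1, ← hab, h]; ring⟩
  · have hs : b2 < 0 := sg2 hb1
    have ha0 : 0 < -a := by
      clear * - hs hla hl
      rcases hl with rfl | rfl | rfl | rfl <;> omega
    have h5 : P % 5 = 2 ∨ P % 5 = 3 → (5 : ℤ) ∣ b2 := by
      intro h
      rcases l5 with h' | h'
      · exfalso
        have h'' := h'.1
        rw [hb1] at h''
        clear * - h'' h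
        omega
      · exact h'.2.2
    rw [hb1] at hT
    have hab' : (-a) * (-b) = P := by rw [← hab]; ring
    have main : ∀ t r : ℤ, ((l = 5 ∧ t = 1) ∨ (l = 10 ∧ t = 2) ∨ (l = 1 ∧ t = 5) ∨
        (l = 2 ∧ t = 10)) → -5 * b2 = (t * (-a)) * r ^ 2 → r ∣ 6480 →
        t = 1 ∧ (-a = 1 ∨ -b = 1) := by
      intro t r hlt hr hr'
      obtain ⟨n1, n2, n3, n4, n5⟩ := numB h2 hlt hla hT ha2 l3b h5 hP5 (fun _ => ha5)
      obtain ⟨s1, s2⟩ := sq_b2 hsq h30 d (t := -5) (k := t) (r := r) (a := -a) (b := -b)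
        (Or.inr ⟨hb1, rfl⟩) hr hr' ⟨-l, (neg_dvd.mpr hl6480), by rw [hla]; ring⟩ hab'
      have ht : t = 1 ∨ t = 2 ∨ t = 5 ∨ t = 10 := by
        clear * - hlt
        omega
      exact hC.2 t (-a) (-b) ht ha0 hab' n1 n2 n3 n4 n5 s1 s2
    rcases hl with hl | hl | hl | hl
    · have := (main 5 1 (by right; right; left; exact ⟨hl, rfl⟩) (by rw [hla, hl]; ring)
        (one_dvd _)).1
      norm_num at this
    · have := (main 10 1 (by right; right; right; exact ⟨hl, rfl⟩) (by rw [hla, hl]; ring)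
        (one_dvd _)).1
      norm_num at this
    · obtain ⟨_, hh⟩ := main 1 5 (by left; exact ⟨hl, rfl⟩) (by rw [hla, hl]; ring)
        (by norm_num)
      rcases hh with h | h
      · right; right; left
        have ha1 : a = -1 := by linarith
        exact ⟨hb1, by rw [hla, hl, ha1]; ring⟩
      · right; right; right
        have hb1' : b = -1 := by linarith
        exact ⟨hb1, by rw [hla, hl, ← hab, hb1']; ring⟩
    · have := (main 2 5 (by right; left; exact ⟨hl, rfl⟩) (by rw [hla, hl]; ring)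
        (by norm_num)).1
      norm_num at this

end Vale.Agent.P017.H524
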