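import Vale.Agent.P017.H524.Final
import Vale.Agent.P017.H524.ClassU

/-! The uniform criterion. -/

namespace Vale.Agent.P017.H524

universe u

theorem twist_U {P : ℤ} (hsq : Squarefree P) (hP : 15 < P) (h2 : P % 2 = 1)
    (h15 : (P % 3 = 1 ∧ (P % 5 = 1 ∨ P % 5 = 4)) ∨ (P % 3 = 2 ∧ (P % 5 = 2 ∨ P % 5 = 3)))
    (hC : Crit P) (u b : ℚ) (h : -(P : ℚ) * b ^ 2 = u * (u - 16) * (u + 9)) : b = 0 := by
  have hP0 : 0 < P := by omega
  have h4 : Four P := by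
    apply four_of hP0.ne'
    intro X Y hY h
    obtain ⟨b1, b2, b3, u1, u2, u3, m, e, d, e1, e2, e3⟩ := exists_dat P X Y hY h
    refine ⟨b1, b2, (u1 : ℚ) / m, (u2 : ℚ) / m, e1, e2, ?_⟩
    exact classesU hsq hP0 h2 h15 hC d (sign_pos hP0 hY h e1 e2)
  exact twist_of hP0 (fun X Y h => no_point hP0.ne' h4
    (fin_D hsq hP (prime_h30' h2 (by omega) (by omega))) X Y h) u b h

theorem eight_U {K : Type u} [Field K] [NumberField K] {d : ℕ} (hsq : Squarefree d)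
    (hd : 1 < d) (h2 : d % 2 = 1) (h15 : d % 15 = 1 ∨ d % 15 = 2 ∨ d % 15 = 4 ∨ d % 15 = 8)
    (hC : Crit (d : ℤ))
    (hK : Module.finrank ℚ K = 2) (hα : ∃ α : K, α ^ 2 = -(d : K)) :
    Nat.card (X015.baseChange K).toAffine.Point = 8 := by
  have hsqi : Squarefree (d : ℤ) := Int.squarefree_natCast.mpr hsq
  have h15' : (15 : ℤ) < d := by omega
  have h0 : (0 : ℤ) < d := by omega
  have h1 : (1 : ℤ) < d := by omega
  have h2' : (d : ℤ) % 2 = 1 := by omega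
  have hd15 : ((d : ℤ) % 3 = 1 ∧ ((d : ℤ) % 5 = 1 ∨ (d : ℤ) % 5 = 4)) ∨
      ((d : ℤ) % 3 = 2 ∧ ((d : ℤ) % 5 = 2 ∨ (d : ℤ) % 5 = 3)) := by omega
  refine eight_of (P := (d : ℤ)) h0 (not_sq_of_sqf hsqi h1) (twist_U hsqi h15' h2' hd15 hC) hK ?_
  obtain ⟨α, hα⟩ := hα
  exact ⟨α, by rw [hα]; push_cast; ring⟩

theorem crit_of_II {P : ℤ} (h4 : P % 4 = 3) (h : CritII P) : Crit P := by
  obtain ⟨⟨h3, h5⟩, hA, hB⟩ := h
  constructor
  · intro s b c hs hbc c1 _ _ c3 _ s1 s2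
    have hs1 := c3 h3
    subst hs1
    rw [one_mul] at c1 s1 s2
    exact ⟨rfl, hA b c hbc (c1 h4) s1 s2⟩
  · intro t a b ht ha hab c1 _ _ _ c5 s1 s2
    have ht1 : t = 1 := by
      have h1 := c1 h4
      have h2 := c5 h5
      omega
    subst ht1
    rw [one_mul] at s1 s2
    exact ⟨rfl, hB a b ha hab s1 s2⟩

theorem exists_U (k N : ℕ) (hk : 1 ≤ k) :
    ∃ d > N, 1 < d ∧ Squarefree d ∧ d.primeFactors.card = k ∧ d % 4 = 3 ∧
      (d % 15 = 1 ∨ d % 15 = 2 ∨ d % 15 = 4 ∨ d % 15 = 8) ∧ Crit (d : ℤ) := by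
  obtain ⟨d, hN, h1, h2, h3, h4⟩ := exists_d k (N + 1) hk
  have h5 := h4.1
  refine ⟨d, by omega, by omega, h1, h2, by omega, by omega, crit_of_II (by omega) h4⟩

end Vale.Agent.P017.H524
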