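import Vale.Agent.P017.H524.ClassJ
import Vale.Agent.P017.H524.FinalU
import Vale.Agent.P017.H390.Princ
import Vale.Agent.P017.H390.IdealSq
import Vale.Agent.P017.H689.R12G
import Vale.Agent.P017.H766.Legendre

/-! No ideal class of order 4 implies the criterion. -/

namespace Vale.Agent.P017.H524

open NumberField

/-- if `A² = (n)`, `A J² = (u)` and no class has order 4, then `A` is principal -/
theorem princ_of {R : Type*} [CommRing R] [IsDedekindDomain R]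
    (hcl : ∀ c : ClassGroup R, c ^ 4 = 1 → c ^ 2 = 1) {A J : Ideal R} {n u : R}
    (hn : n ≠ 0) (hu : u ≠ 0) (hA : A ^ 2 = Ideal.span {n}) (hJ : A * J ^ 2 = Ideal.span {u}) :
    A.IsPrincipal := by
  have hA0 : A ≠ 0 := by
    rintro rfl
    rw [zero_pow (by norm_num)] at hA
    have : Ideal.span {n} = ⊥ := hA.symm
    rw [Ideal.span_singleton_eq_bot] at this
    exact hn this
  have hJ0 : J ≠ 0 := by
    rintro rfl
    rw [zero_pow (by norm_num), mul_zero] at hJ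
    have : Ideal.span {u} = ⊥ := hJ.symm
    rw [Ideal.span_singleton_eq_bot] at this
    exact hu this
  have hAm := mem_nonZeroDivisors_of_ne_zero hA0
  have hJm := mem_nonZeroDivisors_of_ne_zero hJ0
  have h1 : (ClassGroup.mk0 ⟨A, hAm⟩) ^ 2 = 1 := by
    rw [← map_pow]
    have : (⟨A, hAm⟩ : nonZeroDivisors (Ideal R)) ^ 2 = ⟨A ^ 2, pow_mem hAm 2⟩ := rfl
    rw [this, ClassGroup.mk0_eq_one_iff, hA]
    exact ⟨n, rfl⟩
  have h2 : (ClassGroup.mk0 ⟨A, hAm⟩) * (ClassGroup.mk0 ⟨J, hJm⟩) ^ 2 = 1 := by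
    rw [← map_pow, ← map_mul]
    have : (⟨A, hAm⟩ : nonZeroDivisors (Ideal R)) * ⟨J, hJm⟩ ^ 2
        = ⟨A * J ^ 2, mul_mem hAm (pow_mem hJm 2)⟩ := rfl
    rw [this, ClassGroup.mk0_eq_one_iff, hJ]
    exact ⟨u, rfl⟩
  have h3 : (ClassGroup.mk0 ⟨J, hJm⟩) ^ 4 = 1 := by
    calc (ClassGroup.mk0 ⟨J, hJm⟩) ^ 4
        = (ClassGroup.mk0 ⟨A, hAm⟩) ^ 2 * (ClassGroup.mk0 ⟨J, hJm⟩) ^ 4 := by rw [h1, one_mul]
      _ = ((ClassGroup.mk0 ⟨A, hAm⟩) * (ClassGroup.mk0 ⟨J, hJm⟩) ^ 2) ^ 2 := by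
          rw [mul_pow, ← pow_mul]
      _ = 1 := by rw [h2, one_pow]
  have h4 := hcl _ h3
  rw [h4, mul_one] at h2
  exact (ClassGroup.mk0_eq_one_iff hAm).mp h2

theorem exists_theta {K : Type*} [Field K] [NumberField K] {d : ℕ} (h4 : d % 4 = 3) {α : 𝓞 K}
    (hα : α ^ 2 = -(d : 𝓞 K)) : ∃ θ : 𝓞 K, 2 * θ = 1 + α := by
  obtain ⟨k, hk⟩ : ∃ k : ℕ, 4 * k = d + 1 := ⟨(d + 1) / 4, by omega⟩
  have hkK : 4 * (k : K) = d + 1 := by exact_mod_cast hk
  have hαK : (α : K) ^ 2 = -(d : K) := by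
    have := congrArg (algebraMap (𝓞 K) K) hα
    simpa using this
  have hint : IsIntegral ℤ ((1 + (α : K)) / 2) := by
    refine ⟨Polynomial.X ^ 2 + (-Polynomial.X + Polynomial.C (k : ℤ)), ?_, ?_⟩
    · apply Polynomial.monic_X_pow_add
      compute_degree!
    · simp only [Polynomial.eval₂_add, Polynomial.eval₂_pow, Polynomial.eval₂_X,
        Polynomial.eval₂_neg, Polynomial.eval₂_C]
      simp only [algebraMap_int_eq, eq_intCast, Int.cast_natCast]
      have h2 : (4 : K) ≠ 0 := by norm_num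
      apply mul_left_cancel₀ h2
      rw [mul_zero]
      linear_combination hαK + hkK
  refine ⟨⟨(1 + (α : K)) / 2, hint⟩, ?_⟩
  apply RingOfIntegers.ext
  push_cast
  show 2 * ((1 + (α : K)) / 2) = _
  ring

theorem R1_class {K : Type*} [Field K] [NumberField K] (hK : Module.finrank ℚ K = 2) {d : ℕ}
    (hd : 3 < d) (hsf : Squarefree d) (h4 : d % 4 = 3) {α : 𝓞 K} (hα : α ^ 2 = -(d : 𝓞 K))
    (hcl : ∀ c : ClassGroup (𝓞 K), c ^ 4 = 1 → c ^ 2 = 1) (a b : ℕ) (hab : a * b = d)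
    (h1 : ∀ q : ℕ, q.Prime → q ∣ b → IsSquare ((a : ℕ) : ZMod q))
    (h2 : ∀ q : ℕ, q.Prime → q ∣ a → IsSquare ((b : ℕ) : ZMod q)) : a = 1 ∨ b = 1 := by
  by_contra hne
  push Not at hne
  obtain ⟨ha1, hb1⟩ := hne
  have ha0 : a ≠ 0 := by rintro rfl; rw [zero_mul] at hab; omega
  have hb0 : b ≠ 0 := by rintro rfl; rw [mul_zero] at hab; omega
  have hsf' : Squarefree (a * b) := by rw [hab]; exact hsf
  obtain ⟨x0, y0, z0, h0, hz0⟩ := P017.H766.legendre hsf' (by omega) (by omega) h1 h2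
  obtain ⟨x, y, z, h, hz, hxy⟩ := prim_sol h0 hz0
  obtain ⟨θ, hθ⟩ := exists_theta h4 hα
  have hcop : Nat.Coprime a b := Nat.coprime_of_squarefree_mul hsf'
  have hab2 : (a * b) % 2 = 1 := by rw [hab]; omega
  have ha2 : a % 2 = 1 := by
    rcases Nat.mod_two_eq_zero_or_one a with h | h
    · rw [Nat.mul_mod, h] at hab2; simp at hab2
    · exact h
  have hb2 : b % 2 = 1 := by
    rcases Nat.mod_two_eq_zero_or_one b with h | h
    · rw [Nat.mul_mod, h] at hab2; simp at hab2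
    · exact h
  have hs : α ^ 2 = -(((a : ℤ) * (b : ℤ) : ℤ) : 𝓞 K) := by
    rw [hα, ← hab]; push_cast; ring
  obtain ⟨w, u, hw, hu, hJ⟩ := exists_J hs hθ (Int.squarefree_natCast.mpr hsf'.of_mul_left)
    (Int.squarefree_natCast.mpr hsf'.of_mul_right) (Nat.isCoprime_iff_coprime.mpr hcop)
    (by omega) (by omega) h hz hxy
  have hram := Vale.Agent.P017.H390.ram_sq hcop (α := α) (by rw [hα, ← hab]; push_cast; ring)
  have ha0' : (a : 𝓞 K) ≠ 0 := by exact_mod_cast ha0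
  have hJ' : Ideal.span {(a : 𝓞 K), α} * Ideal.span {w, u} ^ 2 = Ideal.span {u} := by
    simpa using hJ
  have hp := princ_of hcl ha0' hu hram hJ'
  rcases Vale.Agent.P017.H390.princ_trivial hK hd hsf hα hab hram hp with h | h
  · exact ha1 h
  · exact hb1 h

theorem isq_cast {a : ℕ} {q : ℕ} (h : IsSquare (((a : ℤ)) : ZMod q)) : IsSquare ((a : ℕ) : ZMod q) := by
  simpa using h

theorem critII_class {K : Type*} [Field K] [NumberField K] (hK : Module.finrank ℚ K = 2) {d : ℕ}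
    (hd : 3 < d) (hsf : Squarefree d) (h4 : d % 4 = 3) (h15 : d % 15 = 2 ∨ d % 15 = 8)
    {α : 𝓞 K} (hα : α ^ 2 = -(d : 𝓞 K))
    (hcl : ∀ c : ClassGroup (𝓞 K), c ^ 4 = 1 → c ^ 2 = 1) : CritII (d : ℤ) := by
  have hR := R1_class hK hd hsf h4 hα hcl
  refine ⟨by omega, ?_, ?_⟩
  · intro b c hbc hb4 s1 s2
    have hc4 : c % 4 = 1 := by
      have h3 : (b * c) % 4 = 1 := by rw [hbc]; omega
      rw [Int.mul_emod, hb4, one_mul, Int.emod_emod_of_dvd _ (dvd_refl 4)] at h3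
      exact h3
    exact Vale.P017.H689.R2_of_R1_all_aux hsf h4
      (fun a c h h1 h2 => hR a c h (fun q hq hqc => isq_cast (h1 q hq hqc))
        (fun q hq hqa => isq_cast (h2 q hq hqa))) b c hbc hb4 hc4 s1 s2
  · intro a b ha hab s1 s2
    have hb : 0 < b := by
      have : 0 < a * b := by rw [hab]; omega
      exact (pos_iff_pos_of_mul_pos this).mp ha
    lift a to ℕ using ha.le
    lift b to ℕ using hb.le
    have hab' : a * b = d := by exact_mod_cast hab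
    rcases hR a b hab' (fun q hq hqb => isq_cast (s1 q hq (by exact_mod_cast hqb)))
      (fun q hq hqa => isq_cast (s2 q hq (by exact_mod_cast hqa))) with h | h
    · left; exact_mod_cast h
    · right; exact_mod_cast h

theorem lift_alpha {K : Type*} [Field K] [NumberField K] {d : ℕ} {α : K}
    (hα : α ^ 2 = -(d : K)) : ∃ β : 𝓞 K, β ^ 2 = -(d : 𝓞 K) := by
  have hint : IsIntegral ℤ α := by
    apply IsIntegral.of_pow (n := 2) (by norm_num)
    rw [hα]
    exact (isIntegral_natCast d).neg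
  refine ⟨⟨α, hint⟩, ?_⟩
  apply RingOfIntegers.ext
  push_cast
  exact hα

universe u

theorem eight_class3 {K : Type u} [Field K] [NumberField K] {d : ℕ} (hsq : Squarefree d)
    (h4 : d % 4 = 3) (h15 : d % 15 = 2 ∨ d % 15 = 8)
    (hK : Module.finrank ℚ K = 2) (hα : ∃ α : K, α ^ 2 = -(d : K))
    (hcl : ∀ c : ClassGroup (𝓞 K), c ^ 4 = 1 → c ^ 2 = 1) :
    Nat.card (X015.baseChange K).toAffine.Point = 8 := by
  obtain ⟨α, hα'⟩ := hα
  obtain ⟨β, hβ⟩ := lift_alpha hα'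
  have hC := critII_class hK (by omega) hsq h4 h15 hβ hcl
  exact eight_U hsq (by omega) (by omega) (by omega) (crit_of_II (by omega) hC) hK ⟨α, hα'⟩

end Vale.Agent.P017.H524
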