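import Vale.Agent.P017.H524.ClassG

/-! No ideal class of order 4: `d ≡ 1, 2 mod 4`. -/

namespace Vale.Agent.P017.H524

open NumberField

theorem exists_J_odd {R : Type*} [CommRing R] [CharZero R] [IsDomain R] {s : R} {a b x y z : ℤ}
    (hs : s ^ 2 = -((a * b : ℤ) : R)) (ha : Squarefree a) (hb : Squarefree b)
    (hab : IsCoprime a b) (h : z ^ 2 = a * x ^ 2 + b * y ^ 2) (hz : z ≠ 0)
    (hxy : IsCoprime x y) (hz2 : z % 2 = 1) :
    ∃ w u : R, w ≠ 0 ∧ u ≠ 0 ∧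
      Ideal.span {(a : R), s} * Ideal.span {w, u} ^ 2 = Ideal.span {u} := by
  have hcop := cop_sol ha hb hab h hxy
  have ha0 : (a : R) ≠ 0 := by
    have : a ≠ 0 := ha.ne_zero
    exact_mod_cast this
  have hR : (z : R) ^ 2 = a * x ^ 2 + b * y ^ 2 := by exact_mod_cast h
  push_cast at hs
  have hc : IsCoprime (2 * (a ^ 2 * x)) (z ^ 2) := by
    have c2 : IsCoprime (2 : ℤ) z := by
      refine ⟨-(z / 2), 1, ?_⟩
      omega
    exact (c2.mul_left hcop).pow_right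
  obtain ⟨p, q, hpq⟩ := hc
  have hpqR : (p : R) * (2 * (a ^ 2 * x)) + q * z ^ 2 = 1 := by exact_mod_cast hpq
  have e1 : ((a : R) * x + y * s) * ((a : R) * x - y * s) = a * (z : R) ^ 2 := by
    linear_combination (-(y : R) ^ 2) * hs - (a : R) * hR
  have e2 : ((a : R) * x + y * s) * ((b : R) * y + x * s) = s * (z : R) ^ 2 := by
    linear_combination ((x : R) * y) * hs - s * hR
  refine ⟨(z : R), (a : R) * x + y * s, by exact_mod_cast hz, ?_,
    ideal_eq (u' := (a : R) * x - y * s) (v := (b : R) * y + x * s) (c3 := (p : R))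
      (c5 := (p : R) * a + q * x) (c6 := (q : R) * y) e1 e2 ?_⟩
  · intro h0
    rw [h0, zero_mul] at e1
    have : (z : R) ≠ 0 := by exact_mod_cast hz
    exact (mul_ne_zero ha0 (pow_ne_zero 2 this)) e1.symm
  · linear_combination hpqR - (q : R) * hR

theorem odd_of_one {a b x y z : ℤ} (h4 : (a * b) % 4 = 1)
    (h : z ^ 2 = a * x ^ 2 + b * y ^ 2) (hxy : IsCoprime x y) : z % 2 = 1 := by
  by_contra hz
  have hz2 : z % 2 = 0 := by omega
  obtain ⟨w, rfl⟩ : ∃ w, z = 2 * w := ⟨z / 2, by omega⟩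
  have z4 := congrArg (Int.cast : ℤ → ZMod 4) h
  push_cast at z4
  have h4' : ((a * b : ℤ) : ZMod 4) = 1 := by
    have := ZMod.intCast_mod (a * b) 4
    rw [← this]; push_cast; rw [h4]; decide
  push_cast at h4'
  have hxo : ¬ ((2 : ℤ) ∣ x ∧ (2 : ℤ) ∣ y) := by
    rintro ⟨h1, h2⟩
    have := hxy.isUnit_of_dvd' h1 h2
    rw [Int.isUnit_iff] at this; omega
  have key : ∀ a b x y w : ZMod 4, a * b = 1 → (2 * w) ^ 2 = a * x ^ 2 + b * y ^ 2 →
      (2 * x = 0 ∧ 2 * y = 0) := by decide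
  obtain ⟨k1, k2⟩ := key _ _ _ _ _ h4' z4
  apply hxo
  have c4 : ∀ t : ℤ, 2 * (t : ZMod 4) = 0 → (2 : ℤ) ∣ t := by
    intro t ht
    have h1 : ((2 * t : ℤ) : ZMod 4) = 0 := by push_cast; exact ht
    rw [ZMod.intCast_zmod_eq_zero_iff_dvd] at h1
    push_cast at h1
    omega
  exact ⟨c4 _ k1, c4 _ k2⟩

theorem odd_of_two {a b x y z : ℤ} (h4 : (a * b) % 4 = 2)
    (h : z ^ 2 = a * x ^ 2 + b * y ^ 2) (hxy : IsCoprime x y) : z % 2 = 1 := by
  by_contra hz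
  have hz2 : z % 2 = 0 := by omega
  obtain ⟨w, rfl⟩ : ∃ w, z = 2 * w := ⟨z / 2, by omega⟩
  have z4 := congrArg (Int.cast : ℤ → ZMod 4) h
  push_cast at z4
  have h4' : ((a * b : ℤ) : ZMod 4) = 2 := by
    have := ZMod.intCast_mod (a * b) 4
    rw [← this]; push_cast; rw [h4]; decide
  push_cast at h4'
  have hxo : ¬ ((2 : ℤ) ∣ x ∧ (2 : ℤ) ∣ y) := by
    rintro ⟨h1, h2⟩
    have := hxy.isUnit_of_dvd' h1 h2
    rw [Int.isUnit_iff] at this; omega
  have key : ∀ a b x y w : ZMod 4, a * b = 2 → (2 * w) ^ 2 = a * x ^ 2 + b * y ^ 2 →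
      (2 * x = 0 ∧ 2 * y = 0) := by decide
  obtain ⟨k1, k2⟩ := key _ _ _ _ _ h4' z4
  apply hxo
  have c4 : ∀ t : ℤ, 2 * (t : ZMod 4) = 0 → (2 : ℤ) ∣ t := by
    intro t ht
    have h1 : ((2 * t : ℤ) : ZMod 4) = 0 := by push_cast; exact ht
    rw [ZMod.intCast_zmod_eq_zero_iff_dvd] at h1
    push_cast at h1
    omega
  exact ⟨c4 _ k1, c4 _ k2⟩

theorem R1_class' {K : Type*} [Field K] [NumberField K] (hK : Module.finrank ℚ K = 2) {d : ℕ}
    (hd : 3 < d) (hsf : Squarefree d) (h4 : d % 4 = 1 ∨ d % 4 = 2) {α : 𝓞 K}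
    (hα : α ^ 2 = -(d : 𝓞 K))
    (hcl : ∀ c : ClassGroup (𝓞 K), c ^ 4 = 1 → c ^ 2 = 1) (a b : ℕ) (hab : a * b = d)
    (h1 : ∀ q : ℕ, q.Prime → q ∣ b → IsSquare ((a : ℕ) : ZMod q))
    (h2 : ∀ q : ℕ, q.Prime → q ∣ a → IsSquare ((b : ℕ) : ZMod q)) : a = 1 ∨ b = 1 := by
  by_contra hne
  push Not at hne
  obtain ⟨ha1, hb1⟩ := hne
  have ha0 : a ≠ 0 := by rintro rfl; rw [zero_mul] at hab; omega
  have hb0 : b ≠ 0 := by rintro rfl; rw [mul_zero] at hab; omega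
  have hsf' : Squarefree (a * b) := by rw [hab]; exact hsf
  obtain ⟨x0, y0, z0, h0, hz0⟩ := P017.H766.legendre hsf' (by omega) (by omega) h1 h2
  obtain ⟨x, y, z, h, hz, hxy⟩ := prim_sol h0 hz0
  have hcop : Nat.Coprime a b := Nat.coprime_of_squarefree_mul hsf'
  have habz : (a : ℤ) * b = d := by exact_mod_cast hab
  have hz2 : z % 2 = 1 := by
    rcases h4 with h4 | h4
    · exact odd_of_one (by rw [habz]; omega) h hxy
    · exact odd_of_two (by rw [habz]; omega) h hxy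
  have hs : α ^ 2 = -(((a : ℤ) * (b : ℤ) : ℤ) : 𝓞 K) := by
    rw [hα, ← hab]; push_cast; ring
  obtain ⟨w, u, hw, hu, hJ⟩ := exists_J_odd hs (Int.squarefree_natCast.mpr hsf'.of_mul_left)
    (Int.squarefree_natCast.mpr hsf'.of_mul_right) (Nat.isCoprime_iff_coprime.mpr hcop)
    h hz hxy hz2
  have hram := Vale.Agent.P017.H390.ram_sq hcop (α := α) (by rw [hα, ← hab]; push_cast; ring)
  have ha0' : (a : 𝓞 K) ≠ 0 := by exact_mod_cast ha0
  have hJ' : Ideal.span {(a : 𝓞 K), α} * Ideal.span {w, u} ^ 2 = Ideal.span {u} := by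
    simpa using hJ
  have hp := princ_of hcl ha0' hu hram hJ'
  rcases Vale.Agent.P017.H390.princ_trivial hK hd hsf hα hab hram hp with h | h
  · exact ha1 h
  · exact hb1 h

end Vale.Agent.P017.H524
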