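import Vale.Agent.P017.H524.ClassE
import Vale.Agent.P017.H524.ClassH
import Vale.Agent.P017.H524.Leg2
import Vale.Agent.P017.H390.JTwo
import Vale.Agent.P017.H689.T2C
import Vale.Agent.P017.H540.T3S
import Vale.Agent.P017.H766.L2Even

/-! `3` splits and `5` is inert in `K`, no ideal class of order 4. -/

namespace Vale.Agent.P017.H524

open NumberField

/-- the statement of the second Legendre theorem -/
def Leg2 : Prop := ∀ a b : ℕ, Squarefree (a * b) → a % 2 = 1 → b % 2 = 1 → 1 < a * b →
  (∀ q : ℕ, q.Prime → q ∣ b → IsSquare ((2 * a : ℕ) : ZMod q)) →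
  (∀ q : ℕ, q.Prime → q ∣ a → IsSquare ((2 * b : ℕ) : ZMod q)) →
  ∃ x y z : ℤ, 2 * z ^ 2 = a * x ^ 2 + b * y ^ 2 ∧ z ≠ 0

theorem leg2 : Leg2 := fun _ _ hs ha hb hab h1 h2 => legendre2 hs ha hb hab h1 h2

theorem H1_class {K : Type*} [Field K] [NumberField K] (hL2 : Leg2)
    (hK : Module.finrank ℚ K = 2) {d : ℕ}
    (hd : 3 < d) (hsf : Squarefree d) (h4 : d % 4 = 1) {α : 𝓞 K} (hα : α ^ 2 = -(d : 𝓞 K))
    (hcl : ∀ c : ClassGroup (𝓞 K), c ^ 4 = 1 → c ^ 2 = 1) (t a b : ℕ) (ht : t = 1 ∨ t = 2)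
    (hab : a * b = d) (s1 : SqMod ((t : ℤ) * a) b) (s2 : SqMod ((t : ℤ) * b) a) :
    t = 1 ∧ (a = 1 ∨ b = 1) := by
  have hab2 : (a * b) % 2 = 1 := by rw [hab]; omega
  have ha2 : a % 2 = 1 := by
    rcases Nat.mod_two_eq_zero_or_one a with h | h
    · rw [Nat.mul_mod, h] at hab2; simp at hab2
    · exact h
  have hb2 : b % 2 = 1 := by
    rcases Nat.mod_two_eq_zero_or_one b with h | h
    · rw [Nat.mul_mod, h] at hab2; simp at hab2
    · exact h
  rcases ht with rfl | rfl
  · refine ⟨rfl, R1_class' hK hd hsf (Or.inl h4) hα hcl a b hab ?_ ?_⟩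
    · intro q hq hqb
      have := s1 q hq (by exact_mod_cast hqb)
      simpa using this
    · intro q hq hqa
      have := s2 q hq (by exact_mod_cast hqa)
      simpa using this
  · exfalso
    apply Vale.Agent.P017.H390.no_two_of_no_four hK (by omega) h4 hsf hα hcl hab
    apply hL2 a b (by rw [hab]; exact hsf) ha2 hb2 (by rw [hab]; omega)
    · intro q hq hqb
      have := s1 q hq (by exact_mod_cast hqb)
      simpa using this
    · intro q hq hqa
      have := s2 q hq (by exact_mod_cast hqa)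
      simpa using this

theorem crit_one {K : Type*} [Field K] [NumberField K] (hL2 : Leg2)
    (hK : Module.finrank ℚ K = 2) {d : ℕ}
    (hd : 3 < d) (hsf : Squarefree d) (h4 : d % 4 = 1) (h15 : d % 15 = 2 ∨ d % 15 = 8)
    {α : 𝓞 K} (hα : α ^ 2 = -(d : 𝓞 K))
    (hcl : ∀ c : ClassGroup (𝓞 K), c ^ 4 = 1 → c ^ 2 = 1) : Crit (d : ℤ) := by
  have H := H1_class hL2 hK hd hsf h4 hα hcl
  have T := Vale.Agent.P017.H689.T2 hsf h4 H
  have hd5 : (d : ℤ) % 5 = 2 ∨ (d : ℤ) % 5 = 3 := by omega
  have hd3 : (d : ℤ) % 3 = 2 := by omega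
  have hd0 : (0 : ℤ) < d := by omega
  constructor
  · intro s b c hs hbc _ c5 c1 c3 _ s1 s2
    have hs1 := c3 hd3
    subst hs1
    rw [one_mul] at s1 s2
    refine ⟨rfl, ?_⟩
    have hb8 : b % 8 = 1 ∨ c % 8 = 1 := by
      have z := congrArg (Int.cast : ℤ → ZMod 8) hbc
      push_cast at z
      have c8 : ∀ (x : ℤ) (k : ℕ), x % 8 = k → (x : ZMod 8) = (k : ZMod 8) := by
        intro x k h
        have := ZMod.intCast_mod x 8
        rw [← this]; push_cast; rw [h]; simp
      have back : (c : ZMod 8) = ((1 : ℕ) : ZMod 8) → c % 8 = 1 := by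
        intro h
        exact_mod_cast mod8_of_cast (x := c) (k := 1) (by norm_num) h
      have hd8 : d % 8 = 1 ∨ d % 8 = 5 := by omega
      rcases hd8 with h8 | h8
      · rcases c1 (by omega) with h | h
        · left; rw [one_mul] at h; exact h
        · right
          rw [one_mul] at h
          apply back
          have zb := c8 b 7 (by exact_mod_cast h)
          have zd := c8 (d : ℤ) 1 (by omega)
          push_cast at zd
          rw [zb, zd] at z
          have key : ∀ c : ZMod 8, ((7 : ℕ) : ZMod 8) * c = -((1 : ℕ) : ZMod 8) →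
              c = ((1 : ℕ) : ZMod 8) := by decide
          exact key _ (by simpa using z)
      · rcases c5 (by omega) with h | h
        · left; rw [one_mul] at h; exact h
        · right
          rw [one_mul] at h
          apply back
          have zb := c8 b 3 (by exact_mod_cast h)
          have zd := c8 (d : ℤ) 5 (by omega)
          push_cast at zd
          rw [zb, zd] at z
          have key : ∀ c : ZMod 8, ((3 : ℕ) : ZMod 8) * c = -((5 : ℕ) : ZMod 8) →
              c = ((1 : ℕ) : ZMod 8) := by decide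
          exact key _ (by simpa using z)
    rcases hb8 with h | h
    · exact T b c hbc h s1 s2
    · rcases T c b (by rw [mul_comm]; exact hbc) h s2 s1 with h' | h'
      · right; exact h'
      · left; exact h'
  · intro t a b ht ha hab _ _ _ _ c5 s1 s2
    have ht2 : t = 1 ∨ t = 2 := c5 hd5
    have hb : 0 < b := by
      have : 0 < a * b := by rw [hab]; exact hd0
      exact (pos_iff_pos_of_mul_pos this).mp ha
    lift a to ℕ using ha.le
    lift b to ℕ using hb.le
    have hab' : a * b = d := by exact_mod_cast hab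
    rcases ht2 with ht1 | ht1
    · subst ht1
      obtain ⟨_, h2⟩ := H 1 a b (Or.inl rfl) hab' (by exact_mod_cast s1) (by exact_mod_cast s2)
      refine ⟨rfl, ?_⟩
      rcases h2 with h | h
      · left; exact_mod_cast h
      · right; exact_mod_cast h
    · subst ht1
      obtain ⟨h1, _⟩ := H 2 a b (Or.inr rfl) hab' (by exact_mod_cast s1) (by exact_mod_cast s2)
      omega

theorem critE_class {K : Type*} [Field K] [NumberField K]
    (hK : Module.finrank ℚ K = 2) {d : ℕ}
    (hd : 3 < d) (hsf : Squarefree d) (h4 : d % 4 = 2)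
    {α : 𝓞 K} (hα : α ^ 2 = -(d : 𝓞 K))
    (hcl : ∀ c : ClassGroup (𝓞 K), c ^ 4 = 1 → c ^ 2 = 1) : CritE (d : ℤ) := by
  have H : ∀ a b : ℕ, a * b = d → SqMod a b → SqMod b a → a = 1 ∨ b = 1 := by
    intro a b hab s1 s2
    refine R1_class' hK hd hsf (Or.inr h4) hα hcl a b hab ?_ ?_
    · intro q hq hqb
      have := s1 q hq (by exact_mod_cast hqb)
      simpa using this
    · intro q hq hqa
      have := s2 q hq (by exact_mod_cast hqa)
      simpa using this
  constructor
  · intro b c hbc hb8 s1 s2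
    refine Vale.Agent.P017.H540.t3_sqMod hsf (by omega) ?_ b c hbc hb8 s1 s2
    intro a b hab ha2 s1 s2
    rcases H a b hab s1 s2 with h | h
    · exact h
    · exfalso; rw [h, mul_one] at hab; omega
  · intro a b ha hab s1 s2
    have hb : 0 < b := by
      have : 0 < a * b := by rw [hab]; omega
      exact (pos_iff_pos_of_mul_pos this).mp ha
    lift a to ℕ using ha.le
    lift b to ℕ using hb.le
    have hab' : a * b = d := by exact_mod_cast hab
    rcases H a b hab' s1 s2 with h | h
    · left; exact_mod_cast h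
    · right; exact_mod_cast h

theorem critE_two : CritE 2 := by
  constructor
  · intro b c hbc hb8 _ _
    have : b ∣ 2 := ⟨-c, by linarith⟩
    have h1 : b ≤ 2 := Int.le_of_dvd (by norm_num) this
    have h2 : -b ≤ 2 := Int.le_of_dvd (by norm_num) ((neg_dvd).mpr this)
    omega
  · intro a b ha hab _ _
    have : a ∣ 2 := ⟨b, hab.symm⟩
    have h1 : a ≤ 2 := Int.le_of_dvd (by norm_num) this
    have : a = 1 ∨ a = 2 := by omega
    rcases this with h | h
    · left; exact h
    · right; rw [h] at hab; linarith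

universe u

theorem eight_split {K : Type u} [Field K] [NumberField K] (hL2 : Leg2) {d : ℕ}
    (hsq : Squarefree d) (h15 : d % 15 = 2 ∨ d % 15 = 8)
    (hK : Module.finrank ℚ K = 2) (hα : ∃ α : K, α ^ 2 = -(d : K))
    (hcl : ∀ c : ClassGroup (𝓞 K), orderOf c ≠ 4) :
    Nat.card (X015.baseChange K).toAffine.Point = 8 := by
  have hcl' : ∀ c : ClassGroup (𝓞 K), c ^ 4 = 1 → c ^ 2 = 1 := by
    intro c hc
    have h1 : orderOf c ∣ 4 := orderOf_dvd_of_pow_eq_one hc
    have h2 : orderOf c ∣ 2 := by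
      have h3 : orderOf c ≤ 4 := Nat.le_of_dvd (by norm_num) h1
      have h4 := hcl c
      interval_cases h : orderOf c <;> simp_all
    exact orderOf_dvd_iff_pow_eq_one.mp h2
  obtain ⟨α, hα'⟩ := hα
  obtain ⟨β, hβ⟩ := lift_alpha hα'
  have hmod : d % 4 = 1 ∨ d % 4 = 2 ∨ d % 4 = 3 := by
    have : d % 4 ≠ 0 := by
      intro h
      have h2 : 2 * 2 ∣ d := by omega
      have := hsq 2 h2
      rw [Nat.isUnit_iff] at this
      omega
    omega
  have hL := fun (b1 b2 b3 u1 u2 u3 m e : ℤ) (h4 : d % 4 = 2)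
      (D : Dat (d : ℤ) b1 b2 b3 u1 u2 u3 m e) =>
    Vale.Agent.P017.H766.L2even (p := (d : ℤ) / 2) (by omega) (by omega) D
  rcases hmod with h4 | h4 | h4
  · have hC := crit_one hL2 hK (by omega) hsq h4 h15 hβ hcl'
    exact eight_U hsq (by omega) (by omega) (by omega) hC hK ⟨α, hα'⟩
  · by_cases h2 : d = 2
    · refine eight_E hsq h4 h15 ?_ (fun b1 b2 b3 u1 u2 u3 m e D => hL b1 b2 b3 u1 u2 u3 m e h4 D)
        hK ⟨α, hα'⟩
      rw [h2]; exact_mod_cast critE_two
    · exact eight_E hsq h4 h15 (critE_class hK (by omega) hsq h4 hβ hcl')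
        (fun b1 b2 b3 u1 u2 u3 m e D => hL b1 b2 b3 u1 u2 u3 m e h4 D) hK ⟨α, hα'⟩
  · exact eight_class3 hsq h4 h15 hK ⟨α, hα'⟩ hcl'

end Vale.Agent.P017.H524
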