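import Vale.Agent.P017.H524.ClassE
import Vale.Agent.P017.H766.L2Even

/-! Even `P` with `3` inert and `5` split. -/

namespace Vale.Agent.P017.H524

variable {P b1 b2 b3 u1 u2 u3 m e : ℤ}

theorem h30E' (h3 : P % 3 ≠ 0) (h5 : P % 5 ≠ 0) :
    ∀ q : ℕ, q.Prime → q ≠ 2 → (q : ℤ) ∣ P → ¬ (q : ℤ) ∣ 6480 := by
  intro q hq hq2 hqP h
  have hp : Prime (q : ℤ) := Nat.prime_iff_prime_int.mp hq
  have h30 : (q : ℤ) ∣ 30 ^ 4 := h.trans (by norm_num)
  have h2' : (q : ℤ) ∣ 2 * (3 * 5) := by
    have := hp.dvd_of_dvd_pow h30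
    norm_num; exact this
  have cast : ∀ k : ℕ, k.Prime → (q : ℤ) ∣ k → q = k := by
    intro k hk h
    exact (Nat.prime_dvd_prime_iff_eq hq hk).mp (by exact_mod_cast h)
  rcases hp.dvd_or_dvd h2' with h | h
  · exact hq2 (cast 2 Nat.prime_two (by exact_mod_cast h))
  rcases hp.dvd_or_dvd h with h | h
  · have := cast 3 Nat.prime_three (by exact_mod_cast h)
    subst this; push_cast at hqP; omega
  · have := cast 5 Nat.prime_five (by exact_mod_cast h)
    subst this; push_cast at hqP; omega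

/-- The criterion when `3` is inert and `5` splits in `ℚ(√-P)`. -/
def CritB (P : ℤ) : Prop :=
  (∀ s b c : ℤ, (s = 1 ∨ s = 3) → b * c = -P →
    (P % 4 = 3 → (s * b) % 4 = 1) →
    (P % 4 ≠ 3 → (s * b) % 8 = 1 ∨ (s * c) % 8 = 1) →
    ((s * b) % 5 = 1 ∨ (s * b) % 5 = 4) →
    SqMod (s * b) c → SqMod (s * c) b → s = 1 ∧ (b = 1 ∨ c = 1)) ∧
  (∀ t a b : ℤ, (t = 1 ∨ t = 5 ∨ (P % 4 = 1 ∧ (t = 2 ∨ t = 10))) → 0 < a → a * b = P →
    (t * a) % 3 = 1 → SqMod (t * a) b → SqMod (t * b) a → t = 1 ∧ (a = 1 ∨ b = 1))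

/-- the four classes -/
theorem classesEB (hsq : Squarefree P) (hP0 : 0 < P) (h4 : P % 4 = 2) (h3 : P % 3 = 1)
    (h5 : P % 5 = 1 ∨ P % 5 = 4) (hC : CritB P) (d : Dat P b1 b2 b3 u1 u2 u3 m e)
    (hpos : 0 < b1 * b2) :
    (b1 = 1 ∧ b2 = 1) ∨ (b1 = 1 ∧ b2 = P) ∨ (b1 = -P ∧ b2 = -5) ∨ (b1 = -P ∧ b2 = -5 * P) := by
  have hP3 : P % 3 ≠ 0 := by omega
  have hP5 : P % 5 ≠ 0 := by omega
  have h30 := h30E' hP3 hP5
  have l5 := L5' hP5 d
  have l3 : b2 % 3 = 1 := L3b h3 d
  have hE := Vale.Agent.P017.H766.L2even (p := P / 2) (by omega) (by omega) d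
  have sgn : (0 < b1 ∧ 0 < b2) ∨ (b1 < 0 ∧ b2 < 0) := by
    rcases lt_or_gt_of_ne d.b10 with h | h
    · right; exact ⟨h, by nlinarith⟩
    · left; exact ⟨h, by nlinarith⟩
  have hb15 : b1 % 5 = 1 ∨ b1 % 5 = 4 := by
    rcases l5 with h | h
    · exact h.1
    · exact h.1 h5
  have hb1 : b1 = 1 ∨ b1 = -P := by
    have key : ∀ s b0 c : ℤ, (s = 1 ∨ s = 3) → b1 = s * b0 → b0 * c = -P →
        s = 1 ∧ (b0 = 1 ∨ c = 1) := by
      intro s b0 c hs hb hc
      have hk : s ∣ 6480 := by rcases hs with rfl | rfl <;> norm_num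
      obtain ⟨s1, s2⟩ := sq_b1' hsq h30 d hk hb hc
      refine hC.1 s b0 c hs hc (fun h => absurd h4 (by omega)) ?_ (by rw [← hb]; exact hb15) s1 s2
      intro _
      rcases hE with hE | ⟨x, hx, hE⟩
      · left; rw [← hb]; exact hE
      · right
        obtain ⟨p, hp⟩ : ∃ p, P = 2 * p := ⟨P / 2, by omega⟩
        have hp2 : p % 2 = 1 := by omega
        have e0 : P / 2 = p := by omega
        rw [e0] at hE
        have hxc : x * (s * c) = -(s ^ 2 * p) := by
          have : (2 : ℤ) * (x * (s * c)) = 2 * (-(s ^ 2 * p)) := by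
            rw [hx] at hb
            rw [hp] at hc
            linear_combination (s * c) * hb + s ^ 2 * hc
          exact mul_left_cancel₀ (by norm_num) this
        have hs8 : (s : ZMod 8) ^ 2 = 1 := by
          apply odd_sq8
          rcases hs with rfl | rfl <;> rfl
        have z1 := congrArg (Int.cast : ℤ → ZMod 8) hxc
        have z2 : ((x + p : ℤ) : ZMod 8) = 0 := by
          rw [ZMod.intCast_zmod_eq_zero_iff_dvd]; exact Int.dvd_of_emod_eq_zero hE
        have z3 := odd_sq8 hp2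
        have e1 : ((x * (s * c) : ℤ) : ZMod 8) = (x : ZMod 8) * ((s * c : ℤ) : ZMod 8) := by
          push_cast; ring
        have e2 : ((-(s ^ 2 * p) : ℤ) : ZMod 8) = -(p : ZMod 8) := by
          push_cast; rw [hs8]; ring
        rw [e1, e2] at z1
        push_cast at z2
        have key : ∀ x c y : ZMod 8, x * c = -y → x + y = 0 → y ^ 2 = 1 → c = 1 := by decide
        have := key _ _ _ z1 z2 z3
        exact_mod_cast mod8_of_cast (x := s * c) (k := 1) (by norm_num) (by simpa using this)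
    by_cases hd3 : (3 : ℤ) ∣ b1
    · exfalso
      obtain ⟨b0, hb0⟩ := hd3
      have hb1d := b1_dvd hP0.ne' d
      rw [hb0] at hb1d
      obtain ⟨c, hc⟩ := (mul_dvd_mul_iff_left (by norm_num : (3 : ℤ) ≠ 0)).mp hb1d
      have := (key 3 b0 (-c) (Or.inr rfl) hb0 (by rw [hc]; ring)).1
      norm_num at this
    · have : IsCoprime b1 3 := ((Prime.coprime_iff_not_dvd int_prime3).mpr hd3).symm
      obtain ⟨c, hc⟩ := this.dvd_of_dvd_mul_left (b1_dvd hP0.ne' d)
      rcases (key 1 b1 (-c) (Or.inl rfl) (by ring) (by rw [hc]; ring)).2 with h | h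
      · left; exact h
      · right
        have : c = -1 := by linarith
        rw [this] at hc; linarith
  have hpd : ∀ q : ℕ, q.Prime → (q : ℤ) ∣ b2 → (q : ℤ) ∣ 5 ∨ (q : ℤ) ∣ P := by
    intro q hq h
    have hp : Prime (q : ℤ) := Nat.prime_iff_prime_int.mp hq
    have h1 : (q : ℤ) ∣ 10 * P := h.trans (b2_dvd hP0.ne' d)
    rcases hp.dvd_or_dvd h1 with h2 | h2
    · rw [show (10 : ℤ) = 2 * 5 by norm_num] at h2
      rcases hp.dvd_or_dvd h2 with h2 | h2
      · right; exact h2.trans (by omega)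
      · left; exact h2
    · right; exact h2
  have five : ∀ q : ℕ, q.Prime → (q : ℤ) ∣ 5 → q = 5 := by
    intro q hq h
    exact (Nat.prime_dvd_prime_iff_eq hq Nat.prime_five).mp (by exact_mod_cast h)
  -- `b2 = l a`, `l = 1` or `5`, `a ∣ P`
  have form : ∃ l a b : ℤ, (l = 1 ∨ l = 5) ∧ b2 = l * a ∧ a * b = P := by
    by_cases h5b : (5 : ℤ) ∣ b2
    · obtain ⟨a, ha⟩ := h5b
      have hsqb : Squarefree (5 * a) := by rw [← ha]; exact d.s2
      have hna5 : ¬ (5 : ℤ) ∣ a := sqf_not int_prime5 hsqb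
      have haP : a ∣ P := by
        apply dvd_of_primes a P hsqb.of_mul_right hP0.ne'
        intro q hq h
        rcases hpd q hq (by rw [ha]; exact dvd_mul_of_dvd_right h _) with h' | h'
        · exfalso
          have := five q hq h'
          subst this
          exact hna5 (by exact_mod_cast h)
        · exact h'
      obtain ⟨b, hb⟩ := haP
      exact ⟨5, a, b, Or.inr rfl, ha, hb.symm⟩
    · have hb2 : b2 ∣ P := by
        apply dvd_of_primes b2 P d.s2 hP0.ne'
        intro q hq h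
        rcases hpd q hq h with h' | h'
        · exfalso
          have := five q hq h'
          subst this
          exact h5b (by exact_mod_cast h)
        · exact h'
      obtain ⟨b, hb⟩ := hb2
      exact ⟨1, b2, b, Or.inl rfl, by ring, hb.symm⟩
  obtain ⟨l, a, b, hl, hla, hab⟩ := form
  have hl6480 : l ∣ 6480 := by rcases hl with rfl | rfl <;> norm_num
  rcases hb1 with hb1 | hb1
  · have hs : 0 < b2 := by
      rcases sgn with h | h
      · exact h.2
      · exfalso; rw [hb1] at h; linarith [h.1]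
    have ha0 : 0 < a := by
      clear * - hs hla hl
      rcases hl with rfl | rfl <;> omega
    obtain ⟨s1, s2⟩ := sq_b2' hsq h30 d (t := 1) (k := l) (r := 1) (a := a) (b := b)
      (Or.inl ⟨hb1, rfl⟩) (by rw [hla]; ring) (one_dvd _) ⟨l, hl6480, hla⟩ hab
    obtain ⟨hl1, hh⟩ := hC.2 l a b (by
      rcases hl with h | h
      · left; exact h
      · right; left; exact h) ha0 hab (by rw [← hla]; exact l3) s1 s2
    rcases hh with h | h
    · left; exact ⟨hb1, by rw [hla, hl1, h]; ring⟩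
    · right; left; exact ⟨hb1, by rw [hla, hl1, ← hab, h]; ring⟩
  · have hs : b2 < 0 := by
      rcases sgn with h | h
      · exfalso; rw [hb1] at h; linarith [h.1]
      · exact h.2
    have ha0 : 0 < -a := by
      clear * - hs hla hl
      rcases hl with rfl | rfl <;> omega
    have hab' : (-a) * (-b) = P := by rw [← hab]; ring
    have main : ∀ t r : ℤ, (t = 1 ∨ t = 5) → -5 * b2 = (t * (-a)) * r ^ 2 → r ∣ 6480 →
        (t * (-a)) % 3 = 1 → t = 1 ∧ (-a = 1 ∨ -b = 1) := by
      intro t r ht hr hr' h3'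
      have ht6 : t ∣ 6480 := by rcases ht with rfl | rfl <;> norm_num
      obtain ⟨s1, s2⟩ := sq_b2' hsq h30 d (t := -5) (k := t) (r := r) (a := -a) (b := -b)
        (Or.inr ⟨hb1, rfl⟩) hr hr' ⟨-l, (neg_dvd.mpr hl6480), by rw [hla]; ring⟩ hab'
      exact hC.2 t (-a) (-b) (by
        rcases ht with h | h
        · left; exact h
        · right; left; exact h) ha0 hab' h3' s1 s2
    rcases hl with hl | hl
    · have := (main 5 1 (Or.inr rfl) (by rw [hla, hl]; ring) (one_dvd _)
        (by rw [hl, one_mul] at hla; rw [← hla]; clear * - l3; omega)).1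
      norm_num at this
    · obtain ⟨_, hh⟩ := main 1 5 (Or.inl rfl) (by rw [hla, hl]; ring) (by norm_num)
        (by rw [hl] at hla; rw [hla] at l3; clear * - l3; omega)
      rcases hh with h | h
      · right; right; left
        have ha1 : a = -1 := by linarith
        exact ⟨hb1, by rw [hla, hl, ha1]; ring⟩
      · right; right; right
        have hb1' : b = -1 := by linarith
        exact ⟨hb1, by rw [hla, hl, ← hab, hb1']; ring⟩

theorem eight_EB {K : Type*} [Field K] [NumberField K] {d : ℕ} (hsq : Squarefree d)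
    (h4 : d % 4 = 2) (h15 : d % 15 = 1 ∨ d % 15 = 4) (hC : CritB (d : ℤ))
    (hK : Module.finrank ℚ K = 2) (hα : ∃ α : K, α ^ 2 = -(d : K)) :
    Nat.card (X015.baseChange K).toAffine.Point = 8 := by
  have hsqi : Squarefree (d : ℤ) := Int.squarefree_natCast.mpr hsq
  have h0 : (0 : ℤ) < d := by omega
  have h1 : (1 : ℤ) < d := by omega
  have h4' : (d : ℤ) % 4 = 2 := by omega
  have h3' : (d : ℤ) % 3 = 1 := by omega
  have h5' : (d : ℤ) % 5 = 1 ∨ (d : ℤ) % 5 = 4 := by omega
  have hfour : Four (d : ℤ) := by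
    apply four_of h0.ne'
    intro X Y hY h
    obtain ⟨b1, b2, b3, u1, u2, u3, m, e, D, e1, e2, e3⟩ := exists_dat (d : ℤ) X Y hY h
    refine ⟨b1, b2, (u1 : ℚ) / m, (u2 : ℚ) / m, e1, e2, ?_⟩
    exact classesEB hsqi h0 h4' h3' h5' hC D (sign_pos h0 hY h e1 e2)
  have htw := twist_of h0 (fun X Y h => no_point h0.ne' hfour
    (fin_E hsqi h0 h4' (h30E' (by omega) (by omega))) X Y h)
  refine eight_of (P := (d : ℤ)) h0 (not_sq_of_sqf hsqi h1) htw hK ?_
  obtain ⟨α, hα⟩ := hα
  exact ⟨α, by rw [hα]; push_cast; ring⟩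

theorem crit_of_B {P : ℤ} (h2 : P % 2 = 1) (h3 : P % 3 = 1) (h5 : P % 5 = 1 ∨ P % 5 = 4)
    (h : CritB P) : Crit P := by
  obtain ⟨hA, hB⟩ := h
  constructor
  · intro s b c hs hbc c1 c2 c3 _ c5 s1 s2
    refine hA s b c hs hbc c1 ?_ (c5 h5) s1 s2
    intro hne
    have hs8 : (s : ZMod 8) ^ 2 = 1 := by
      apply odd_sq8
      rcases hs with rfl | rfl <;> rfl
    have c8 : ∀ (x : ℤ) (k : ℕ), x % 8 = k → (x : ZMod 8) = (k : ZMod 8) := by
      intro x k h
      have := ZMod.intCast_mod x 8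
      rw [← this]; push_cast; rw [h]; simp
    have z : (s * b) * (s * c) = -(s ^ 2 * P) := by linear_combination (s ^ 2) * hbc
    have z1 := congrArg (Int.cast : ℤ → ZMod 8) z
    have e1 : (((s * b) * (s * c) : ℤ) : ZMod 8) =
        ((s * b : ℤ) : ZMod 8) * ((s * c : ℤ) : ZMod 8) := by push_cast; ring
    have e2 : ((-(s ^ 2 * P) : ℤ) : ZMod 8) = -(P : ZMod 8) := by push_cast; rw [hs8]; ring
    rw [e1, e2] at z1
    have back : ((s * c : ℤ) : ZMod 8) = ((1 : ℕ) : ZMod 8) → (s * c) % 8 = 1 := by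
      intro h
      exact_mod_cast mod8_of_cast (x := s * c) (k := 1) (by norm_num) h
    have hd8 : P % 8 = 1 ∨ P % 8 = 5 := by omega
    rcases hd8 with h8 | h8
    · rcases c3 h8 with h | h
      · left; exact h
      · right
        apply back
        have zb := c8 (s * b) 7 (by exact_mod_cast h)
        have zd := c8 P 1 (by exact_mod_cast h8)
        rw [zb, zd] at z1
        have key : ∀ c : ZMod 8, ((7 : ℕ) : ZMod 8) * c = -((1 : ℕ) : ZMod 8) →
            c = ((1 : ℕ) : ZMod 8) := by decide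
        exact key _ z1
    · rcases c2 h8 with h | h
      · left; exact h
      · right
        apply back
        have zb := c8 (s * b) 3 (by exact_mod_cast h)
        have zd := c8 P 5 (by exact_mod_cast h8)
        rw [zb, zd] at z1
        have key : ∀ c : ZMod 8, ((3 : ℕ) : ZMod 8) * c = -((5 : ℕ) : ZMod 8) →
            c = ((1 : ℕ) : ZMod 8) := by decide
        exact key _ z1
  · intro t a b ht ha hab c1 _ _ c3 _ s1 s2
    refine hB t a b ?_ ha hab (c3 h3) s1 s2
    have hP4 : P % 4 = 3 ∨ P % 4 = 1 := by omega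
    rcases hP4 with h4 | h4
    · rcases c1 h4 with h | h
      · left; exact h
      · right; left; exact h
    · rcases ht with h | h | h | h
      · left; exact h
      · right; right; exact ⟨h4, Or.inl h⟩
      · right; left; exact h
      · right; right; exact ⟨h4, Or.inr h⟩

/-- `3` inert, `5` split -/
theorem eight_B {K : Type*} [Field K] [NumberField K] {d : ℕ} (hsq : Squarefree d) (hd : 1 < d)
    (h15 : d % 15 = 1 ∨ d % 15 = 4) (hC : CritB (d : ℤ))
    (hK : Module.finrank ℚ K = 2) (hα : ∃ α : K, α ^ 2 = -(d : K)) :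
    Nat.card (X015.baseChange K).toAffine.Point = 8 := by
  have hmod : d % 2 = 1 ∨ d % 4 = 2 := by
    have : d % 4 ≠ 0 := by
      intro h
      have h2 : 2 * 2 ∣ d := by omega
      have := hsq 2 h2
      rw [Nat.isUnit_iff] at this
      omega
    omega
  rcases hmod with h2 | h4
  · exact eight_U hsq hd h2 (by omega)
      (crit_of_B (by omega) (by omega) (by omega) hC) hK hα
  · exact eight_EB hsq h4 h15 hC hK hα

end Vale.Agent.P017.H524
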