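import Mathlib

/-! Square classes of integers, used for the `2`-descent on `D Y² = X (X - 1) (X - 81)`. -/

namespace Vale.Agent.P017.H524

/-- every nonzero integer is a squarefree integer times a nonzero square -/
theorem sqfree_dec (n : ℤ) (hn : n ≠ 0) :
    ∃ b u : ℤ, n = b * u ^ 2 ∧ Squarefree b ∧ b ≠ 0 ∧ u ≠ 0 := by
  obtain ⟨b, a, hab', hsq⟩ := Nat.sq_mul_squarefree n.natAbs
  have hab : a ^ 2 * b = n.natAbs := hab'
  have hn' : n.natAbs ≠ 0 := by simpa using hn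
  have hb0 : b ≠ 0 := fun h => hn' (by rw [← hab, h]; simp)
  have ha0 : a ≠ 0 := fun h => hn' (by rw [← hab, h]; simp)
  have key : ((a : ℤ)) ^ 2 * b = (n.natAbs : ℤ) := by exact_mod_cast hab
  rcases Int.natAbs_eq n with h | h
  · refine ⟨b, a, ?_, ?_, by exact_mod_cast hb0, by exact_mod_cast ha0⟩
    · rw [h, ← key]; ring
    · exact Int.squarefree_natCast.mpr hsq
  · refine ⟨-b, a, ?_, ?_, by simpa using hb0, by exact_mod_cast ha0⟩
    · rw [h, ← key]; ring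
    · rw [← Int.squarefree_natAbs]; simpa using hsq

/-- a squarefree integer all of whose prime divisors divide `N` divides `N` -/
theorem dvd_of_primes (b N : ℤ) (hb : Squarefree b) (hN : N ≠ 0)
    (h : ∀ q : ℕ, q.Prime → (q : ℤ) ∣ b → (q : ℤ) ∣ N) : b ∣ N := by
  have hb' : Squarefree b.natAbs := Int.squarefree_natAbs.mpr hb
  rw [← Int.natAbs_dvd_natAbs]
  have : ∏ q ∈ b.natAbs.primeFactors, q ∣ ∏ q ∈ N.natAbs.primeFactors, q := by
    apply Finset.prod_dvd_prod_of_subset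
    intro q hq
    rw [Nat.mem_primeFactors] at hq ⊢
    refine ⟨hq.1, ?_, by simpa using hN⟩
    have := h q hq.1 (Int.natCast_dvd.mpr hq.2.1)
    exact Int.natCast_dvd.mp this
  rw [Nat.prod_primeFactors_of_squarefree hb'] at this
  exact this.trans (Nat.prod_primeFactors_dvd _)

/-- the data of the descent -/
structure Dat (P b1 b2 b3 u1 u2 u3 m e : ℤ) : Prop where
  s1 : Squarefree b1
  s2 : Squarefree b2
  s3 : Squarefree b3
  h2 : b2 * u2 ^ 2 = b1 * u1 ^ 2 + P * m ^ 2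
  h3 : b3 * u3 ^ 2 = b1 * u1 ^ 2 + 81 * P * m ^ 2
  he : b1 * b2 * b3 = e ^ 2
  cop : IsCoprime (b1 * u1 ^ 2) m
  m0 : m ≠ 0
  b10 : b1 ≠ 0
  b20 : b2 ≠ 0
  b30 : b3 ≠ 0
  u10 : u1 ≠ 0
  u20 : u2 ≠ 0
  u30 : u3 ≠ 0

variable {P b1 b2 b3 u1 u2 u3 m e : ℤ}

/-- a prime dividing one of three squarefree integers with square product divides another one -/
theorem prime_dvd_other {a b c e : ℤ} (ha : Squarefree a) (h : a * b * c = e ^ 2) {q : ℕ}
    (hq : q.Prime) (hqa : (q : ℤ) ∣ a) : (q : ℤ) ∣ b ∨ (q : ℤ) ∣ c := by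
  have hp : Prime (q : ℤ) := Nat.prime_iff_prime_int.mp hq
  have hqe : (q : ℤ) ∣ e := by
    apply hp.dvd_of_dvd_pow (n := 2)
    rw [← h]; exact dvd_mul_of_dvd_left (dvd_mul_of_dvd_left hqa _) _
  have h2 : (q : ℤ) * q ∣ a * (b * c) := by
    rw [← mul_assoc, h, sq]; exact mul_dvd_mul hqe hqe
  obtain ⟨a', rfl⟩ := hqa
  have h3 : (q : ℤ) ∣ a' * (b * c) := by
    rw [mul_assoc] at h2
    exact (mul_dvd_mul_iff_left hp.ne_zero).mp h2
  rcases hp.dvd_or_dvd h3 with h4 | h4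
  · exfalso
    have := ha q (mul_dvd_mul_left _ h4)
    exact hp.not_isUnit this
  · exact hp.dvd_or_dvd h4

theorem not_dvd_m_of_b1 (d : Dat P b1 b2 b3 u1 u2 u3 m e) {q : ℕ} (hq : q.Prime)
    (h : (q : ℤ) ∣ b1 * u1 ^ 2) : ¬ (q : ℤ) ∣ m := by
  intro hm
  have hp : Prime (q : ℤ) := Nat.prime_iff_prime_int.mp hq
  exact hp.not_isUnit (d.cop.isUnit_of_dvd' h hm)

theorem not_dvd_m_of_b2 (d : Dat P b1 b2 b3 u1 u2 u3 m e) {q : ℕ} (hq : q.Prime)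
    (h : (q : ℤ) ∣ b2 * u2 ^ 2) : ¬ (q : ℤ) ∣ m := by
  intro hm
  refine not_dvd_m_of_b1 d hq ?_ hm
  have : b1 * u1 ^ 2 = b2 * u2 ^ 2 - P * m ^ 2 := by rw [d.h2]; ring
  rw [this]
  exact dvd_sub h (dvd_mul_of_dvd_right (dvd_pow hm (by norm_num)) _)

theorem prime_b1 (d : Dat P b1 b2 b3 u1 u2 u3 m e) {q : ℕ} (hq : q.Prime) (h : (q : ℤ) ∣ b1) :
    (q : ℤ) ∣ 81 * P := by
  have hp : Prime (q : ℤ) := Nat.prime_iff_prime_int.mp hq
  have h1 : (q : ℤ) ∣ b1 * u1 ^ 2 := dvd_mul_of_dvd_left h _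
  have hm := not_dvd_m_of_b1 d hq h1
  have hm2 : ¬ (q : ℤ) ∣ m ^ 2 := fun h => hm (hp.dvd_of_dvd_pow h)
  rcases prime_dvd_other d.s1 d.he hq h with h4 | h4
  · have h5 : (q : ℤ) ∣ P * m ^ 2 := by
      have : P * m ^ 2 = b2 * u2 ^ 2 - b1 * u1 ^ 2 := by rw [d.h2]; ring
      rw [this]; exact dvd_sub (dvd_mul_of_dvd_left h4 _) h1
    rcases hp.dvd_or_dvd h5 with h6 | h6
    · exact dvd_mul_of_dvd_right h6 _
    · exact absurd h6 hm2
  · have h5 : (q : ℤ) ∣ 81 * P * m ^ 2 := by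
      have : 81 * P * m ^ 2 = b3 * u3 ^ 2 - b1 * u1 ^ 2 := by rw [d.h3]; ring
      rw [this]; exact dvd_sub (dvd_mul_of_dvd_left h4 _) h1
    rcases hp.dvd_or_dvd h5 with h6 | h6
    · exact h6
    · exact absurd h6 hm2

theorem prime_b2 (d : Dat P b1 b2 b3 u1 u2 u3 m e) {q : ℕ} (hq : q.Prime) (h : (q : ℤ) ∣ b2) :
    (q : ℤ) ∣ 80 * P := by
  have hp : Prime (q : ℤ) := Nat.prime_iff_prime_int.mp hq
  have h1 : (q : ℤ) ∣ b2 * u2 ^ 2 := dvd_mul_of_dvd_left h _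
  have hm := not_dvd_m_of_b2 d hq h1
  have hm2 : ¬ (q : ℤ) ∣ m ^ 2 := fun h => hm (hp.dvd_of_dvd_pow h)
  have he' : b2 * b1 * b3 = e ^ 2 := by rw [← d.he]; ring
  rcases prime_dvd_other d.s2 he' hq h with h4 | h4
  · have h5 : (q : ℤ) ∣ P * m ^ 2 := by
      have : P * m ^ 2 = b2 * u2 ^ 2 - b1 * u1 ^ 2 := by rw [d.h2]; ring
      rw [this]; exact dvd_sub h1 (dvd_mul_of_dvd_left h4 _)
    rcases hp.dvd_or_dvd h5 with h6 | h6
    · exact dvd_mul_of_dvd_right h6 _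
    · exact absurd h6 hm2
  · have h5 : (q : ℤ) ∣ 80 * P * m ^ 2 := by
      have : 80 * P * m ^ 2 = b3 * u3 ^ 2 - b2 * u2 ^ 2 := by rw [d.h3, d.h2]; ring
      rw [this]; exact dvd_sub (dvd_mul_of_dvd_left h4 _) h1
    rcases hp.dvd_or_dvd h5 with h6 | h6
    · exact h6
    · exact absurd h6 hm2

theorem b1_dvd (hP : P ≠ 0) (d : Dat P b1 b2 b3 u1 u2 u3 m e) : b1 ∣ 3 * P := by
  apply dvd_of_primes b1 (3 * P) d.s1 (mul_ne_zero (by norm_num) hP)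
  intro q hq h
  have hp : Prime (q : ℤ) := Nat.prime_iff_prime_int.mp hq
  rcases hp.dvd_or_dvd (prime_b1 d hq h) with h6 | h6
  · have : (q : ℤ) ∣ 3 := by
      have h7 : (q : ℤ) ∣ (3 : ℤ) ^ 4 := by norm_num; exact h6
      exact hp.dvd_of_dvd_pow h7
    exact dvd_mul_of_dvd_left this _
  · exact dvd_mul_of_dvd_right h6 _

theorem b2_dvd (hP : P ≠ 0) (d : Dat P b1 b2 b3 u1 u2 u3 m e) : b2 ∣ 10 * P := by
  apply dvd_of_primes b2 (10 * P) d.s2 (mul_ne_zero (by norm_num) hP)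
  intro q hq h
  have hp : Prime (q : ℤ) := Nat.prime_iff_prime_int.mp hq
  rcases hp.dvd_or_dvd (prime_b2 d hq h) with h6 | h6
  · have h7 : (q : ℤ) ∣ 10 ^ 4 := h6.trans (by norm_num)
    exact dvd_mul_of_dvd_left (hp.dvd_of_dvd_pow h7) _
  · exact dvd_mul_of_dvd_right h6 _

end Vale.Agent.P017.H524
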