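import Vale.Agent.P017.H524.Local

/-! From rational points to descent data, and the list of square classes. -/

namespace Vale.Agent.P017.H524

variable {P b1 b2 b3 u1 u2 u3 m e : ℤ}

theorem sq_mul_sq {a b c : ℤ} (hb : b ≠ 0) (h : a * b ^ 2 = c ^ 2) : ∃ d : ℤ, a = d ^ 2 := by
  have h1 : b ^ 2 ∣ c ^ 2 := ⟨a, by rw [← h]; ring⟩
  have h2 : b ∣ c := (Int.pow_dvd_pow_iff (by norm_num)).mp h1
  obtain ⟨d, rfl⟩ := h2
  refine ⟨d, ?_⟩
  have h3 : b ^ 2 * a = b ^ 2 * d ^ 2 := by linear_combination h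
  exact mul_left_cancel₀ (pow_ne_zero 2 hb) h3

theorem exists_dat (P : ℤ) (X Y : ℚ) (hY : Y ≠ 0) (h : Y ^ 2 = X * (X + P) * (X + 81 * P)) :
    ∃ b1 b2 b3 u1 u2 u3 m e : ℤ, Dat P b1 b2 b3 u1 u2 u3 m e ∧
      X = b1 * ((u1 : ℚ) / m) ^ 2 ∧ X + P = b2 * ((u2 : ℚ) / m) ^ 2 ∧
      X + 81 * P = b3 * ((u3 : ℚ) / m) ^ 2 := by
  set n : ℤ := X.num with hn
  set d : ℤ := (X.den : ℤ) with hd
  have hd0 : 0 < d := by rw [hd]; exact_mod_cast X.den_pos
  have hdq : (d : ℚ) ≠ 0 := by exact_mod_cast hd0.ne'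
  have hX : X = (n : ℚ) / d := by
    rw [hn, hd]; exact_mod_cast (Rat.num_div_den X).symm
  have hcop : IsCoprime n d := by
    rw [hn, hd, Int.isCoprime_iff_gcd_eq_one]
    exact_mod_cast X.reduced
  have hX0 : X ≠ 0 := by
    rintro h0; rw [h0] at h; apply hY; simpa using h
  have hX1 : X + P ≠ 0 := by
    intro h0; rw [h0] at h; apply hY; simpa using h
  have hX2 : X + 81 * P ≠ 0 := by
    intro h0; rw [h0] at h; apply hY; simpa using h
  -- the numerator product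
  have hsq : IsSquare (((d * (n * (n + P * d) * (n + 81 * P * d)) : ℤ)) : ℚ) := by
    refine ⟨Y * d ^ 2, ?_⟩
    have : Y * (d : ℚ) ^ 2 * (Y * (d : ℚ) ^ 2) = Y ^ 2 * (d : ℚ) ^ 4 := by ring
    rw [this, h, hX]
    push_cast
    field_simp
  rw [Rat.isSquare_intCast_iff] at hsq
  obtain ⟨w, hw⟩ := hsq
  have hcop2 : IsCoprime d (n * (n + P * d) * (n + 81 * P * d)) := by
    have h1 : IsCoprime d n := hcop.symm
    have h2 : IsCoprime d (n + P * d) := by
      simpa using h1.add_mul_right_right P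
    have h3 : IsCoprime d (n + 81 * P * d) := by
      simpa using h1.add_mul_right_right (81 * P)
    exact (h1.mul_right h2).mul_right h3
  obtain ⟨m, hm⟩ := Int.sq_of_isCoprime hcop2 (by rw [hw]; ring : _ = w ^ 2)
  have hm : d = m ^ 2 := by
    rcases hm with h | h
    · exact h
    · nlinarith [sq_nonneg m]
  have hm0 : m ≠ 0 := by
    rintro rfl; rw [hm] at hd0; norm_num at hd0
  have hmq : (m : ℚ) ≠ 0 := by exact_mod_cast hm0
  have hdm : (d : ℚ) = (m : ℚ) ^ 2 := by exact_mod_cast congrArg (Int.cast : ℤ → ℚ) hm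
  -- the three numbers
  have hn1 : n ≠ 0 := by
    intro h0; apply hX0; rw [hX, h0]; simp
  have hn2 : n + P * m ^ 2 ≠ 0 := by
    intro h0; apply hX1
    have : (n : ℚ) + P * (m : ℚ) ^ 2 = 0 := by exact_mod_cast h0
    rw [hX, hdm]; field_simp; linear_combination this
  have hn3 : n + 81 * P * m ^ 2 ≠ 0 := by
    intro h0; apply hX2
    have : (n : ℚ) + 81 * P * (m : ℚ) ^ 2 = 0 := by exact_mod_cast h0
    rw [hX, hdm]; field_simp; linear_combination this
  obtain ⟨b1, u1, e1, s1, b10, u10⟩ := sqfree_dec n hn1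
  obtain ⟨b2, u2, e2, s2, b20, u20⟩ := sqfree_dec _ hn2
  obtain ⟨b3, u3, e3, s3, b30, u30⟩ := sqfree_dec _ hn3
  have hN : ∃ t : ℤ, n * (n + P * m ^ 2) * (n + 81 * P * m ^ 2) = t ^ 2 := by
    apply sq_mul_sq hm0 (c := w)
    rw [hm] at hw
    linear_combination hw
  obtain ⟨t, ht⟩ := hN
  have hE : ∃ e : ℤ, b1 * b2 * b3 = e ^ 2 := by
    apply sq_mul_sq (b := u1 * u2 * u3) (mul_ne_zero (mul_ne_zero u10 u20) u30) (c := t)
    rw [← ht, e2, e3]
    linear_combination (-(b2 * u2 ^ 2 * (b3 * u3 ^ 2))) * e1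
  obtain ⟨e, he⟩ := hE
  refine ⟨b1, b2, b3, u1, u2, u3, m, e, ⟨s1, s2, s3, ?_, ?_, he, ?_, hm0, b10, b20, b30, u10,
    u20, u30⟩, ?_, ?_, ?_⟩
  · rw [← e2, ← e1]
  · rw [← e3, ← e1]
  · rw [← e1]
    rw [hm] at hcop
    exact (IsCoprime.pow_right_iff (by norm_num)).mp hcop
  · have : (n : ℚ) = b1 * (u1 : ℚ) ^ 2 := by exact_mod_cast congrArg (Int.cast : ℤ → ℚ) e1
    rw [hX, hdm, this]; ring
  · have : (n : ℚ) + P * (m : ℚ) ^ 2 = b2 * (u2 : ℚ) ^ 2 := by
      exact_mod_cast congrArg (Int.cast : ℤ → ℚ) e2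
    rw [div_pow, ← mul_div_assoc, ← this, hX, hdm]; field_simp
  · have : (n : ℚ) + 81 * P * (m : ℚ) ^ 2 = b3 * (u3 : ℚ) ^ 2 := by
      exact_mod_cast congrArg (Int.cast : ℤ → ℚ) e3
    rw [div_pow, ← mul_div_assoc, ← this, hX, hdm]; field_simp

theorem dvd3 {b : ℤ} (h : b ∣ 3) : b = 1 ∨ b = -1 ∨ b = 3 ∨ b = -3 := by
  have h1 : b ≤ 3 := Int.le_of_dvd (by norm_num) h
  have h2 : -b ≤ 3 := Int.le_of_dvd (by norm_num) (neg_dvd.mpr h)
  have h3 : -3 ≤ b := by omega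
  interval_cases b <;> first | omega | (exfalso; revert h; decide)

theorem dvd5 {b : ℤ} (h : b ∣ 5) : b = 1 ∨ b = -1 ∨ b = 5 ∨ b = -5 := by
  have h1 : b ≤ 5 := Int.le_of_dvd (by norm_num) h
  have h2 : -b ≤ 5 := Int.le_of_dvd (by norm_num) (neg_dvd.mpr h)
  have h3 : -5 ≤ b := by omega
  interval_cases b <;> first | omega | (exfalso; revert h; decide)

/-- divisors of `k p` -/
theorem dvd_mul_prime {b k p : ℤ} (hp : Prime p) (h : b ∣ k * p) :
    b ∣ k ∨ ∃ c, b = p * c ∧ c ∣ k := by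
  by_cases hb : p ∣ b
  · right
    obtain ⟨c, rfl⟩ := hb
    refine ⟨c, rfl, ?_⟩
    rw [mul_comm k p] at h
    exact (mul_dvd_mul_iff_left hp.ne_zero).mp h
  · left
    have : IsCoprime b p := ((Prime.coprime_iff_not_dvd hp).mpr hb).symm
    exact this.dvd_of_dvd_mul_right h

theorem mod5_of_cast {x : ℤ} {k : ℕ} (hk : k < 5) (h : (x : ZMod 5) = (k : ZMod 5)) :
    x % 5 = k := by
  have : ((x - k : ℤ) : ZMod 5) = 0 := by push_cast; rw [h]; ring
  have := (cast5 _).mp this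
  omega

theorem b1_cases {p : ℤ} (hp : Prime p) (d : Dat p b1 b2 b3 u1 u2 u3 m e) :
    b1 = 1 ∨ b1 = -1 ∨ b1 = 3 ∨ b1 = -3 ∨ b1 = p ∨ b1 = -p ∨ b1 = 3 * p ∨ b1 = -3 * p := by
  rcases dvd_mul_prime hp (b1_dvd hp.ne_zero d) with h | ⟨c, hc, h⟩
  · rcases dvd3 h with h | h | h | h <;> tauto
  · rcases dvd3 h with h | h | h | h <;> rw [hc, h] <;> ring_nf <;> tauto

theorem b2_cases {p : ℤ} (hp : Prime p) (d : Dat p b1 b2 b3 u1 u2 u3 m e)
    (h2 : ¬ (2 : ℤ) ∣ b2) :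
    b2 = 1 ∨ b2 = -1 ∨ b2 = 5 ∨ b2 = -5 ∨ b2 = p ∨ b2 = -p ∨ b2 = 5 * p ∨ b2 = -5 * p := by
  have h10 : b2 ∣ (5 * p) * 2 := by
    have := b2_dvd hp.ne_zero d
    rw [show (5 * p) * 2 = 10 * p by ring]; exact this
  have h5 : b2 ∣ 5 * p := by
    have : IsCoprime b2 2 := ((Prime.coprime_iff_not_dvd int_prime2).mpr h2).symm
    exact this.dvd_of_dvd_mul_right h10
  rcases dvd_mul_prime hp h5 with h | ⟨c, hc, h⟩
  · rcases dvd5 h with h | h | h | h <;> tauto
  · rcases dvd5 h with h | h | h | h <;> rw [hc, h] <;> ring_nf <;> tauto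

/-- The four square classes for `P = p`. -/
theorem classes {p : ℤ} (hp : Prime p) (hp0 : 0 < p) (h4 : p % 4 = 3)
    (h15 : (p % 3 = 1 ∧ (p % 5 = 1 ∨ p % 5 = 4)) ∨ (p % 3 = 2 ∧ (p % 5 = 2 ∨ p % 5 = 3)))
    (d : Dat p b1 b2 b3 u1 u2 u3 m e) (hpos : 0 < b1 * b2) :
    (b1 = 1 ∧ b2 = 1) ∨ (b1 = 1 ∧ b2 = p) ∨ (b1 = -p ∧ b2 = -5) ∨ (b1 = -p ∧ b2 = -5 * p) := by
  obtain ⟨l2, l2'⟩ := L2 h4 d
  have hp5 : ¬ (5 : ℤ) ∣ p := by omega
  have hc1 := b1_cases hp d
  have hc2 := b2_cases hp d l2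
  -- the sign
  have sgn : (0 < b1 ∧ 0 < b2) ∨ (b1 < 0 ∧ b2 < 0) := by
    rcases lt_or_gt_of_ne d.b10 with h | h
    · right; exact ⟨h, by nlinarith⟩
    · left; exact ⟨h, by nlinarith⟩
  have l5 := L5 hp5 d
  have l5' : ((b1 % 5 = 1 ∨ b1 % 5 = 4) ∧ ¬ (5 : ℤ) ∣ b2) ∨
      (((p % 5 = 1 ∨ p % 5 = 4) → (b1 % 5 = 1 ∨ b1 % 5 = 4)) ∧
       ((p % 5 = 2 ∨ p % 5 = 3) → (b1 % 5 = 2 ∨ b1 % 5 = 3)) ∧ (5 : ℤ) ∣ b2) := by
    have c : ∀ k : ℕ, k < 5 → (b1 : ZMod 5) = (k : ZMod 5) → b1 % 5 = k :=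
      fun k hk h => mod5_of_cast hk h
    have c' : ∀ k : ℕ, p % 5 = k → (p : ZMod 5) = (k : ZMod 5) := fun k h => cast5_of_mod k h
    rcases l5 with ⟨h, h'⟩ | ⟨h, h', h''⟩
    · left; refine ⟨?_, h'⟩
      rcases h with h | h
      · left; exact_mod_cast c 1 (by norm_num) (by simpa using h)
      · right; exact_mod_cast c 4 (by norm_num) (by simpa using h)
    · right; refine ⟨?_, ?_, h''⟩
      · intro hh
        have := h (by
          rcases hh with hh | hh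
          · left; simpa using c' 1 (by exact_mod_cast hh)
          · right; simpa using c' 4 (by exact_mod_cast hh))
        rcases this with h | h
        · left; exact_mod_cast c 1 (by norm_num) (by simpa using h)
        · right; exact_mod_cast c 4 (by norm_num) (by simpa using h)
      · intro hh
        have := h' (by
          rcases hh with hh | hh
          · left; simpa using c' 2 (by exact_mod_cast hh)
          · right; simpa using c' 3 (by exact_mod_cast hh))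
        rcases this with h | h
        · left; exact_mod_cast c 2 (by norm_num) (by simpa using h)
        · right; exact_mod_cast c 3 (by norm_num) (by simpa using h)
  clear l5
  rcases h15 with ⟨h3, h5⟩ | ⟨h3, h5⟩
  · have l3 := L3b h3 d
    have k5 : b1 % 5 = 1 ∨ b1 % 5 = 4 := by
      rcases l5' with h | h
      · exact h.1
      · exact h.1 h5
    clear l5'
    have hb1 : b1 = 1 ∨ b1 = -p := by
      clear hc2 l3 l2 sgn hpos
      rcases hc1 with h | h | h | h | h | h | h | h <;> omega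
    clear hc1 k5 l2' h4 h5 hp5 l2
    rcases hb1 with h | h
    · have hs : 0 < b2 := by omega
      clear sgn hpos
      rcases hc2 with h' | h' | h' | h' | h' | h' | h' | h' <;> omega
    · have hs : b2 < 0 := by omega
      clear sgn hpos
      rcases hc2 with h' | h' | h' | h' | h' | h' | h' | h' <;> omega
  · have l3 := L3a h3 d
    have hb1 : b1 = 1 ∨ b1 = -p := by
      clear hc2 l2 sgn hpos l5'
      rcases hc1 with h | h | h | h | h | h | h | h <;> omega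
    clear hc1 l2' h4 hp5 l2 l3
    rcases hb1 with h | h
    · have hs : 0 < b2 := by omega
      have k5 : ¬ (5 : ℤ) ∣ b2 := by
        rcases l5' with h' | h'
        · exact h'.2
        · exfalso
          have := h'.2.1 h5
          omega
      clear sgn hpos l5'
      rcases hc2 with h' | h' | h' | h' | h' | h' | h' | h' <;> omega
    · have hs : b2 < 0 := by omega
      have k5 : (5 : ℤ) ∣ b2 := by
        rcases l5' with h' | h'
        · exfalso
          have := h'.1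
          omega
        · exact h'.2.2
      clear sgn hpos l5'
      rcases hc2 with h' | h' | h' | h' | h' | h' | h' | h' <;> omega

/-- The square classes for `P = -1`. -/
theorem classes_one (d : Dat (-1) b1 b2 b3 u1 u2 u3 m e) (hpos : 0 < b1) :
    b1 = 1 ∧ (b2 = 1 ∨ b2 = -1 ∨ b2 = 5 ∨ b2 = -5) := by
  obtain ⟨l2, l2'⟩ := L2 (by norm_num) d
  have l3 := L3a (by norm_num) d
  have h1 : b1 ∣ 3 := by
    have := b1_dvd (by norm_num) d
    have h3 : (3 : ℤ) * (-1) = -3 := by norm_num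
    rw [h3] at this
    exact (dvd_neg.mp this)
  have h10 : b2 ∣ 5 * 2 := by
    have := b2_dvd (by norm_num) d
    have h3 : (10 : ℤ) * (-1) = -(5 * 2) := by norm_num
    rw [h3] at this
    exact (dvd_neg.mp this)
  have h5 : b2 ∣ 5 := by
    have : IsCoprime b2 2 := ((Prime.coprime_iff_not_dvd int_prime2).mpr l2).symm
    exact this.dvd_of_dvd_mul_right h10
  refine ⟨?_, ?_⟩
  · rcases dvd3 h1 with h | h | h | h <;> omega
  · rcases dvd5 h5 with h | h | h | h <;> omega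

end Vale.Agent.P017.H524
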