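import Vale.Agent.P017.H524.Local

/-! The local condition at an odd prime `q` dividing `P` exactly once. -/

namespace Vale.Agent.P017.H524

variable {P b1 b2 b3 u1 u2 u3 m e : ℤ}

theorem castq {q : ℕ} (x : ℤ) : ((x : ZMod q) = 0) ↔ (q : ℤ) ∣ x :=
  ZMod.intCast_zmod_eq_zero_iff_dvd x q

/-- if `x y² = z w²` with `y`, `w` units then `x`, `z` have the same class -/
theorem quot_sq {F : Type*} [Field F] {x y z w : F} (hy : y ≠ 0) (h : x * y ^ 2 = z * w ^ 2) :
    x = z * (w / y) ^ 2 := by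
  field_simp
  exact h

theorem Lq {q : ℕ} (hq : q.Prime) (h30 : ¬ (q : ℤ) ∣ 6480) {P' : ℤ} (hP : P = q * P')
    (hP' : ¬ (q : ℤ) ∣ P') (d : Dat P b1 b2 b3 u1 u2 u3 m e) :
    (¬ (q : ℤ) ∣ b1 ∧ IsSquare (b1 : ZMod q) ∧ ¬ (q : ℤ) ∣ b2 ∧ IsSquare (b2 : ZMod q)) ∨
    (¬ (q : ℤ) ∣ b1 ∧ IsSquare (b1 : ZMod q) ∧ ∃ c2 : ℤ, b2 = q * c2 ∧
      IsSquare ((c2 * P' : ℤ) : ZMod q)) ∨
    ((∃ c1 : ℤ, b1 = q * c1 ∧ IsSquare ((-(c1 * P') : ℤ) : ZMod q)) ∧ ¬ (q : ℤ) ∣ b2 ∧
      IsSquare ((-5 * b2 : ℤ) : ZMod q)) ∨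
    ((∃ c1 : ℤ, b1 = q * c1 ∧ IsSquare ((-(c1 * P') : ℤ) : ZMod q)) ∧
      ∃ c2 : ℤ, b2 = q * c2 ∧ IsSquare ((-5 * (c2 * P') : ℤ) : ZMod q)) := by
  have : Fact q.Prime := ⟨hq⟩
  have hp : Prime (q : ℤ) := Nat.prime_iff_prime_int.mp hq
  have hq0 : (q : ℤ) ≠ 0 := hp.ne_zero
  have pow_dvd : ∀ x : ℤ, (q : ℤ) ∣ x ^ 2 → (q : ℤ) ∣ x := fun x h => hp.dvd_of_dvd_pow h
  have zP' : (P' : ZMod q) ≠ 0 := fun h => hP' ((castq _).mp h)
  have zq : ((q : ℤ) : ZMod q) = 0 := by simp
  have zq' : (q : ZMod q) = 0 := by simp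
  have z6480 : ((6480 : ℤ) : ZMod q) ≠ 0 := fun h => h30 ((castq _).mp h)
  have n81 : ¬ (q : ℤ) ∣ 81 := fun h => h30 (h.trans (by norm_num))
  have n80 : ¬ (q : ℤ) ∣ 80 := fun h => h30 (h.trans (by norm_num))
  have n9 : ¬ (q : ℤ) ∣ 9 := fun h => h30 (h.trans (by norm_num))
  have z80 : ((80 : ℤ) : ZMod q) ≠ 0 := fun h => n80 ((castq _).mp h)
  have z81 : ((81 : ℤ) : ZMod q) ≠ 0 := fun h => n81 ((castq _).mp h)
  have cop : (q : ℤ) ∣ b1 * u1 ^ 2 → ¬ (q : ℤ) ∣ m := not_dvd_m_of_b1 d hq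
  have z2 := congrArg (Int.cast : ℤ → ZMod q) d.h2
  have z3 := congrArg (Int.cast : ℤ → ZMod q) d.h3
  have ze := congrArg (Int.cast : ℤ → ZMod q) d.he
  rw [hP] at z2 z3
  push_cast at z2 z3 ze
  rw [zq'] at z2 z3
  have z2a : (b2 : ZMod q) * (u2 : ZMod q) ^ 2 = b1 * (u1 : ZMod q) ^ 2 := by
    rw [z2]; ring
  have z3a : (b3 : ZMod q) * (u3 : ZMod q) ^ 2 = b1 * (u1 : ZMod q) ^ 2 := by
    rw [z3]; ring
  by_cases hb1 : (q : ℤ) ∣ b1
  · -- `q ∣ b1`
    have hm : ¬ (q : ℤ) ∣ m := cop (dvd_mul_of_dvd_left hb1 _)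
    have zm : (m : ZMod q) ≠ 0 := fun h => hm ((castq _).mp h)
    obtain ⟨c1, rfl⟩ := hb1
    have hc1 : ¬ (q : ℤ) ∣ c1 := sqf_not hp d.s1
    have zc1 : (c1 : ZMod q) ≠ 0 := fun h => hc1 ((castq _).mp h)
    have he : (q : ℤ) ∣ e := by
      apply pow_dvd
      rw [← d.he]; exact ⟨c1 * b2 * b3, by ring⟩
    obtain ⟨f, rfl⟩ := he
    have hf : c1 * b2 * b3 = q * f ^ 2 := by
      apply mul_left_cancel₀ hq0; linear_combination d.he
    have h2 : b2 * u2 ^ 2 = q * (c1 * u1 ^ 2 + P' * m ^ 2) := by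
      rw [d.h2, hP]; ring
    have h3 : b3 * u3 ^ 2 = q * (c1 * u1 ^ 2 + 81 * P' * m ^ 2) := by
      rw [d.h3, hP]; ring
    by_cases hb2 : (q : ℤ) ∣ b2
    · -- then `q ∤ b3`
      obtain ⟨c2, rfl⟩ := hb2
      have hc2 : ¬ (q : ℤ) ∣ c2 := sqf_not hp d.s2
      have hf2 : c1 * c2 * b3 = f ^ 2 := by
        apply mul_left_cancel₀ hq0; linear_combination hf
      have hb3 : ¬ (q : ℤ) ∣ b3 := by
        rintro ⟨c3, rfl⟩
        have hc3 : ¬ (q : ℤ) ∣ c3 := sqf_not hp d.s3
        have hqf : (q : ℤ) ∣ f := by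
          apply pow_dvd; rw [← hf2]; exact ⟨c1 * c2 * c3, by ring⟩
        obtain ⟨g, rfl⟩ := hqf
        have hg : c1 * c2 * c3 = q * g ^ 2 := by
          apply mul_left_cancel₀ hq0; linear_combination hf2
        have h4 : (q : ℤ) ∣ c1 * c2 * c3 := ⟨_, hg⟩
        rcases hp.dvd_or_dvd h4 with h | h
        · rcases hp.dvd_or_dvd h with h | h
          · exact hc1 h
          · exact hc2 h
        · exact hc3 h
      have hu3 : (q : ℤ) ∣ u3 := by
        have h4 : (q : ℤ) ∣ b3 * u3 ^ 2 := ⟨_, h3⟩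
        rcases hp.dvd_or_dvd h4 with h | h
        · exact absurd h hb3
        · exact pow_dvd _ h
      obtain ⟨v3, rfl⟩ := hu3
      have h3' : b3 * (q * v3 ^ 2) = c1 * u1 ^ 2 + 81 * P' * m ^ 2 := by
        apply mul_left_cancel₀ hq0; linear_combination h3
      have h2' : c2 * u2 ^ 2 = c1 * u1 ^ 2 + P' * m ^ 2 := by
        apply mul_left_cancel₀ hq0; linear_combination h2
      have y3 := congrArg (Int.cast : ℤ → ZMod q) h3'
      have y2 := congrArg (Int.cast : ℤ → ZMod q) h2'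
      push_cast at y3 y2
      rw [zq'] at y3
      have y3a : (c1 : ZMod q) * (u1 : ZMod q) ^ 2 = (-P') * (9 * (m : ZMod q)) ^ 2 := by
        linear_combination (-1 : ZMod q) * y3
      have y2a : (c2 : ZMod q) * (u2 : ZMod q) ^ 2 = (-80 * P') * (m : ZMod q) ^ 2 := by
        linear_combination y2 - y3
      have hu1 : (u1 : ZMod q) ≠ 0 := by
        intro h0
        rw [h0] at y3a
        have h9 : ((81 : ℤ) : ZMod q) * (P' * (m : ZMod q) ^ 2) = 0 := by
          push_cast; linear_combination y3a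
        rcases mul_eq_zero.mp h9 with h | h
        · exact z81 h
        · exact mul_ne_zero zP' (pow_ne_zero 2 zm) h
      have hu2 : (u2 : ZMod q) ≠ 0 := by
        intro h0
        rw [h0] at y2a
        have h9 : ((80 : ℤ) : ZMod q) * (P' * (m : ZMod q) ^ 2) = 0 := by
          push_cast; linear_combination y2a
        rcases mul_eq_zero.mp h9 with h | h
        · exact z80 h
        · exact mul_ne_zero zP' (pow_ne_zero 2 zm) h
      right; right; right
      refine ⟨⟨c1, rfl, ?_⟩, c2, rfl, ?_⟩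
      · refine ⟨P' * (9 * m / u1), ?_⟩
        push_cast
        rw [quot_sq hu1 y3a]; ring
      · refine ⟨20 * P' * (m / u2), ?_⟩
        push_cast
        rw [quot_sq hu2 y2a]; ring
    · -- `q ∤ b2`, so `q ∣ b3`
      have hb3 : (q : ℤ) ∣ b3 := by
        have h4 : (q : ℤ) ∣ c1 * b2 * b3 := ⟨_, hf⟩
        rcases hp.dvd_or_dvd h4 with h | h
        · rcases hp.dvd_or_dvd h with h | h
          · exact absurd h hc1
          · exact absurd h hb2
        · exact h
      obtain ⟨c3, rfl⟩ := hb3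
      have hf2 : c1 * b2 * c3 = f ^ 2 := by
        apply mul_left_cancel₀ hq0; linear_combination hf
      have hu2 : (q : ℤ) ∣ u2 := by
        have h4 : (q : ℤ) ∣ b2 * u2 ^ 2 := ⟨_, h2⟩
        rcases hp.dvd_or_dvd h4 with h | h
        · exact absurd h hb2
        · exact pow_dvd _ h
      obtain ⟨v2, rfl⟩ := hu2
      have h2' : b2 * (q * v2 ^ 2) = c1 * u1 ^ 2 + P' * m ^ 2 := by
        apply mul_left_cancel₀ hq0; linear_combination h2
      have h3' : c3 * u3 ^ 2 = c1 * u1 ^ 2 + 81 * P' * m ^ 2 := by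
        apply mul_left_cancel₀ hq0; linear_combination h3
      have y3 := congrArg (Int.cast : ℤ → ZMod q) h3'
      have y2 := congrArg (Int.cast : ℤ → ZMod q) h2'
      have yf := congrArg (Int.cast : ℤ → ZMod q) hf2
      push_cast at y3 y2 yf
      rw [zq'] at y2
      have y2a : (c1 : ZMod q) * (u1 : ZMod q) ^ 2 = (-P') * (m : ZMod q) ^ 2 := by
        linear_combination (-1 : ZMod q) * y2
      have y3a : (c3 : ZMod q) * (u3 : ZMod q) ^ 2 = (80 * P') * (m : ZMod q) ^ 2 := by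
        linear_combination y3 - y2
      have hu1 : (u1 : ZMod q) ≠ 0 := by
        intro h0
        rw [h0] at y2a
        have h9 : (P' : ZMod q) * (m : ZMod q) ^ 2 = 0 := by linear_combination y2a
        exact mul_ne_zero zP' (pow_ne_zero 2 zm) h9
      have hu3 : (u3 : ZMod q) ≠ 0 := by
        intro h0
        rw [h0] at y3a
        have h9 : ((80 : ℤ) : ZMod q) * (P' * (m : ZMod q) ^ 2) = 0 := by
          push_cast; linear_combination (-1 : ZMod q) * y3a
        rcases mul_eq_zero.mp h9 with h | h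
        · exact z80 h
        · exact mul_ne_zero zP' (pow_ne_zero 2 zm) h
      right; right; left
      refine ⟨⟨c1, rfl, ?_⟩, hb2, ?_⟩
      · refine ⟨P' * (m / u1), ?_⟩
        push_cast
        rw [quot_sq hu1 y2a]; ring
      · have k1 := quot_sq hu1 y2a
        have k3 := quot_sq hu3 y3a
        rw [k1, k3] at yf
        have hne : (4 * (P' * (m / u1) * (m / u3)) : ZMod q) ≠ 0 := by
          have h4 : (4 : ZMod q) ≠ 0 := by
            intro h0
            apply z80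
            push_cast
            have : (80 : ZMod q) = 4 * 20 := by norm_num
            rw [this, h0, zero_mul]
          exact mul_ne_zero h4 (mul_ne_zero (mul_ne_zero zP' (div_ne_zero zm hu1))
            (div_ne_zero zm hu3))
        refine ⟨f / (4 * (P' * (m / u1) * (m / u3))), ?_⟩
        rw [div_mul_div_comm, eq_div_iff (mul_ne_zero hne hne)]
        push_cast
        linear_combination yf
  · -- `q ∤ b1`
    have zb1 : (b1 : ZMod q) ≠ 0 := fun h => hb1 ((castq _).mp h)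
    by_cases hu1 : (q : ℤ) ∣ u1
    · have hm : ¬ (q : ℤ) ∣ m := cop (dvd_mul_of_dvd_right (dvd_pow hu1 (by norm_num)) _)
      have zm : (m : ZMod q) ≠ 0 := fun h => hm ((castq _).mp h)
      obtain ⟨v1, rfl⟩ := hu1
      have h2 : b2 * u2 ^ 2 = q * (b1 * q * v1 ^ 2 + P' * m ^ 2) := by
        rw [d.h2, hP]; ring
      have h3 : b3 * u3 ^ 2 = q * (b1 * q * v1 ^ 2 + 81 * P' * m ^ 2) := by
        rw [d.h3, hP]; ring
      have hPm : ¬ (q : ℤ) ∣ P' * m ^ 2 := by
        intro h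
        rcases hp.dvd_or_dvd h with h | h
        · exact hP' h
        · exact hm (pow_dvd _ h)
      have hb2 : (q : ℤ) ∣ b2 := by
        by_contra hb2
        have h4 : (q : ℤ) ∣ b2 * u2 ^ 2 := ⟨_, h2⟩
        have hu2 : (q : ℤ) ∣ u2 := by
          rcases hp.dvd_or_dvd h4 with h | h
          · exact absurd h hb2
          · exact pow_dvd _ h
        obtain ⟨v2, rfl⟩ := hu2
        have h5 : q * (b2 * v2 ^ 2) = b1 * q * v1 ^ 2 + P' * m ^ 2 := by
          apply mul_left_cancel₀ hq0; linear_combination h2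
        apply hPm
        exact ⟨b2 * v2 ^ 2 - b1 * v1 ^ 2, by linear_combination (-1 : ℤ) * h5⟩
      have hb3 : (q : ℤ) ∣ b3 := by
        by_contra hb3
        have h4 : (q : ℤ) ∣ b3 * u3 ^ 2 := ⟨_, h3⟩
        have hu3 : (q : ℤ) ∣ u3 := by
          rcases hp.dvd_or_dvd h4 with h | h
          · exact absurd h hb3
          · exact pow_dvd _ h
        obtain ⟨v3, rfl⟩ := hu3
        have h5 : q * (b3 * v3 ^ 2) = b1 * q * v1 ^ 2 + 81 * P' * m ^ 2 := by
          apply mul_left_cancel₀ hq0; linear_combination h3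
        have h6 : (q : ℤ) ∣ 81 * (P' * m ^ 2) :=
          ⟨b3 * v3 ^ 2 - b1 * v1 ^ 2, by linear_combination (-1 : ℤ) * h5⟩
        rcases hp.dvd_or_dvd h6 with h | h
        · exact n81 h
        · exact hPm h
      obtain ⟨c2, rfl⟩ := hb2
      obtain ⟨c3, rfl⟩ := hb3
      have he : (q : ℤ) ∣ e := by
        apply pow_dvd
        rw [← d.he]; exact ⟨b1 * c2 * (q * c3), by ring⟩
      obtain ⟨f, rfl⟩ := he
      have hf : b1 * c2 * c3 = f ^ 2 := by
        apply mul_left_cancel₀ (pow_ne_zero 2 hq0); linear_combination d.he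
      have h2' : c2 * u2 ^ 2 = b1 * q * v1 ^ 2 + P' * m ^ 2 := by
        apply mul_left_cancel₀ hq0; linear_combination h2
      have h3' : c3 * u3 ^ 2 = b1 * q * v1 ^ 2 + 81 * P' * m ^ 2 := by
        apply mul_left_cancel₀ hq0; linear_combination h3
      have y3 := congrArg (Int.cast : ℤ → ZMod q) h3'
      have y2 := congrArg (Int.cast : ℤ → ZMod q) h2'
      have yf := congrArg (Int.cast : ℤ → ZMod q) hf
      push_cast at y3 y2 yf
      rw [zq'] at y2 y3
      have y2a : (c2 : ZMod q) * (u2 : ZMod q) ^ 2 = P' * (m : ZMod q) ^ 2 := by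
        linear_combination y2
      have y3a : (c3 : ZMod q) * (u3 : ZMod q) ^ 2 = P' * (9 * (m : ZMod q)) ^ 2 := by
        linear_combination y3
      have hu2 : (u2 : ZMod q) ≠ 0 := by
        intro h0
        rw [h0] at y2a
        have h9 : (P' : ZMod q) * (m : ZMod q) ^ 2 = 0 := by
          linear_combination (-1 : ZMod q) * y2a
        exact mul_ne_zero zP' (pow_ne_zero 2 zm) h9
      have z9 : (9 : ZMod q) ≠ 0 := by
        intro h0
        apply z81
        push_cast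
        have : (81 : ZMod q) = 9 * 9 := by norm_num
        rw [this, h0, zero_mul]
      have hu3 : (u3 : ZMod q) ≠ 0 := by
        intro h0
        rw [h0] at y3a
        have h9 : (P' : ZMod q) * (9 * (m : ZMod q)) ^ 2 = 0 := by
          linear_combination (-1 : ZMod q) * y3a
        exact mul_ne_zero zP' (pow_ne_zero 2 (mul_ne_zero z9 zm)) h9
      have k2 := quot_sq hu2 y2a
      have k3 := quot_sq hu3 y3a
      right; left
      refine ⟨hb1, ?_, c2, rfl, ?_⟩
      · rw [k2, k3] at yf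
        have hne : (P' * (m / u2) * (9 * m / u3) : ZMod q) ≠ 0 :=
          mul_ne_zero (mul_ne_zero zP' (div_ne_zero zm hu2)) (div_ne_zero (mul_ne_zero z9 zm) hu3)
        refine ⟨f / (P' * (m / u2) * (9 * m / u3)), ?_⟩
        rw [div_mul_div_comm, eq_div_iff (mul_ne_zero hne hne)]
        linear_combination yf
      · refine ⟨P' * (m / u2), ?_⟩
        push_cast
        rw [k2]; ring
    · have zu1 : (u1 : ZMod q) ≠ 0 := fun h => hu1 ((castq _).mp h)
      have hn : (b1 : ZMod q) * (u1 : ZMod q) ^ 2 ≠ 0 := mul_ne_zero zb1 (pow_ne_zero 2 zu1)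
      have zu2 : (u2 : ZMod q) ≠ 0 := by
        intro h0; rw [h0] at z2a; apply hn; rw [← z2a]; ring
      have zu3 : (u3 : ZMod q) ≠ 0 := by
        intro h0; rw [h0] at z3a; apply hn; rw [← z3a]; ring
      have zb2 : (b2 : ZMod q) ≠ 0 := by
        intro h0; rw [h0] at z2a; apply hn; rw [← z2a]; ring
      have k2 := quot_sq zu2 z2a
      have k3 := quot_sq zu3 z3a
      have hb1sq : IsSquare (b1 : ZMod q) := by
        rw [k2, k3] at ze
        have hne : (b1 * (u1 / u2) * (u1 / u3) : ZMod q) ≠ 0 :=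
          mul_ne_zero (mul_ne_zero zb1 (div_ne_zero zu1 zu2)) (div_ne_zero zu1 zu3)
        refine ⟨e / (b1 * (u1 / u2) * (u1 / u3)), ?_⟩
        rw [div_mul_div_comm, eq_div_iff (mul_ne_zero hne hne)]
        linear_combination ze
      left
      refine ⟨hb1, hb1sq, fun h => zb2 ((castq _).mpr h), ?_⟩
      obtain ⟨r, hr⟩ := hb1sq
      exact ⟨r * (u1 / u2), by rw [k2, hr]; ring⟩

end Vale.Agent.P017.H524
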