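import Vale.Agent.P017.H524.Class
import Vale.Agent.P017.H524.Lq
import Vale.Agent.P017.H524.Defs

/-! The square classes for a squarefree `P`. -/

namespace Vale.Agent.P017.H524

/-- the criterion when `P ≡ 2 mod 3`, `P ≡ ± 2 mod 5` -/
def CritII (P : ℤ) : Prop :=
  (P % 3 = 2 ∧ (P % 5 = 2 ∨ P % 5 = 3)) ∧
  (∀ b c : ℤ, b * c = -P → b % 4 = 1 → SqMod b c → SqMod c b → b = 1 ∨ c = 1) ∧
  (∀ a b : ℤ, 0 < a → a * b = P → SqMod a b → SqMod b a → a = 1 ∨ b = 1)

/-- the criterion when `P ≡ 1 mod 3`, `P ≡ ± 1 mod 5` -/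
def CritI (P : ℤ) : Prop :=
  (P % 3 = 1 ∧ (P % 5 = 1 ∨ P % 5 = 4)) ∧
  (∀ b c : ℤ, b * c = -P → b % 4 = 1 → (b % 5 = 1 ∨ b % 5 = 4) → SqMod b c → SqMod c b →
    b = 1 ∨ c = 1) ∧
  (∀ b c : ℤ, b * c = -P → b % 4 = 3 → (b % 5 = 2 ∨ b % 5 = 3) → SqMod (3 * b) c →
    SqMod (3 * c) b → False) ∧
  (∀ a b : ℤ, 0 < a → a * b = P → a % 3 = 1 → SqMod a b → SqMod b a → a = 1 ∨ b = 1) ∧
  (∀ a b : ℤ, 0 < a → a * b = P → a % 3 = 2 → SqMod (5 * a) b → SqMod (5 * b) a → False)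

variable {P b1 b2 b3 u1 u2 u3 m e : ℤ}

theorem isSq_of_mul {F : Type*} [Field F] {x y : F} (hy : y ≠ 0) (h : IsSquare (x * y ^ 2)) :
    IsSquare x := by
  obtain ⟨r, hr⟩ := h
  refine ⟨r / y, ?_⟩
  rw [div_mul_div_comm, eq_div_iff (mul_ne_zero hy hy), ← hr]; ring

theorem sqf_cop {P a b : ℤ} (hsq : Squarefree P) (h : a * b = P ∨ a * b = -P) {q : ℕ}
    (hq : q.Prime) (ha : (q : ℤ) ∣ a) : ¬ (q : ℤ) ∣ b := by
  intro hb
  have hp : Prime (q : ℤ) := Nat.prime_iff_prime_int.mp hq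
  have h1 : (q : ℤ) * q ∣ a * b := mul_dvd_mul ha hb
  have h2 : (q : ℤ) * q ∣ P := by
    rcases h with h | h
    · rw [← h]; exact h1
    · rw [h] at h1; exact (dvd_neg.mp h1)
  exact hp.not_isUnit (hsq q h2)

/-- the condition on `b1` -/
theorem sq_b1 (hsq : Squarefree P) (h30 : ∀ q : ℕ, q.Prime → (q : ℤ) ∣ P → ¬ (q : ℤ) ∣ 6480)
    (d : Dat P b1 b2 b3 u1 u2 u3 m e) {k b0 c : ℤ} (hk : k ∣ 6480) (hb : b1 = k * b0)
    (hc : b0 * c = -P) : SqMod (k * b0) c ∧ SqMod (k * c) b0 := by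
  constructor
  · intro q hq hqc
    have hp : Prime (q : ℤ) := Nat.prime_iff_prime_int.mp hq
    have hqP : (q : ℤ) ∣ P := by
      have : P = c * (-b0) := by linear_combination hc
      rw [this]; exact dvd_mul_of_dvd_left hqc _
    obtain ⟨P', hP'⟩ := hqP
    have hnP' : ¬ (q : ℤ) ∣ P' := sqf_cop hsq (Or.inl hP'.symm) hq (dvd_refl _)
    have hnb0 : ¬ (q : ℤ) ∣ b0 :=
      sqf_cop hsq (Or.inr (by linear_combination hc : c * b0 = -P)) hq hqc
    have hnb1 : ¬ (q : ℤ) ∣ b1 := by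
      rw [hb]; intro h
      rcases hp.dvd_or_dvd h with h | h
      · exact h30 q hq ⟨P', hP'⟩ (h.trans hk)
      · exact hnb0 h
    rw [← hb]
    rcases Lq hq (h30 q hq ⟨P', hP'⟩) hP' hnP' d with h | h | h | h
    · exact h.2.1
    · exact h.2.1
    · obtain ⟨⟨c1, hc1, _⟩, _⟩ := h
      exact absurd ⟨c1, hc1⟩ hnb1
    · obtain ⟨⟨c1, hc1, _⟩, _⟩ := h
      exact absurd ⟨c1, hc1⟩ hnb1
  · intro q hq hqb
    have : Fact q.Prime := ⟨hq⟩
    have hp : Prime (q : ℤ) := Nat.prime_iff_prime_int.mp hq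
    have hqP : (q : ℤ) ∣ P := by
      have : P = b0 * (-c) := by linear_combination hc
      rw [this]; exact dvd_mul_of_dvd_left hqb _
    obtain ⟨P', hP'⟩ := hqP
    have hnP' : ¬ (q : ℤ) ∣ P' := sqf_cop hsq (Or.inl hP'.symm) hq (dvd_refl _)
    obtain ⟨a', ha'⟩ := hqb
    have hPc : P' = -(a' * c) := by
      apply mul_left_cancel₀ hp.ne_zero
      rw [← hP']; rw [ha'] at hc; linear_combination hc
    have hna' : ¬ (q : ℤ) ∣ a' := by
      intro h; apply hnP'; rw [hPc]; exact (dvd_neg.mpr (dvd_mul_of_dvd_left h _))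
    have za' : (a' : ZMod q) ≠ 0 := fun h => hna' ((castq _).mp h)
    have main : ∀ c1 : ℤ, b1 = q * c1 → IsSquare ((-(c1 * P') : ℤ) : ZMod q) →
        IsSquare ((k * c : ℤ) : ZMod q) := by
      intro c1 h1 h2
      have hc1 : c1 = k * a' := by
        apply mul_left_cancel₀ hp.ne_zero
        rw [← h1, hb, ha']; ring
      apply isSq_of_mul za'
      rw [hc1, hPc] at h2
      push_cast at h2 ⊢
      convert h2 using 1
      ring
    rcases Lq hq (h30 q hq ⟨P', hP'⟩) hP' hnP' d with h | h | h | h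
    · exact absurd (by rw [hb, ha']; exact ⟨k * a', by ring⟩) h.1
    · exact absurd (by rw [hb, ha']; exact ⟨k * a', by ring⟩) h.1
    · obtain ⟨⟨c1, hc1, hs⟩, _⟩ := h
      exact main c1 hc1 hs
    · obtain ⟨⟨c1, hc1, hs⟩, _⟩ := h
      exact main c1 hc1 hs

/-- the condition on `b2`; `t = 1` if `b1 = 1` and `t = -5` if `b1 = -P` -/
theorem sq_b2 (hsq : Squarefree P) (h30 : ∀ q : ℕ, q.Prime → (q : ℤ) ∣ P → ¬ (q : ℤ) ∣ 6480)
    (d : Dat P b1 b2 b3 u1 u2 u3 m e) {t k r a b : ℤ}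
    (ht : (b1 = 1 ∧ t = 1) ∨ (b1 = -P ∧ t = -5)) (hb2 : t * b2 = (k * a) * r ^ 2)
    (hr : r ∣ 6480) (ha : ∃ l : ℤ, l ∣ 6480 ∧ b2 = l * a)
    (hc : a * b = P) : SqMod (k * a) b ∧ SqMod (k * b) a := by
  obtain ⟨l, hl, hla⟩ := ha
  constructor
  · intro q hq hqb
    have : Fact q.Prime := ⟨hq⟩
    have hp : Prime (q : ℤ) := Nat.prime_iff_prime_int.mp hq
    have hqP : (q : ℤ) ∣ P := by
      have : P = b * a := by linear_combination (-1 : ℤ) * hc
      rw [this]; exact dvd_mul_of_dvd_left hqb _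
    obtain ⟨P', hP'⟩ := hqP
    have hnP' : ¬ (q : ℤ) ∣ P' := sqf_cop hsq (Or.inl hP'.symm) hq (dvd_refl _)
    have hn := h30 q hq ⟨P', hP'⟩
    have hna : ¬ (q : ℤ) ∣ a :=
      sqf_cop hsq (Or.inl (by linear_combination hc : b * a = P)) hq hqb
    have hnb2 : ¬ (q : ℤ) ∣ b2 := by
      rw [hla]; intro h
      rcases hp.dvd_or_dvd h with h | h
      · exact hn (h.trans hl)
      · exact hna h
    have zr : (r : ZMod q) ≠ 0 := fun h => hn (((castq _).mp h).trans hr)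
    have main : IsSquare ((t * b2 : ℤ) : ZMod q) → IsSquare ((k * a : ℤ) : ZMod q) := by
      intro h
      apply isSq_of_mul zr
      rw [hb2] at h
      push_cast at h ⊢
      exact h
    rcases Lq hq hn hP' hnP' d with h | h | h | h
    · apply main
      rcases ht with ⟨_, ht⟩ | ⟨hb1, _⟩
      · rw [ht, one_mul]; exact h.2.2.2
      · exact absurd (by rw [hb1, hP']; exact ⟨-P', by ring⟩) h.1
    · obtain ⟨_, _, c2, hc2, _⟩ := h
      exact absurd ⟨c2, hc2⟩ hnb2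
    · apply main
      rcases ht with ⟨hb1, _⟩ | ⟨_, ht⟩
      · obtain ⟨⟨c1, hc1, _⟩, _⟩ := h
        exfalso
        apply hp.not_isUnit
        rw [hb1] at hc1
        exact isUnit_of_dvd_one ⟨c1, hc1⟩
      · rw [ht]; exact h.2.2
    · obtain ⟨_, c2, hc2, _⟩ := h
      exact absurd ⟨c2, hc2⟩ hnb2
  · intro q hq hqa
    have : Fact q.Prime := ⟨hq⟩
    have hp : Prime (q : ℤ) := Nat.prime_iff_prime_int.mp hq
    have hqP : (q : ℤ) ∣ P := by
      rw [← hc]; exact dvd_mul_of_dvd_left hqa _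
    obtain ⟨P', hP'⟩ := hqP
    have hnP' : ¬ (q : ℤ) ∣ P' := sqf_cop hsq (Or.inl hP'.symm) hq (dvd_refl _)
    have hn := h30 q hq ⟨P', hP'⟩
    have zr : (r : ZMod q) ≠ 0 := fun h => hn (((castq _).mp h).trans hr)
    obtain ⟨a', ha'⟩ := hqa
    have hPb : P' = a' * b := by
      apply mul_left_cancel₀ hp.ne_zero
      rw [← hP', ← hc, ha']; ring
    have hna' : ¬ (q : ℤ) ∣ a' := by
      intro h; apply hnP'; rw [hPb]; exact dvd_mul_of_dvd_left h _
    have za' : (a' : ZMod q) ≠ 0 := fun h => hna' ((castq _).mp h)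
    have hqb2 : (q : ℤ) ∣ b2 := by rw [hla, ha']; exact ⟨l * a', by ring⟩
    have main : ∀ c2 : ℤ, b2 = q * c2 → IsSquare ((t * (c2 * P') : ℤ) : ZMod q) →
        IsSquare ((k * b : ℤ) : ZMod q) := by
      intro c2 h1 h2
      have hc2 : t * c2 = k * a' * r ^ 2 := by
        apply mul_left_cancel₀ hp.ne_zero
        rw [h1, ha'] at hb2; linear_combination hb2
      apply isSq_of_mul (y := (a' : ZMod q) * r) (mul_ne_zero za' zr)
      have h3 : t * (c2 * P') = (k * b) * (a' * r) ^ 2 := by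
        rw [hPb]; linear_combination (a' * b) * hc2
      rw [h3] at h2
      push_cast at h2 ⊢
      exact h2
    rcases Lq hq hn hP' hnP' d with h | h | h | h
    · exact absurd hqb2 h.2.2.1
    · obtain ⟨hnb1, _, c2, hc2, hs⟩ := h
      apply main c2 hc2
      rcases ht with ⟨_, ht⟩ | ⟨hb1, _⟩
      · rw [ht, one_mul]; exact hs
      · exact absurd (by rw [hb1, hP']; exact ⟨-P', by ring⟩) hnb1
    · exact absurd hqb2 h.2.1
    · obtain ⟨⟨c1, hc1, _⟩, c2, hc2, hs⟩ := h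
      apply main c2 hc2
      rcases ht with ⟨hb1, _⟩ | ⟨_, ht⟩
      · exfalso
        apply hp.not_isUnit
        rw [hb1] at hc1
        exact isUnit_of_dvd_one ⟨c1, hc1⟩
      · rw [ht]; exact hs

theorem prime_h30 (h4 : P % 4 = 3) (h3 : P % 3 ≠ 0) (h5 : P % 5 ≠ 0) :
    ∀ q : ℕ, q.Prime → (q : ℤ) ∣ P → ¬ (q : ℤ) ∣ 6480 := by
  intro q hq hqP h
  have hp : Prime (q : ℤ) := Nat.prime_iff_prime_int.mp hq
  have h30 : (q : ℤ) ∣ 30 ^ 4 := h.trans (by norm_num)
  have h2 : (q : ℤ) ∣ 2 * (3 * 5) := by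
    have := hp.dvd_of_dvd_pow h30
    norm_num; exact this
  have cast : ∀ k : ℕ, k.Prime → (q : ℤ) ∣ k → q = k := by
    intro k hk h
    exact (Nat.prime_dvd_prime_iff_eq hq hk).mp (by exact_mod_cast h)
  rcases hp.dvd_or_dvd h2 with h | h
  · have := cast 2 Nat.prime_two (by exact_mod_cast h)
    subst this; push_cast at hqP; omega
  rcases hp.dvd_or_dvd h with h | h
  · have := cast 3 Nat.prime_three (by exact_mod_cast h)
    subst this; push_cast at hqP; omega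
  · have := cast 5 Nat.prime_five (by exact_mod_cast h)
    subst this; push_cast at hqP; omega

/-- the condition at `5` in terms of residues -/
theorem L5' (hp5 : P % 5 ≠ 0) (d : Dat P b1 b2 b3 u1 u2 u3 m e) :
    ((b1 % 5 = 1 ∨ b1 % 5 = 4) ∧ ¬ (5 : ℤ) ∣ b2) ∨
      (((P % 5 = 1 ∨ P % 5 = 4) → (b1 % 5 = 1 ∨ b1 % 5 = 4)) ∧
       ((P % 5 = 2 ∨ P % 5 = 3) → (b1 % 5 = 2 ∨ b1 % 5 = 3)) ∧ (5 : ℤ) ∣ b2) := by
  have c : ∀ k : ℕ, k < 5 → (b1 : ZMod 5) = (k : ZMod 5) → b1 % 5 = k :=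
    fun k hk h => mod5_of_cast hk h
  have c' : ∀ k : ℕ, P % 5 = k → (P : ZMod 5) = (k : ZMod 5) := fun k h => cast5_of_mod k h
  rcases L5 (by omega : ¬ (5 : ℤ) ∣ P) d with ⟨h, h'⟩ | ⟨h, h', h''⟩
  · left; refine ⟨?_, h'⟩
    rcases h with h | h
    · left; exact_mod_cast c 1 (by norm_num) (by simpa using h)
    · right; exact_mod_cast c 4 (by norm_num) (by simpa using h)
  · right; refine ⟨?_, ?_, h''⟩
    · intro hh
      have := h (by
        rcases hh with hh | hh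
        · left; simpa using c' 1 (by exact_mod_cast hh)
        · right; simpa using c' 4 (by exact_mod_cast hh))
      rcases this with h | h
      · left; exact_mod_cast c 1 (by norm_num) (by simpa using h)
      · right; exact_mod_cast c 4 (by norm_num) (by simpa using h)
    · intro hh
      have := h' (by
        rcases hh with hh | hh
        · left; simpa using c' 2 (by exact_mod_cast hh)
        · right; simpa using c' 3 (by exact_mod_cast hh))
      rcases this with h | h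
      · left; exact_mod_cast c 2 (by norm_num) (by simpa using h)
      · right; exact_mod_cast c 3 (by norm_num) (by simpa using h)

theorem sqmod_one {a n : ℤ} (h : SqMod (1 * a) n) : SqMod a n := by rwa [one_mul] at h

/-- the four classes -/
theorem classesD (hsq : Squarefree P) (hP0 : 0 < P) (h4 : P % 4 = 3)
    (hC : CritI P ∨ CritII P) (d : Dat P b1 b2 b3 u1 u2 u3 m e) (hpos : 0 < b1 * b2) :
    (b1 = 1 ∧ b2 = 1) ∨ (b1 = 1 ∧ b2 = P) ∨ (b1 = -P ∧ b2 = -5) ∨ (b1 = -P ∧ b2 = -5 * P) := by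
  have hP3 : P % 3 ≠ 0 := by rcases hC with h | h <;> have := h.1 <;> omega
  have hP5 : P % 5 ≠ 0 := by rcases hC with h | h <;> have := h.1 <;> omega
  have h30 := prime_h30 h4 hP3 hP5
  obtain ⟨l2, l2'⟩ := L2 h4 d
  have l5 := L5' hP5 d
  have sgn : (0 < b1 ∧ 0 < b2) ∨ (b1 < 0 ∧ b2 < 0) := by
    rcases lt_or_gt_of_ne d.b10 with h | h
    · right; exact ⟨h, by nlinarith⟩
    · left; exact ⟨h, by nlinarith⟩
  have sg1 : b1 = 1 → 0 < b2 := by
    intro h
    rcases sgn with h' | h'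
    · exact h'.2
    · exfalso; rw [h] at h'; linarith [h'.1]
  have sg2 : b1 = -P → b2 < 0 := by
    intro h
    rcases sgn with h' | h'
    · exfalso; rw [h] at h'; linarith [h'.1]
    · exact h'.2
  have hb1d := b1_dvd hP0.ne' d
  have hb2d : b2 ∣ 5 * P := by
    have h10 : b2 ∣ (5 * P) * 2 := by
      have := b2_dvd hP0.ne' d
      rw [show (5 * P) * 2 = 10 * P by ring]; exact this
    have : IsCoprime b2 2 := ((Prime.coprime_iff_not_dvd int_prime2).mpr l2).symm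
    exact this.dvd_of_dvd_mul_right h10
  -- `b1 ∣ P` if `3 ∤ b1`
  have hb1P : ¬ (3 : ℤ) ∣ b1 → ∃ c, b1 * c = -P := by
    intro h
    have : IsCoprime b1 3 := ((Prime.coprime_iff_not_dvd int_prime3).mpr h).symm
    obtain ⟨c, hc⟩ := this.dvd_of_dvd_mul_left hb1d
    exact ⟨-c, by rw [hc]; ring⟩
  have neg_one_case : ∀ c : ℤ, b1 * c = -P → c = 1 → b1 = -P := by
    intro c h hc; rw [hc] at h; linarith
  -- second coordinate: general form
  have hb2P : ¬ (5 : ℤ) ∣ b2 → b2 ∣ P := by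
    intro h
    have : IsCoprime b2 5 := ((Prime.coprime_iff_not_dvd int_prime5).mpr h).symm
    exact this.dvd_of_dvd_mul_left hb2d
  have hb2P5 : ∀ a, b2 = 5 * a → a ∣ P := by
    intro a h
    rw [h] at hb2d
    exact (mul_dvd_mul_iff_left (by norm_num)).mp hb2d
  rcases hC with ⟨⟨h3, h5⟩, H1, H3, H2, H4⟩ | ⟨⟨h3, h5⟩, H1, H2⟩
  · -- case I
    have l3 := L3b h3 d
    have k5 : b1 % 5 = 1 ∨ b1 % 5 = 4 := by
      rcases l5 with h | h
      · exact h.1
      · exact h.1 h5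
    have hb1 : b1 = 1 ∨ b1 = -P := by
      by_cases hd3 : (3 : ℤ) ∣ b1
      · exfalso
        obtain ⟨b0, hb0⟩ := hd3
        rw [hb0] at hb1d
        obtain ⟨c, hc⟩ := (mul_dvd_mul_iff_left (by norm_num : (3 : ℤ) ≠ 0)).mp hb1d
        have hc' : b0 * (-c) = -P := by rw [hc]; ring
        obtain ⟨s1, s2⟩ := sq_b1 hsq h30 d (by norm_num : (3 : ℤ) ∣ 6480) hb0 hc'
        exact H3 b0 (-c) hc' (by omega) (by omega) s1 s2
      · obtain ⟨c, hc⟩ := hb1P hd3
        obtain ⟨s1, s2⟩ := sq_b1 hsq h30 d (one_dvd 6480) (one_mul b1).symm hc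
        rcases H1 b1 c hc l2' k5 (sqmod_one s1) (sqmod_one s2) with h | h
        · left; exact h
        · right; exact neg_one_case c hc h
    rcases hb1 with hb1 | hb1
    · have hs : 0 < b2 := sg1 hb1
      by_cases hd5 : (5 : ℤ) ∣ b2
      · exfalso
        obtain ⟨a, ha⟩ := hd5
        obtain ⟨b, hb⟩ := hb2P5 a ha
        obtain ⟨s1, s2⟩ := sq_b2 hsq h30 d (t := 1) (k := 5) (r := 1) (a := a) (b := b)
          (Or.inl ⟨hb1, rfl⟩) (by rw [ha]; ring) (one_dvd _) ⟨5, by norm_num, ha⟩ hb.symm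
        exact H4 a b (by omega) hb.symm (by omega) s1 s2
      · obtain ⟨b, hb⟩ := hb2P hd5
        obtain ⟨s1, s2⟩ := sq_b2 hsq h30 d (t := 1) (k := 1) (r := 1) (a := b2) (b := b)
          (Or.inl ⟨hb1, rfl⟩) (by ring) (one_dvd _) ⟨1, one_dvd _, by ring⟩ hb.symm
        rcases H2 b2 b hs hb.symm l3 (sqmod_one s1) (sqmod_one s2) with h | h
        · left; exact ⟨hb1, h⟩
        · right; left; exact ⟨hb1, by rw [hb, h, mul_one]⟩
    · have hs : b2 < 0 := sg2 hb1
      by_cases hd5 : (5 : ℤ) ∣ b2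
      · obtain ⟨a0, ha0⟩ := hd5
        have ha : b2 = 5 * a0 := ha0
        obtain ⟨b, hb⟩ := hb2P5 a0 ha
        have hb' : (-a0) * (-b) = P := by rw [hb]; ring
        obtain ⟨s1, s2⟩ := sq_b2 hsq h30 d (t := -5) (k := 1) (r := 5) (a := -a0) (b := -b)
          (Or.inr ⟨hb1, rfl⟩) (by rw [ha]; ring) (by norm_num) ⟨-5, by norm_num, by rw [ha]; ring⟩
          hb'
        rcases H2 (-a0) (-b) (by omega) hb' (by omega) (sqmod_one s1) (sqmod_one s2) with h | h
        · right; right; left; exact ⟨hb1, by rw [ha]; linarith⟩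
        · right; right; right
          refine ⟨hb1, ?_⟩
          rw [h, mul_one] at hb'
          rw [ha, ← hb']; ring
      · exfalso
        obtain ⟨b, hb⟩ := hb2P hd5
        have hb' : (-b2) * (-b) = P := by rw [hb]; ring
        obtain ⟨s1, s2⟩ := sq_b2 hsq h30 d (t := -5) (k := 5) (r := 1) (a := -b2) (b := -b)
          (Or.inr ⟨hb1, rfl⟩) (by ring) (one_dvd _) ⟨-1, by norm_num, by ring⟩ hb'
        exact H4 (-b2) (-b) (by omega) hb' (by omega) s1 s2
  · -- case II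
    have l3 := L3a h3 d
    have hb1 : b1 = 1 ∨ b1 = -P := by
      obtain ⟨c, hc⟩ := hb1P l3
      obtain ⟨s1, s2⟩ := sq_b1 hsq h30 d (one_dvd 6480) (one_mul b1).symm hc
      rcases H1 b1 c hc l2' (sqmod_one s1) (sqmod_one s2) with h | h
      · left; exact h
      · right; exact neg_one_case c hc h
    rcases hb1 with hb1 | hb1
    · have hs : 0 < b2 := sg1 hb1
      have hd5 : ¬ (5 : ℤ) ∣ b2 := by
        rcases l5 with h' | h'
        · exact h'.2
        · exfalso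
          have := h'.2.1 h5
          omega
      obtain ⟨b, hb⟩ := hb2P hd5
      obtain ⟨s1, s2⟩ := sq_b2 hsq h30 d (t := 1) (k := 1) (r := 1) (a := b2) (b := b)
        (Or.inl ⟨hb1, rfl⟩) (by ring) (one_dvd _) ⟨1, one_dvd _, by ring⟩ hb.symm
      rcases H2 b2 b hs hb.symm (sqmod_one s1) (sqmod_one s2) with h | h
      · left; exact ⟨hb1, h⟩
      · right; left; exact ⟨hb1, by rw [hb, h, mul_one]⟩
    · have hs : b2 < 0 := sg2 hb1
      have hd5 : (5 : ℤ) ∣ b2 := by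
        rcases l5 with h' | h'
        · exfalso
          have := h'.1
          omega
        · exact h'.2.2
      obtain ⟨a0, ha0⟩ := hd5
      have ha : b2 = 5 * a0 := ha0
      obtain ⟨b, hb⟩ := hb2P5 a0 ha
      have hb' : (-a0) * (-b) = P := by rw [hb]; ring
      obtain ⟨s1, s2⟩ := sq_b2 hsq h30 d (t := -5) (k := 1) (r := 5) (a := -a0) (b := -b)
        (Or.inr ⟨hb1, rfl⟩) (by rw [ha]; ring) (by norm_num) ⟨-5, by norm_num, by rw [ha]; ring⟩
        hb'
      rcases H2 (-a0) (-b) (by omega) hb' (sqmod_one s1) (sqmod_one s2) with h | h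
      · right; right; left; exact ⟨hb1, by rw [ha]; linarith⟩
      · right; right; right
        refine ⟨hb1, ?_⟩
        rw [h, mul_one] at hb'
        rw [ha, ← hb']; ring

end Vale.Agent.P017.H524
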