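import Vale.Agent.P017.H524.FinalU

/-! The square classes for an even squarefree `P`. -/

namespace Vale.Agent.P017.H524

variable {P b1 b2 b3 u1 u2 u3 m e : ℤ}

theorem sq2 (x : ZMod 2) : IsSquare x := by
  fin_cases x
  · exact ⟨0, rfl⟩
  · exact ⟨1, rfl⟩

/-- the condition on `b1` -/
theorem sq_b1' (hsq : Squarefree P) (h30 : ∀ q : ℕ, q.Prime → q ≠ 2 → (q : ℤ) ∣ P → ¬ (q : ℤ) ∣ 6480)
    (d : Dat P b1 b2 b3 u1 u2 u3 m e) {k b0 c : ℤ} (hk : k ∣ 6480) (hb : b1 = k * b0)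
    (hc : b0 * c = -P) : SqMod (k * b0) c ∧ SqMod (k * c) b0 := by
  constructor
  · intro q hq hqc
    by_cases hq2 : q = 2
    · subst hq2; exact sq2 _
    have hp : Prime (q : ℤ) := Nat.prime_iff_prime_int.mp hq
    have hqP : (q : ℤ) ∣ P := by
      have : P = c * (-b0) := by linear_combination hc
      rw [this]; exact dvd_mul_of_dvd_left hqc _
    obtain ⟨P', hP'⟩ := hqP
    have hnP' : ¬ (q : ℤ) ∣ P' := sqf_cop hsq (Or.inl hP'.symm) hq (dvd_refl _)
    have hnb0 : ¬ (q : ℤ) ∣ b0 :=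
      sqf_cop hsq (Or.inr (by linear_combination hc : c * b0 = -P)) hq hqc
    have hnb1 : ¬ (q : ℤ) ∣ b1 := by
      rw [hb]; intro h
      rcases hp.dvd_or_dvd h with h | h
      · exact h30 q hq hq2 ⟨P', hP'⟩ (h.trans hk)
      · exact hnb0 h
    rw [← hb]
    rcases Lq hq (h30 q hq hq2 ⟨P', hP'⟩) hP' hnP' d with h | h | h | h
    · exact h.2.1
    · exact h.2.1
    · obtain ⟨⟨c1, hc1, _⟩, _⟩ := h
      exact absurd ⟨c1, hc1⟩ hnb1
    · obtain ⟨⟨c1, hc1, _⟩, _⟩ := h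
      exact absurd ⟨c1, hc1⟩ hnb1
  · intro q hq hqb
    by_cases hq2 : q = 2
    · subst hq2; exact sq2 _
    have : Fact q.Prime := ⟨hq⟩
    have hp : Prime (q : ℤ) := Nat.prime_iff_prime_int.mp hq
    have hqP : (q : ℤ) ∣ P := by
      have : P = b0 * (-c) := by linear_combination hc
      rw [this]; exact dvd_mul_of_dvd_left hqb _
    obtain ⟨P', hP'⟩ := hqP
    have hnP' : ¬ (q : ℤ) ∣ P' := sqf_cop hsq (Or.inl hP'.symm) hq (dvd_refl _)
    obtain ⟨a', ha'⟩ := hqb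
    have hPc : P' = -(a' * c) := by
      apply mul_left_cancel₀ hp.ne_zero
      rw [← hP']; rw [ha'] at hc; linear_combination hc
    have hna' : ¬ (q : ℤ) ∣ a' := by
      intro h; apply hnP'; rw [hPc]; exact (dvd_neg.mpr (dvd_mul_of_dvd_left h _))
    have za' : (a' : ZMod q) ≠ 0 := fun h => hna' ((castq _).mp h)
    have main : ∀ c1 : ℤ, b1 = q * c1 → IsSquare ((-(c1 * P') : ℤ) : ZMod q) →
        IsSquare ((k * c : ℤ) : ZMod q) := by
      intro c1 h1 h2
      have hc1 : c1 = k * a' := by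
        apply mul_left_cancel₀ hp.ne_zero
        rw [← h1, hb, ha']; ring
      apply isSq_of_mul za'
      rw [hc1, hPc] at h2
      push_cast at h2 ⊢
      convert h2 using 1
      ring
    rcases Lq hq (h30 q hq hq2 ⟨P', hP'⟩) hP' hnP' d with h | h | h | h
    · exact absurd (by rw [hb, ha']; exact ⟨k * a', by ring⟩) h.1
    · exact absurd (by rw [hb, ha']; exact ⟨k * a', by ring⟩) h.1
    · obtain ⟨⟨c1, hc1, hs⟩, _⟩ := h
      exact main c1 hc1 hs
    · obtain ⟨⟨c1, hc1, hs⟩, _⟩ := h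
      exact main c1 hc1 hs

/-- the condition on `b2`; `t = 1` if `b1 = 1` and `t = -5` if `b1 = -P` -/
theorem sq_b2' (hsq : Squarefree P) (h30 : ∀ q : ℕ, q.Prime → q ≠ 2 → (q : ℤ) ∣ P → ¬ (q : ℤ) ∣ 6480)
    (d : Dat P b1 b2 b3 u1 u2 u3 m e) {t k r a b : ℤ}
    (ht : (b1 = 1 ∧ t = 1) ∨ (b1 = -P ∧ t = -5)) (hb2 : t * b2 = (k * a) * r ^ 2)
    (hr : r ∣ 6480) (ha : ∃ l : ℤ, l ∣ 6480 ∧ b2 = l * a)
    (hc : a * b = P) : SqMod (k * a) b ∧ SqMod (k * b) a := by
  obtain ⟨l, hl, hla⟩ := ha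
  constructor
  · intro q hq hqb
    by_cases hq2 : q = 2
    · subst hq2; exact sq2 _
    have : Fact q.Prime := ⟨hq⟩
    have hp : Prime (q : ℤ) := Nat.prime_iff_prime_int.mp hq
    have hqP : (q : ℤ) ∣ P := by
      have : P = b * a := by linear_combination (-1 : ℤ) * hc
      rw [this]; exact dvd_mul_of_dvd_left hqb _
    obtain ⟨P', hP'⟩ := hqP
    have hnP' : ¬ (q : ℤ) ∣ P' := sqf_cop hsq (Or.inl hP'.symm) hq (dvd_refl _)
    have hn := h30 q hq hq2 ⟨P', hP'⟩
    have hna : ¬ (q : ℤ) ∣ a :=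
      sqf_cop hsq (Or.inl (by linear_combination hc : b * a = P)) hq hqb
    have hnb2 : ¬ (q : ℤ) ∣ b2 := by
      rw [hla]; intro h
      rcases hp.dvd_or_dvd h with h | h
      · exact hn (h.trans hl)
      · exact hna h
    have zr : (r : ZMod q) ≠ 0 := fun h => hn (((castq _).mp h).trans hr)
    have main : IsSquare ((t * b2 : ℤ) : ZMod q) → IsSquare ((k * a : ℤ) : ZMod q) := by
      intro h
      apply isSq_of_mul zr
      rw [hb2] at h
      push_cast at h ⊢
      exact h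
    rcases Lq hq hn hP' hnP' d with h | h | h | h
    · apply main
      rcases ht with ⟨_, ht⟩ | ⟨hb1, _⟩
      · rw [ht, one_mul]; exact h.2.2.2
      · exact absurd (by rw [hb1, hP']; exact ⟨-P', by ring⟩) h.1
    · obtain ⟨_, _, c2, hc2, _⟩ := h
      exact absurd ⟨c2, hc2⟩ hnb2
    · apply main
      rcases ht with ⟨hb1, _⟩ | ⟨_, ht⟩
      · obtain ⟨⟨c1, hc1, _⟩, _⟩ := h
        exfalso
        apply hp.not_isUnit
        rw [hb1] at hc1
        exact isUnit_of_dvd_one ⟨c1, hc1⟩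
      · rw [ht]; exact h.2.2
    · obtain ⟨_, c2, hc2, _⟩ := h
      exact absurd ⟨c2, hc2⟩ hnb2
  · intro q hq hqa
    by_cases hq2 : q = 2
    · subst hq2; exact sq2 _
    have : Fact q.Prime := ⟨hq⟩
    have hp : Prime (q : ℤ) := Nat.prime_iff_prime_int.mp hq
    have hqP : (q : ℤ) ∣ P := by
      rw [← hc]; exact dvd_mul_of_dvd_left hqa _
    obtain ⟨P', hP'⟩ := hqP
    have hnP' : ¬ (q : ℤ) ∣ P' := sqf_cop hsq (Or.inl hP'.symm) hq (dvd_refl _)
    have hn := h30 q hq hq2 ⟨P', hP'⟩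
    have zr : (r : ZMod q) ≠ 0 := fun h => hn (((castq _).mp h).trans hr)
    obtain ⟨a', ha'⟩ := hqa
    have hPb : P' = a' * b := by
      apply mul_left_cancel₀ hp.ne_zero
      rw [← hP', ← hc, ha']; ring
    have hna' : ¬ (q : ℤ) ∣ a' := by
      intro h; apply hnP'; rw [hPb]; exact dvd_mul_of_dvd_left h _
    have za' : (a' : ZMod q) ≠ 0 := fun h => hna' ((castq _).mp h)
    have hqb2 : (q : ℤ) ∣ b2 := by rw [hla, ha']; exact ⟨l * a', by ring⟩
    have main : ∀ c2 : ℤ, b2 = q * c2 → IsSquare ((t * (c2 * P') : ℤ) : ZMod q) →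
        IsSquare ((k * b : ℤ) : ZMod q) := by
      intro c2 h1 h2
      have hc2 : t * c2 = k * a' * r ^ 2 := by
        apply mul_left_cancel₀ hp.ne_zero
        rw [h1, ha'] at hb2; linear_combination hb2
      apply isSq_of_mul (y := (a' : ZMod q) * r) (mul_ne_zero za' zr)
      have h3 : t * (c2 * P') = (k * b) * (a' * r) ^ 2 := by
        rw [hPb]; linear_combination (a' * b) * hc2
      rw [h3] at h2
      push_cast at h2 ⊢
      exact h2
    rcases Lq hq hn hP' hnP' d with h | h | h | h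
    · exact absurd hqb2 h.2.2.1
    · obtain ⟨hnb1, _, c2, hc2, hs⟩ := h
      apply main c2 hc2
      rcases ht with ⟨_, ht⟩ | ⟨hb1, _⟩
      · rw [ht, one_mul]; exact hs
      · exact absurd (by rw [hb1, hP']; exact ⟨-P', by ring⟩) hnb1
    · exact absurd hqb2 h.2.1
    · obtain ⟨⟨c1, hc1, _⟩, c2, hc2, hs⟩ := h
      apply main c2 hc2
      rcases ht with ⟨hb1, _⟩ | ⟨_, ht⟩
      · exfalso
        apply hp.not_isUnit
        rw [hb1] at hc1
        exact isUnit_of_dvd_one ⟨c1, hc1⟩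
      · rw [ht]; exact hs


/-- the criterion when `P` is even -/
def CritE (P : ℤ) : Prop :=
  (∀ b c : ℤ, b * c = -P → b % 8 = 1 → SqMod b c → SqMod c b → b = 1) ∧
  (∀ a b : ℤ, 0 < a → a * b = P → SqMod a b → SqMod b a → a = 1 ∨ b = 1)

theorem h30E (h4 : P % 4 = 2) (h3 : P % 3 = 2) (h5 : P % 5 = 2 ∨ P % 5 = 3) :
    ∀ q : ℕ, q.Prime → q ≠ 2 → (q : ℤ) ∣ P → ¬ (q : ℤ) ∣ 6480 := by
  intro q hq hq2 hqP h
  have hp : Prime (q : ℤ) := Nat.prime_iff_prime_int.mp hq
  have h30 : (q : ℤ) ∣ 30 ^ 4 := h.trans (by norm_num)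
  have h2' : (q : ℤ) ∣ 2 * (3 * 5) := by
    have := hp.dvd_of_dvd_pow h30
    norm_num; exact this
  have cast : ∀ k : ℕ, k.Prime → (q : ℤ) ∣ k → q = k := by
    intro k hk h
    exact (Nat.prime_dvd_prime_iff_eq hq hk).mp (by exact_mod_cast h)
  rcases hp.dvd_or_dvd h2' with h | h
  · exact hq2 (cast 2 Nat.prime_two (by exact_mod_cast h))
  rcases hp.dvd_or_dvd h with h | h
  · have := cast 3 Nat.prime_three (by exact_mod_cast h)
    subst this; push_cast at hqP; omega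
  · have := cast 5 Nat.prime_five (by exact_mod_cast h)
    subst this; push_cast at hqP; omega

/-- the four classes -/
theorem classesE (hsq : Squarefree P) (hP0 : 0 < P) (h4 : P % 4 = 2) (h3 : P % 3 = 2)
    (h5 : P % 5 = 2 ∨ P % 5 = 3) (hC : CritE P) (d : Dat P b1 b2 b3 u1 u2 u3 m e)
    (hE : b1 % 8 = 1 ∨ ∃ c, b1 = 2 * c ∧ (c + P / 2) % 8 = 0) (hpos : 0 < b1 * b2) :
    (b1 = 1 ∧ b2 = 1) ∨ (b1 = 1 ∧ b2 = P) ∨ (b1 = -P ∧ b2 = -5) ∨ (b1 = -P ∧ b2 = -5 * P) := by
  have h30 := h30E h4 h3 h5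
  have l5 := L5' (by omega) d
  have sgn : (0 < b1 ∧ 0 < b2) ∨ (b1 < 0 ∧ b2 < 0) := by
    rcases lt_or_gt_of_ne d.b10 with h | h
    · right; exact ⟨h, by nlinarith⟩
    · left; exact ⟨h, by nlinarith⟩
  have hb1P : b1 ∣ P := by
    have h3' : ¬ (3 : ℤ) ∣ b1 := L3a h3 d
    have : IsCoprime b1 3 := ((Prime.coprime_iff_not_dvd int_prime3).mpr h3').symm
    exact this.dvd_of_dvd_mul_left (b1_dvd hP0.ne' d)
  have hb1 : b1 = 1 ∨ b1 = -P := by
    obtain ⟨c', hc'⟩ := hb1P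
    obtain ⟨c, hc⟩ : ∃ c, b1 * c = -P := ⟨-c', by rw [hc']; ring⟩
    obtain ⟨s1, s2⟩ := sq_b1' hsq h30 d (k := 1) (b0 := b1) (one_dvd _) (one_mul _).symm hc
    rw [one_mul] at s1 s2
    rcases hE with hE | ⟨x, hx, hE⟩
    · left; exact hC.1 b1 c hc hE s1 s2
    · right
      obtain ⟨p, rfl⟩ : ∃ p, P = 2 * p := ⟨P / 2, by omega⟩
      have hp2 : p % 2 = 1 := by omega
      have e0 : 2 * p / 2 = p := by omega
      rw [e0] at hE
      have hxc : x * c = -p := by
        have : (2 : ℤ) * (x * c) = 2 * (-p) := by rw [hx] at hc; linear_combination hc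
        exact mul_left_cancel₀ (by norm_num) this
      have hc8 : c % 8 = 1 := by
        have z1 := congrArg (Int.cast : ℤ → ZMod 8) hxc
        push_cast at z1
        have z2 : ((x + p : ℤ) : ZMod 8) = 0 := by
          rw [ZMod.intCast_zmod_eq_zero_iff_dvd]; exact Int.dvd_of_emod_eq_zero hE
        push_cast at z2
        have z3 := odd_sq8 hp2
        have key : ∀ x c y : ZMod 8, x * c = -y → x + y = 0 → y ^ 2 = 1 → c = 1 := by decide
        have := key _ _ _ z1 z2 z3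
        exact_mod_cast mod8_of_cast (x := c) (k := 1) (by norm_num) (by simpa using this)
      have := hC.1 c b1 (by rw [mul_comm]; exact hc) hc8 s2 s1
      rw [this, mul_one] at hc
      exact hc
  have hpd : ∀ q : ℕ, q.Prime → (q : ℤ) ∣ b2 → (q : ℤ) ∣ 5 ∨ (q : ℤ) ∣ P := by
    intro q hq h
    have hp : Prime (q : ℤ) := Nat.prime_iff_prime_int.mp hq
    have h1 : (q : ℤ) ∣ 10 * P := h.trans (b2_dvd hP0.ne' d)
    rcases hp.dvd_or_dvd h1 with h2 | h2
    · rw [show (10 : ℤ) = 2 * 5 by norm_num] at h2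
      rcases hp.dvd_or_dvd h2 with h2 | h2
      · right; exact h2.trans (by omega)
      · left; exact h2
    · right; exact h2
  have five : ∀ q : ℕ, q.Prime → (q : ℤ) ∣ 5 → q = 5 := by
    intro q hq h
    exact (Nat.prime_dvd_prime_iff_eq hq Nat.prime_five).mp (by exact_mod_cast h)
  rcases hb1 with hb1 | hb1
  · have hs : 0 < b2 := by
      rcases sgn with h | h
      · exact h.2
      · exfalso; rw [hb1] at h; linarith [h.1]
    have hn5 : ¬ (5 : ℤ) ∣ b2 := by
      rcases l5 with h' | h'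
      · exact h'.2
      · exfalso
        have h'' := h'.2.1 h5
        rw [hb1] at h''
        clear * - h''
        omega
    have hb2 : b2 ∣ P := by
      apply dvd_of_primes b2 P d.s2 hP0.ne'
      intro q hq h
      rcases hpd q hq h with h' | h'
      · exfalso
        have := five q hq h'
        subst this
        exact hn5 (by exact_mod_cast h)
      · exact h'
    obtain ⟨b, hb⟩ := hb2
    obtain ⟨s1, s2⟩ := sq_b2' hsq h30 d (t := 1) (k := 1) (r := 1) (a := b2) (b := b)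
      (Or.inl ⟨hb1, rfl⟩) (by ring) (one_dvd _) ⟨1, one_dvd _, (one_mul _).symm⟩ hb.symm
    rw [one_mul] at s1 s2
    rcases hC.2 b2 b hs hb.symm s1 s2 with h | h
    · left; exact ⟨hb1, h⟩
    · right; left; exact ⟨hb1, by rw [hb, h, mul_one]⟩
  · have hs : b2 < 0 := by
      rcases sgn with h | h
      · exfalso; rw [hb1] at h; linarith [h.1]
      · exact h.2
    have h5b : (5 : ℤ) ∣ b2 := by
      rcases l5 with h' | h'
      · exfalso
        have h'' := h'.1
        rw [hb1] at h''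
        clear * - h'' h5
        omega
      · exact h'.2.2
    obtain ⟨a, ha⟩ := h5b
    have hsqb : Squarefree (5 * a) := by rw [← ha]; exact d.s2
    have hna5 : ¬ (5 : ℤ) ∣ a := sqf_not int_prime5 hsqb
    have haP : a ∣ P := by
      apply dvd_of_primes a P hsqb.of_mul_right hP0.ne'
      intro q hq h
      rcases hpd q hq (by rw [ha]; exact dvd_mul_of_dvd_right h _) with h' | h'
      · exfalso
        have := five q hq h'
        subst this
        exact hna5 (by exact_mod_cast h)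
      · exact h'
    obtain ⟨b, hb⟩ := haP
    have ha0 : 0 < -a := by omega
    have hab : (-a) * (-b) = P := by rw [hb]; ring
    obtain ⟨s1, s2⟩ := sq_b2' hsq h30 d (t := -5) (k := 1) (r := 5) (a := -a) (b := -b)
      (Or.inr ⟨hb1, rfl⟩) (by rw [ha]; ring) (by norm_num) ⟨-5, by norm_num, by rw [ha]; ring⟩ hab
    rw [one_mul] at s1 s2
    rcases hC.2 (-a) (-b) ha0 hab s1 s2 with h | h
    · right; right; left
      have : a = -1 := by linarith
      exact ⟨hb1, by rw [ha, this]; ring⟩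
    · right; right; right
      have : b = -1 := by linarith
      exact ⟨hb1, by rw [ha, hb, this]; ring⟩

theorem sq_dvd_drop' {x' k t : ℤ} (hsq : Squarefree x')
    (hk : ∀ q : ℕ, q.Prime → (q : ℤ) ∣ x' → ¬ (q : ℤ) ∣ k) (h : t ^ 2 ∣ k * x') : t ^ 2 ∣ k := by
  have hcop : IsCoprime t x' := by
    rw [Int.isCoprime_iff_gcd_eq_one]
    by_contra hg
    obtain ⟨q, hq, hqg⟩ := Nat.exists_prime_and_dvd hg
    have hqt : (q : ℤ) ∣ t := (Int.natCast_dvd_natCast.mpr hqg).trans (Int.gcd_dvd_left ..)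
    have hqx : (q : ℤ) ∣ x' := (Int.natCast_dvd_natCast.mpr hqg).trans (Int.gcd_dvd_right ..)
    have hqp : Prime (q : ℤ) := Nat.prime_iff_prime_int.mp hq
    have hqk := hk q hq hqx
    have h1 : (q : ℤ) * q ∣ x' * k := by
      have : (q : ℤ) * q ∣ t ^ 2 := by rw [sq]; exact mul_dvd_mul hqt hqt
      rw [mul_comm x' k]; exact this.trans h
    have h2 : IsCoprime ((q : ℤ) * q) k := by
      have : IsCoprime (q : ℤ) k := (Prime.coprime_iff_not_dvd hqp).mpr hqk
      exact this.mul_left this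
    have h3 : (q : ℤ) * q ∣ x' := h2.dvd_of_dvd_mul_right h1
    exact hqp.not_isUnit (hsq q h3)
  exact (hcop.pow_left).dvd_of_dvd_mul_right h

theorem sq160 {a : ℤ} (h : a ^ 2 ∣ 160) : a ^ 2 = 1 ∨ a ^ 2 = 4 ∨ a ^ 2 = 16 := by
  have h1 : a ^ 2 ≤ 160 := Int.le_of_dvd (by norm_num) h
  have h2 : a ≤ 13 := by nlinarith
  have h3 : -13 ≤ a := by nlinarith
  interval_cases a <;> first | (norm_num; done) | (exfalso; revert h; decide)

theorem fin_E {P : ℤ} (hsq : Squarefree P) (hP : 0 < P) (h4 : P % 4 = 2)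
    (h30 : ∀ q : ℕ, q.Prime → q ≠ 2 → (q : ℤ) ∣ P → ¬ (q : ℤ) ∣ 6480) : Fin' P := by
  intro x y z a b c s hs hxy hxz hyz hx hy hz hab
  have hP0 : P ≠ 0 := by omega
  obtain ⟨x', hx'⟩ := hx
  have hx0 : x ≠ 0 := by rintro rfl; apply hP0; rw [hx']; ring
  have hsq' : Squarefree (x * x') := by rw [← hx']; exact hsq
  have hsqx : Squarefree x := hsq'.of_mul_left
  have hsqx' : Squarefree x' := hsq'.of_mul_right
  have hcop : IsCoprime x x' := by
    have := (squarefree_mul_iff.mp hsq').1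
    exact this.isCoprime
  have hxa : x ∣ a := (hsqx.dvd_pow_iff_dvd (by norm_num : 2 ≠ 0)).mp ⟨y, hxy.symm⟩
  have hxb : x ∣ b := (hsqx.dvd_pow_iff_dvd (by norm_num : 2 ≠ 0)).mp ⟨z, hxz.symm⟩
  obtain ⟨a', rfl⟩ := hxa
  obtain ⟨b', rfl⟩ := hxb
  have ey : y = x * a' ^ 2 := by
    apply mul_left_cancel₀ hx0; linear_combination hxy
  have ez : z = x * b' ^ 2 := by
    apply mul_left_cancel₀ hx0; linear_combination hxz
  have hPx : ∀ q : ℕ, (q : ℤ) ∣ x' → (q : ℤ) ∣ P := by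
    intro q h; rw [hx']; exact dvd_mul_of_dvd_right h _
  have ha : a' ^ 2 ∣ 81 := by
    apply sq_dvd_drop' hsqx' (k := 81)
    · intro q hq h h'
      by_cases hq2 : q = 2
      · subst hq2; norm_num at h'
      · exact h30 q hq hq2 (hPx q h) (h'.trans (by norm_num))
    · have : x * a' ^ 2 ∣ x * (81 * x') := by
        rw [← ey]; rw [hx'] at hy
        have e : x * (81 * x') = 81 * (x * x') := by ring
        rw [e]; exact hy
      exact (mul_dvd_mul_iff_left hx0).mp this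
  have hb0 : b' ^ 2 ∣ 80 * x' := by
    have : x * b' ^ 2 ∣ x * (80 * x') := by
      rw [← ez]; rw [hx'] at hz
      have e : x * (80 * x') = 80 * (x * x') := by ring
      rw [e]; exact hz
    exact (mul_dvd_mul_iff_left hx0).mp this
  have hb : b' ^ 2 ∣ 160 := by
    by_cases h2 : (2 : ℤ) ∣ x'
    · obtain ⟨x2, rfl⟩ := h2
      have hx2 : ¬ (2 : ℤ) ∣ x2 := sqf_not int_prime2 hsqx'
      apply sq_dvd_drop' (x' := x2) hsqx'.of_mul_right
      · intro q hq h h'
        by_cases hq2 : q = 2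
        · subst hq2; exact hx2 (by exact_mod_cast h)
        · exact h30 q hq hq2 (hPx q (dvd_mul_of_dvd_right h _)) (by
            have h8 : (q : ℤ) ∣ 2 ^ 4 * 5 * 2 := h'.trans (by norm_num)
            have hp : Prime (q : ℤ) := Nat.prime_iff_prime_int.mp hq
            rcases hp.dvd_or_dvd h8 with h9 | h9
            · exact h9.trans (by norm_num)
            · exact h9.trans (by norm_num))
      · have e : 160 * x2 = 80 * (2 * x2) := by ring
        rw [e]; exact hb0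
    · have : b' ^ 2 ∣ 80 := by
        apply sq_dvd_drop' hsqx' _ hb0
        intro q hq h h'
        by_cases hq2 : q = 2
        · subst hq2; exact h2 (by exact_mod_cast h)
        · exact h30 q hq hq2 (hPx q h) (h'.trans (by norm_num))
      exact this.trans (by norm_num)
  have h1 : x * (b' ^ 2 - a' ^ 2) = x' * s ^ 2 := by
    apply mul_left_cancel₀ hx0; rw [hx'] at hab; linear_combination hab
  have hxs : x ∣ s := by
    apply (hsqx.dvd_pow_iff_dvd (by norm_num : 2 ≠ 0)).mp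
    exact hcop.dvd_of_dvd_mul_left ⟨_, h1.symm⟩
  obtain ⟨s', rfl⟩ := hxs
  have hs' : s' ≠ 0 := by rintro rfl; simp at hs
  have h2 : b' ^ 2 - a' ^ 2 = P * s' ^ 2 := by
    apply mul_left_cancel₀ hx0; rw [hx']; linear_combination h1
  obtain ⟨p, rfl⟩ : ∃ p, P = 2 * p := ⟨P / 2, by omega⟩
  have h3 : 0 < 2 * p * s' ^ 2 := by positivity
  have h5 : 2 * p * s' ^ 2 = 2 * (p * s' ^ 2) := by ring
  rw [← h2] at h3 h5
  rcases sq81 ha with h1 | h1 | h1 <;> rcases sq160 hb with h6 | h6 | h6 <;> omega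

theorem eight_E {K : Type*} [Field K] [NumberField K] {d : ℕ} (hsq : Squarefree d)
    (h4 : d % 4 = 2) (h15 : d % 15 = 2 ∨ d % 15 = 8) (hC : CritE (d : ℤ))
    (hL : ∀ b1 b2 b3 u1 u2 u3 m e : ℤ, Dat (d : ℤ) b1 b2 b3 u1 u2 u3 m e →
      b1 % 8 = 1 ∨ ∃ c, b1 = 2 * c ∧ (c + (d : ℤ) / 2) % 8 = 0)
    (hK : Module.finrank ℚ K = 2) (hα : ∃ α : K, α ^ 2 = -(d : K)) :
    Nat.card (X015.baseChange K).toAffine.Point = 8 := by
  have hsqi : Squarefree (d : ℤ) := Int.squarefree_natCast.mpr hsq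
  have h0 : (0 : ℤ) < d := by omega
  have h1 : (1 : ℤ) < d := by omega
  have h4' : (d : ℤ) % 4 = 2 := by omega
  have h3' : (d : ℤ) % 3 = 2 := by omega
  have h5' : (d : ℤ) % 5 = 2 ∨ (d : ℤ) % 5 = 3 := by omega
  have hfour : Four (d : ℤ) := by
    apply four_of h0.ne'
    intro X Y hY h
    obtain ⟨b1, b2, b3, u1, u2, u3, m, e, D, e1, e2, e3⟩ := exists_dat (d : ℤ) X Y hY h
    refine ⟨b1, b2, (u1 : ℚ) / m, (u2 : ℚ) / m, e1, e2, ?_⟩
    exact classesE hsqi h0 h4' h3' h5' hC D (hL _ _ _ _ _ _ _ _ D) (sign_pos h0 hY h e1 e2)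
  have htw := twist_of h0 (fun X Y h => no_point h0.ne' hfour
    (fin_E hsqi h0 h4' (h30E h4' h3' h5')) X Y h)
  refine eight_of (P := (d : ℤ)) h0 (not_sq_of_sqf hsqi h1) htw hK ?_
  obtain ⟨α, hα⟩ := hα
  exact ⟨α, by rw [hα]; push_cast; ring⟩

end Vale.Agent.P017.H524
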