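import Mathlib

/-! From a solution of `z² = a x² + b y²` to an ideal `J` with `(a, s) J²` principal. -/

namespace Vale.Agent.P017.H524

theorem prim_sol {a b x y z : ℤ} (h : z ^ 2 = a * x ^ 2 + b * y ^ 2) (hz : z ≠ 0) :
    ∃ x y z : ℤ, z ^ 2 = a * x ^ 2 + b * y ^ 2 ∧ z ≠ 0 ∧ IsCoprime x y := by
  have hg : 0 < Int.gcd x y := by
    rw [Int.gcd_pos_iff]
    by_contra h0
    push Not at h0
    obtain ⟨rfl, rfl⟩ := h0
    apply hz
    have : z ^ 2 = 0 := by rw [h]; ring
    exact pow_eq_zero_iff (by norm_num) |>.mp this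
  obtain ⟨x', y', hco, hx, hy⟩ := Int.exists_gcd_one hg
  set g : ℤ := (Int.gcd x y : ℤ) with hgdef
  have hg0 : g ≠ 0 := by rw [hgdef]; exact_mod_cast hg.ne'
  have hzz : g ^ 2 ∣ z ^ 2 := ⟨a * x' ^ 2 + b * y' ^ 2, by rw [h, hx, hy]; ring⟩
  have hz' : g ∣ z := (Int.pow_dvd_pow_iff (by norm_num)).mp hzz
  obtain ⟨z', rfl⟩ := hz'
  refine ⟨x', y', z', ?_, ?_, Int.isCoprime_iff_gcd_eq_one.mpr hco⟩
  · have hg2 : g ^ 2 ≠ 0 := pow_ne_zero 2 hg0
    apply mul_left_cancel₀ hg2
    rw [hx, hy] at h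
    linear_combination h
  · rintro rfl; exact hz (mul_zero _)

theorem sqf_sq {b y : ℤ} (hb : Squarefree b) {q : ℕ} (hq : q.Prime)
    (h : (q : ℤ) * q ∣ b * y ^ 2) : (q : ℤ) ∣ y := by
  have hp : Prime (q : ℤ) := Nat.prime_iff_prime_int.mp hq
  by_contra hy
  have h1 : IsCoprime (q : ℤ) y := (Prime.coprime_iff_not_dvd hp).mpr hy
  have h2 : IsCoprime ((q : ℤ) * q) (y ^ 2) := (h1.mul_left h1).pow_right
  exact hp.not_isUnit (hb q (h2.dvd_of_dvd_mul_right h))

theorem cop_sol {a b x y z : ℤ} (ha : Squarefree a) (hb : Squarefree b) (hab : IsCoprime a b)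
    (h : z ^ 2 = a * x ^ 2 + b * y ^ 2) (hxy : IsCoprime x y) : IsCoprime (a ^ 2 * x) z := by
  have key : ∀ c : ℤ, (∀ q : ℕ, q.Prime → (q : ℤ) ∣ c → (q : ℤ) ∣ z → False) → IsCoprime c z := by
    intro c hc
    rw [Int.isCoprime_iff_gcd_eq_one]
    by_contra hg
    obtain ⟨q, hq, hqg⟩ := Nat.exists_prime_and_dvd hg
    exact hc q hq ((Int.natCast_dvd_natCast.mpr hqg).trans (Int.gcd_dvd_left ..))
      ((Int.natCast_dvd_natCast.mpr hqg).trans (Int.gcd_dvd_right ..))
  have hx : IsCoprime x z := by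
    apply key
    intro q hq hqx hqz
    have hp : Prime (q : ℤ) := Nat.prime_iff_prime_int.mp hq
    have h1 : (q : ℤ) * q ∣ b * y ^ 2 := by
      have e : b * y ^ 2 = z * z - a * (x * x) := by linear_combination -h
      rw [e]
      exact dvd_sub (mul_dvd_mul hqz hqz) (dvd_mul_of_dvd_right (mul_dvd_mul hqx hqx) _)
    have h2 := sqf_sq hb hq h1
    exact hp.not_isUnit (hxy.isUnit_of_dvd' hqx h2)
  have ha' : IsCoprime a z := by
    apply key
    intro q hq hqa hqz
    have hp : Prime (q : ℤ) := Nat.prime_iff_prime_int.mp hq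
    have h1 : (q : ℤ) ∣ b * y ^ 2 := by
      have e : b * y ^ 2 = z * z - a * (x * x) := by linear_combination -h
      rw [e]
      exact dvd_sub (dvd_mul_of_dvd_left hqz _) (dvd_mul_of_dvd_left hqa _)
    have h2 : (q : ℤ) ∣ y := by
      rcases hp.dvd_or_dvd h1 with h' | h'
      · exact absurd (hab.isUnit_of_dvd' hqa h') hp.not_isUnit
      · exact hp.dvd_of_dvd_pow h'
    have h3 : (q : ℤ) * q ∣ a * x ^ 2 := by
      have e : a * x ^ 2 = z * z - b * (y * y) := by linear_combination -h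
      rw [e]
      exact dvd_sub (mul_dvd_mul hqz hqz) (dvd_mul_of_dvd_right (mul_dvd_mul h2 h2) _)
    have h4 := sqf_sq ha hq h3
    exact hp.not_isUnit (hxy.isUnit_of_dvd' h4 h2)
  exact (ha'.pow_left).mul_left hx

theorem ideal_eq {R : Type*} [CommRing R] {a s w u u' v : R} (h1 : u * u' = a * w ^ 2)
    (h2 : u * v = s * w ^ 2) {c3 c5 c6 : R}
    (h3 : c3 * (a * u) + c5 * u' + c6 * v = 1) :
    Ideal.span {a, s} * Ideal.span {w, u} ^ 2 = Ideal.span {u} := by
  apply le_antisymm
  · rw [sq, Ideal.span_pair_mul_span_pair, Ideal.span_mul_span', Ideal.span_le]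
    rintro _ ⟨x, hx, y, hy, rfl⟩
    simp only [Set.mem_insert_iff, Set.mem_singleton_iff] at hx hy
    show x * y ∈ Ideal.span {u}
    rw [Ideal.mem_span_singleton]
    rcases hx with rfl | rfl <;> rcases hy with rfl | rfl | rfl | rfl
    · exact ⟨u', by linear_combination -h1⟩
    · exact ⟨x * w, by ring⟩
    · exact ⟨x * w, by ring⟩
    · exact ⟨x * u, by ring⟩
    · exact ⟨v, by linear_combination -h2⟩
    · exact ⟨x * w, by ring⟩
    · exact ⟨x * w, by ring⟩
    · exact ⟨x * u, by ring⟩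
  · rw [Ideal.span_singleton_le_iff_mem]
    have ha : a ∈ Ideal.span {a, s} := Ideal.subset_span (by simp)
    have hs : s ∈ Ideal.span {a, s} := Ideal.subset_span (by simp)
    have hw : w ∈ Ideal.span {w, u} := Ideal.subset_span (by simp)
    have hu : u ∈ Ideal.span {w, u} := Ideal.subset_span (by simp)
    have huu : u ^ 2 ∈ Ideal.span {w, u} ^ 2 := Ideal.pow_mem_pow hu 2
    have hww : w ^ 2 ∈ Ideal.span {w, u} ^ 2 := Ideal.pow_mem_pow hw 2
    have m3 := Ideal.mul_mem_mul ha huu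
    have m5 := Ideal.mul_mem_mul ha hww
    have m6 := Ideal.mul_mem_mul hs hww
    have e : u = c3 * (a * u ^ 2) + c5 * (a * w ^ 2) + c6 * (s * w ^ 2) := by
      linear_combination (-u) * h3 + c5 * h1 + c6 * h2
    have mem := Ideal.add_mem _ (Ideal.add_mem _ (Ideal.mul_mem_left _ c3 m3)
      (Ideal.mul_mem_left _ c5 m5)) (Ideal.mul_mem_left _ c6 m6)
    rwa [← e] at mem

theorem exists_J {R : Type*} [CommRing R] [CharZero R] [IsDomain R] {s θ : R} {a b x y z : ℤ}
    (hs : s ^ 2 = -((a * b : ℤ) : R)) (hθ : 2 * θ = 1 + s)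
    (ha : Squarefree a) (hb : Squarefree b) (hab : IsCoprime a b) (ha2 : a % 2 = 1)
    (hb2 : b % 2 = 1) (h : z ^ 2 = a * x ^ 2 + b * y ^ 2) (hz : z ≠ 0) (hxy : IsCoprime x y) :
    ∃ w u : R, w ≠ 0 ∧ u ≠ 0 ∧
      Ideal.span {(a : R), s} * Ideal.span {w, u} ^ 2 = Ideal.span {u} := by
  have hcop := cop_sol ha hb hab h hxy
  have ha0 : (a : R) ≠ 0 := by
    have : a ≠ 0 := ha.ne_zero
    exact_mod_cast this
  have hR : (z : R) ^ 2 = a * x ^ 2 + b * y ^ 2 := by exact_mod_cast h
  push_cast at hs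
  rcases Int.emod_two_eq_zero_or_one z with hz2 | hz2
  · -- `z` even
    obtain ⟨w, rfl⟩ : ∃ w, z = 2 * w := ⟨z / 2, by omega⟩
    have hw : w ≠ 0 := by rintro rfl; exact hz (mul_zero _)
    have hxodd : x % 2 = 1 ∧ y % 2 = 1 := by
      rcases Int.emod_two_eq_zero_or_one x with hx | hx <;>
        rcases Int.emod_two_eq_zero_or_one y with hy | hy
      · exfalso
        have := hxy.isUnit_of_dvd' (x := 2) (Int.dvd_of_emod_eq_zero hx)
          (Int.dvd_of_emod_eq_zero hy)
        rw [Int.isUnit_iff] at this; omega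
      · exfalso
        have h1 : (a * x ^ 2 + b * y ^ 2) % 2 = 1 := by
          rw [Int.add_emod, Int.mul_emod a, Int.mul_emod b, sq, sq, Int.mul_emod x,
            Int.mul_emod y, ha2, hb2, hx, hy]; rfl
        rw [← h] at h1
        have h2 : (2 * w) ^ 2 = 2 * (2 * w ^ 2) := by ring
        omega
      · exfalso
        have h1 : (a * x ^ 2 + b * y ^ 2) % 2 = 1 := by
          rw [Int.add_emod, Int.mul_emod a, Int.mul_emod b, sq, sq, Int.mul_emod x,
            Int.mul_emod y, ha2, hb2, hx, hy]; rfl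
        rw [← h] at h1
        have h2 : (2 * w) ^ 2 = 2 * (2 * w ^ 2) := by ring
        omega
      · exact ⟨hx, hy⟩
    obtain ⟨hx, hy⟩ := hxodd
    have hax : (a * x) % 2 = 1 := by rw [Int.mul_emod, ha2, hx]; rfl
    have hby : (b * y) % 2 = 1 := by rw [Int.mul_emod, hb2, hy]; rfl
    obtain ⟨m, hm⟩ : ∃ m, 2 * m = a * x - y := ⟨(a * x - y) / 2, by omega⟩
    obtain ⟨n, hn⟩ : ∃ n, 2 * n = b * y - x := ⟨(b * y - x) / 2, by omega⟩
    have hmR : 2 * (m : R) = a * x - y := by exact_mod_cast hm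
    have hnR : 2 * (n : R) = b * y - x := by exact_mod_cast hn
    push_cast at hR
    have h4 : (4 : R) ≠ 0 := by norm_num
    have h2' : (2 : R) ≠ 0 := by norm_num
    have e1 : ((m : R) + y * θ) * ((m : R) + y - y * θ) = a * (w : R) ^ 2 := by
      apply mul_left_cancel₀ h4
      have f1 : 2 * ((m : R) + y * θ) = a * x + y * s := by linear_combination hmR + (y : R) * hθ
      have f2 : 2 * ((m : R) + y - y * θ) = a * x - y * s := by
        linear_combination hmR - (y : R) * hθ
      have : 4 * (((m : R) + y * θ) * ((m : R) + y - y * θ)) =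
          (2 * ((m : R) + y * θ)) * (2 * ((m : R) + y - y * θ)) := by ring
      rw [this, f1, f2]
      linear_combination (-(y : R) ^ 2) * hs - (a : R) * hR
    have e2 : ((m : R) + y * θ) * ((n : R) + x * θ) = s * (w : R) ^ 2 := by
      apply mul_left_cancel₀ h4
      have f1 : 2 * ((m : R) + y * θ) = a * x + y * s := by linear_combination hmR + (y : R) * hθ
      have f2 : 2 * ((n : R) + x * θ) = b * y + x * s := by
        linear_combination hnR + (x : R) * hθ
      have : 4 * (((m : R) + y * θ) * ((n : R) + x * θ)) =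
          (2 * ((m : R) + y * θ)) * (2 * ((n : R) + x * θ)) := by ring
      rw [this, f1, f2]
      linear_combination ((x : R) * y) * hs - s * hR
    have hc : IsCoprime (a ^ 2 * x) (2 * w ^ 2) := by
      have c1 : IsCoprime (a ^ 2 * x) w := IsCoprime.of_mul_right_right hcop
      have c2 : IsCoprime (a ^ 2 * x) 2 := IsCoprime.of_mul_right_left hcop
      exact c2.mul_right c1.pow_right
    obtain ⟨p, q, hpq⟩ := hc
    have hpqR : (p : R) * (a ^ 2 * x) + q * (2 * w ^ 2) = 1 := by exact_mod_cast hpq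
    refine ⟨(w : R), (m : R) + y * θ, by exact_mod_cast hw, ?_,
      ideal_eq (u' := (m : R) + y - y * θ) (v := (n : R) + x * θ) (c3 := (p : R))
        (c5 := (p : R) * a + q * x) (c6 := (q : R) * y) e1 e2 ?_⟩
    · intro h0
      rw [h0, zero_mul] at e1
      have : (w : R) ≠ 0 := by exact_mod_cast hw
      exact (mul_ne_zero ha0 (pow_ne_zero 2 this)) e1.symm
    · -- `a (u + u') = a² x`, `x u' + y v = 2 w²`
      have g1 : (a : R) * (((m : R) + y * θ) + ((m : R) + y - y * θ)) = a ^ 2 * x := by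
        linear_combination (a : R) * hmR
      have g2 : (x : R) * ((m : R) + y - y * θ) + y * ((n : R) + x * θ) = 2 * (w : R) ^ 2 := by
        apply mul_left_cancel₀ h2'
        linear_combination (x : R) * hmR + (y : R) * hnR - hR
      linear_combination hpqR + (p : R) * g1 + (q : R) * g2
  · -- `z` odd
    have hc : IsCoprime (2 * (a ^ 2 * x)) (z ^ 2) := by
      have c2 : IsCoprime (2 : ℤ) z := by
        refine ⟨-(z / 2), 1, ?_⟩
        omega
      exact (c2.mul_left hcop).pow_right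
    obtain ⟨p, q, hpq⟩ := hc
    have hpqR : (p : R) * (2 * (a ^ 2 * x)) + q * z ^ 2 = 1 := by exact_mod_cast hpq
    have e1 : ((a : R) * x + y * s) * ((a : R) * x - y * s) = a * (z : R) ^ 2 := by
      linear_combination (-(y : R) ^ 2) * hs - (a : R) * hR
    have e2 : ((a : R) * x + y * s) * ((b : R) * y + x * s) = s * (z : R) ^ 2 := by
      linear_combination ((x : R) * y) * hs - s * hR
    refine ⟨(z : R), (a : R) * x + y * s, by exact_mod_cast hz, ?_,
      ideal_eq (u' := (a : R) * x - y * s) (v := (b : R) * y + x * s) (c3 := (p : R))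
        (c5 := (p : R) * a + q * x) (c6 := (q : R) * y) e1 e2 ?_⟩
    · intro h0
      rw [h0, zero_mul] at e1
      have : (z : R) ≠ 0 := by exact_mod_cast hz
      exact (mul_ne_zero ha0 (pow_ne_zero 2 this)) e1.symm
    · linear_combination hpqR - (q : R) * hR

end Vale.Agent.P017.H524
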