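import Vale.Agent.P017.H524.Main

/-! Counting the points of `X_0(15)` over `K`. -/

namespace Vale.Agent.P017.H524

open WeierstrassCurve

section quad

variable {K : Type*} [Field K] [NumberField K]

theorem quad_of (hK : Module.finrank ℚ K = 2) {P : ℤ} (hP : 0 < P) {α : K}
    (hα : α ^ 2 = -(P : K)) : Quad P α := by
  refine ⟨hα, ?_⟩
  have hli : LinearIndependent ℚ ![(1 : K), α] := by
    rw [LinearIndependent.pair_iff]
    intro s t h
    apply Quad.ind hP hα
    rw [Rat.smul_def, Rat.smul_def] at h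
    linear_combination h
  intro z
  let b := basisOfLinearIndependentOfCardEqFinrank hli (by rw [hK]; rfl)
  refine ⟨b.repr z 0, b.repr z 1, ?_⟩
  have h1 := b.sum_repr z
  rw [Fin.sum_univ_two] at h1
  have hb : ∀ i, b i = ![(1 : K), α] i := by
    intro i
    simp [b, coe_basisOfLinearIndependentOfCardEqFinrank]
  rw [hb, hb] at h1
  simp only [Matrix.cons_val_zero, Matrix.cons_val_one] at h1
  rw [Rat.smul_def, Rat.smul_def] at h1
  linear_combination (-1 : K) * h1

theorem sigma_of (hK : Module.finrank ℚ K = 2) {P : ℤ} {α : K}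
    (Q : Quad P α) : ∃ σ : K →ₐ[ℚ] K, σ α = -α := by
  have : Algebra.IsQuadraticExtension ℚ K := ⟨hK⟩
  have hcard : Nat.card (K ≃ₐ[ℚ] K) = 2 := by
    rw [IsGalois.card_aut_eq_finrank, hK]
  have hnt : Nontrivial (K ≃ₐ[ℚ] K) := by
    rw [← Finite.one_lt_card_iff_nontrivial, hcard]; norm_num
  obtain ⟨σ, hσ⟩ := exists_ne (1 : K ≃ₐ[ℚ] K)
  refine ⟨σ.toAlgHom, ?_⟩
  have h1 : (σ α) ^ 2 = α ^ 2 := by
    rw [← map_pow, Q.sq, map_neg, map_intCast]
  have h2 : (σ α - α) * (σ α + α) = 0 := by linear_combination h1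
  rcases mul_eq_zero.mp h2 with h | h
  · exfalso
    apply hσ
    ext z
    obtain ⟨a, b, rfl⟩ := Q.span z
    have h3 : σ α = α := by linear_combination h
    rw [map_add, map_mul, map_ratCast, map_ratCast, h3]
    rfl
  · show σ α = -α
    linear_combination h

end quad

variable {K : Type*} [Field K] [CharZero K]

/-- the seven points over `ℚ` -/
def ptsQ : Fin 7 → ℚ × ℚ :=
  ![(-1, 0), (3, -2), (-13 / 4, 9 / 8), (8, 18), (8, -27), (-2, 3), (-2, -2)]

theorem ptsQ_inj : Function.Injective ptsQ := by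
  intro i j h
  revert h
  revert i j
  decide +kernel

theorem ptsQ_eq (i : Fin 7) : (ptsQ i).2 ^ 2 + (ptsQ i).1 * (ptsQ i).2 + (ptsQ i).2
    = (ptsQ i).1 ^ 3 + (ptsQ i).1 ^ 2 - 10 * (ptsQ i).1 - 10 := by
  fin_cases i <;> simp [ptsQ] <;> norm_num

theorem delta_ne : (X015.baseChange K).Δ ≠ 0 := by
  rw [WeierstrassCurve.baseChange, WeierstrassCurve.map_Δ]
  have : X015.Δ = 50625 := by
    simp only [WeierstrassCurve.Δ, WeierstrassCurve.b₂, WeierstrassCurve.b₄, WeierstrassCurve.b₆,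
      WeierstrassCurve.b₈, X015]
    norm_num
  rw [this]
  simp

theorem ns_of_eqn {x y : K} (h : y ^ 2 + x * y + y = x ^ 3 + x ^ 2 - 10 * x - 10) :
    (X015.baseChange K).toAffine.Nonsingular x y := by
  rw [← Affine.equation_iff_nonsingular_of_Δ_ne_zero delta_ne, Affine.equation_iff, ca1, ca2, ca3,
    ca4, ca6]
  linear_combination h

theorem ptsK (i : Fin 7) : (X015.baseChange K).toAffine.Nonsingular ((ptsQ i).1 : K)
    ((ptsQ i).2 : K) := by
  apply ns_of_eqn
  have := congrArg (Rat.cast : ℚ → K) (ptsQ_eq i)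
  push_cast at this
  exact this

/-- the list of points -/
def ptList : Option (Fin 7) → (X015.baseChange K).toAffine.Point
  | none => 0
  | some i => Affine.Point.some _ _ (ptsK i)

theorem ptList_inj : Function.Injective (ptList (K := K)) := by
  intro i j h
  rcases i with _ | i <;> rcases j with _ | j
  · rfl
  · exact absurd h.symm (Affine.Point.some_ne_zero _)
  · exact absurd h (Affine.Point.some_ne_zero _)
  · simp only [ptList, Affine.Point.some.injEq] at h
    have h1 : (ptsQ i).1 = (ptsQ j).1 := by exact_mod_cast h.1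
    have h2 : (ptsQ i).2 = (ptsQ j).2 := by exact_mod_cast h.2
    have h3 : ptsQ i = ptsQ j := Prod.ext h1 h2
    rw [ptsQ_inj h3]

theorem ptList_surj (H : ∀ x y : K, (X015.baseChange K).toAffine.Nonsingular x y → Seven x y) :
    Function.Surjective (ptList (K := K)) := by
  intro P
  rcases P with _ | ⟨x, y, h⟩
  · exact ⟨none, rfl⟩
  · have key : ∃ i : Fin 7, ((ptsQ i).1 : K) = x ∧ ((ptsQ i).2 : K) = y := by
      rcases H x y h with ⟨hx, hy⟩ | ⟨hx, hy⟩ | ⟨hx, hy⟩ | ⟨hx, hy⟩ | ⟨hx, hy⟩ | ⟨hx, hy⟩ | ⟨hx, hy⟩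
      · exact ⟨0, by rw [hx, hy]; simp [ptsQ]⟩
      · exact ⟨1, by rw [hx, hy]; simp [ptsQ]⟩
      · exact ⟨2, by rw [hx, hy]; simp [ptsQ]⟩
      · exact ⟨3, by rw [hx, hy]; simp [ptsQ]⟩
      · exact ⟨4, by rw [hx, hy]; simp [ptsQ]⟩
      · exact ⟨5, by rw [hx, hy]; simp [ptsQ]⟩
      · exact ⟨6, by rw [hx, hy]; simp [ptsQ]⟩
    obtain ⟨i, hx, hy⟩ := key
    refine ⟨some i, ?_⟩
    simp only [ptList, Affine.Point.some.injEq]
    exact ⟨hx, hy⟩

theorem card_eight (H : ∀ x y : K, (X015.baseChange K).toAffine.Nonsingular x y → Seven x y) :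
    Nat.card (X015.baseChange K).toAffine.Point = 8 := by
  rw [← Nat.card_eq_of_bijective _ ⟨ptList_inj, ptList_surj H⟩]
  simp [Nat.card_eq_fintype_card]

end Vale.Agent.P017.H524
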