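import Vale.Agent.P017.H524.Class

/-! Infinite descent on `Y² = X (X + P) (X + 81 P)`. -/

namespace Vale.Agent.P017.H524

/-- the four square classes -/
def Four (P : ℤ) : Prop := ∀ X Y : ℚ, Y ≠ 0 → Y ^ 2 = X * (X + P) * (X + 81 * P) →
  ∃ x y z : ℚ, (X = x ^ 2 ∧ X + P = y ^ 2 ∧ X + 81 * P = z ^ 2) ∨
    (X = x ^ 2 ∧ X + P = P * y ^ 2 ∧ X + 81 * P = P * z ^ 2) ∨
    (X = - P * x ^ 2 ∧ X + P = -5 * y ^ 2 ∧ X + 81 * P = 5 * P * z ^ 2) ∨
    (X = - P * x ^ 2 ∧ X + P = -5 * P * y ^ 2 ∧ X + 81 * P = 5 * z ^ 2)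

/-- the end of the descent -/
def Fin' (P : ℤ) : Prop := ∀ x y z a b c s : ℤ, s ≠ 0 → x * y = a ^ 2 → x * z = b ^ 2 →
  y * z = c ^ 2 → x ∣ P → y ∣ 81 * P → z ∣ 80 * P → b ^ 2 - a ^ 2 = P * s ^ 2 → False

theorem isq {n : ℤ} {q : ℚ} (h : (n : ℚ) = q ^ 2) : ∃ a : ℤ, n = a ^ 2 := by
  have : IsSquare (n : ℚ) := ⟨q, by rw [h]; ring⟩
  rw [Rat.isSquare_intCast_iff] at this
  obtain ⟨a, ha⟩ := this
  exact ⟨a, by rw [ha]; ring⟩

theorem dv {r s q : ℚ} (hs : s ≠ 0) (h : r / s ^ 2 = q) : r = s ^ 2 * q := by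
  rw [div_eq_iff (pow_ne_zero 2 hs)] at h
  rw [h]; ring

theorem half {P : ℤ} (hP : P ≠ 0) (h4 : Four P) (A B C s : ℤ) (hs : s ≠ 0)
    (h1 : B ^ 2 - A ^ 2 = P * s ^ 2) (h2 : C ^ 2 - A ^ 2 = 81 * P * s ^ 2) :
    ∃ A' B' C' a b c : ℤ, A' ^ 2 = A ^ 2 ∧ B' ^ 2 = B ^ 2 ∧ C' ^ 2 = C ^ 2 ∧
      (A' + B') * (A' + C') = a ^ 2 ∧ (A' + B') * (B' + C') = b ^ 2 ∧
      (A' + C') * (B' + C') = c ^ 2 := by
  have hs2 : s ^ 2 ≠ 0 := pow_ne_zero 2 hs
  have hPs : P * s ^ 2 ≠ 0 := mul_ne_zero hP hs2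
  have n1 : A + B ≠ 0 := by
    intro h; apply hPs; rw [← h1]; linear_combination (B - A) * h
  have n2 : A + C ≠ 0 := by
    intro h; apply hPs
    have h3 : (81 : ℤ) * (P * s ^ 2) = 81 * 0 := by linear_combination (-1 : ℤ) * h2 + (C - A) * h
    exact mul_left_cancel₀ (by norm_num) h3
  have n3 : B + C ≠ 0 := by
    intro h; apply hPs
    have h3 : (80 : ℤ) * (P * s ^ 2) = 80 * 0 := by
      linear_combination h1 - h2 + (C - B) * h
    exact mul_left_cancel₀ (by norm_num) h3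
  have hsq : (s : ℚ) ≠ 0 := by exact_mod_cast hs
  have hPq : (P : ℚ) ≠ 0 := by exact_mod_cast hP
  have m1 : (A : ℚ) + B ≠ 0 := by exact_mod_cast n1
  have m2 : (A : ℚ) + C ≠ 0 := by exact_mod_cast n2
  have m3 : (B : ℚ) + C ≠ 0 := by exact_mod_cast n3
  have g1 : (B : ℚ) ^ 2 - A ^ 2 = P * s ^ 2 := by exact_mod_cast h1
  have g2 : (C : ℚ) ^ 2 - A ^ 2 = 81 * P * s ^ 2 := by exact_mod_cast h2
  set r1 : ℚ := ((A : ℚ) + B) * (A + C) with hr1
  set r2 : ℚ := ((A : ℚ) + B) * (B + C) with hr2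
  set r3 : ℚ := ((A : ℚ) + C) * (B + C) with hr3
  have k1 : r1 / s ^ 2 + P = r2 / s ^ 2 := by
    field_simp
    rw [hr1, hr2]; linear_combination (-1 : ℚ) * g1
  have k2 : r1 / s ^ 2 + 81 * P = r3 / s ^ 2 := by
    field_simp
    rw [hr1, hr3]; linear_combination (-1 : ℚ) * g2
  have hr10 : r1 ≠ 0 := mul_ne_zero m1 m2
  have hr20 : r2 ≠ 0 := mul_ne_zero m1 m3
  have hr30 : r3 ≠ 0 := mul_ne_zero m2 m3
  obtain ⟨x, y, z, hc⟩ := h4 (r1 / s ^ 2) (((A : ℚ) + B) * (A + C) * (B + C) / s ^ 3)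
    (by
      apply div_ne_zero (mul_ne_zero (mul_ne_zero m1 m2) m3)
      exact pow_ne_zero 3 hsq)
    (by
      rw [k1, k2, hr1, hr2, hr3]
      field_simp)
  rw [k1, k2] at hc
  rcases hc with ⟨c1, c2, c3⟩ | ⟨c1, c2, c3⟩ | ⟨c1, c2, c3⟩ | ⟨c1, c2, c3⟩
  · have d1 : r1 = (s * x) ^ 2 := by rw [dv hsq c1]; ring
    have d2 : r2 = (s * y) ^ 2 := by rw [dv hsq c2]; ring
    have d3 : r3 = (s * z) ^ 2 := by rw [dv hsq c3]; ring
    obtain ⟨a, ha⟩ := isq (n := (A + B) * (A + C)) (q := s * x) (by push_cast; exact d1)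
    obtain ⟨b, hb⟩ := isq (n := (A + B) * (B + C)) (q := s * y) (by push_cast; exact d2)
    obtain ⟨c, hc⟩ := isq (n := (A + C) * (B + C)) (q := s * z) (by push_cast; exact d3)
    exact ⟨A, B, C, a, b, c, rfl, rfl, rfl, ha, hb, hc⟩
  · have d1 : r1 = s ^ 2 * x ^ 2 := dv hsq c1
    have d2 : r2 = s ^ 2 * (P * y ^ 2) := dv hsq c2
    have d3 : r3 = s ^ 2 * (P * z ^ 2) := dv hsq c3
    have x0 : x ≠ 0 := by rintro rfl; apply hr10; rw [d1]; ring
    obtain ⟨a, ha⟩ := isq (n := (-A + B) * (-A + C)) (q := 9 * P * s / x) (by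
      push_cast
      rw [div_pow, eq_div_iff (pow_ne_zero 2 x0)]
      have : (s : ℚ) ^ 2 * ((-(A : ℚ) + B) * (-A + C) * x ^ 2) = s ^ 2 * (9 * P * s) ^ 2 := by
        have e1 : (s : ℚ) ^ 2 * ((-(A : ℚ) + B) * (-A + C) * x ^ 2)
          = ((B : ℚ) ^ 2 - A ^ 2) * ((C : ℚ) ^ 2 - A ^ 2) := by
          have : (s : ℚ) ^ 2 * ((-(A : ℚ) + B) * (-A + C) * x ^ 2)
            = (-(A : ℚ) + B) * (-A + C) * (s ^ 2 * x ^ 2) := by ring
          rw [this, ← d1, hr1]; ring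
        rw [e1, g1, g2]; ring
      exact mul_left_cancel₀ (pow_ne_zero 2 hsq) this)
    obtain ⟨b, hb⟩ := isq (n := (-A + B) * (B + C)) (q := P * s ^ 2 * y / (A + B)) (by
      push_cast
      rw [div_pow, eq_div_iff (pow_ne_zero 2 m1)]
      have e1 : (-(A : ℚ) + B) * (B + C) * (A + B) ^ 2 = ((B : ℚ) ^ 2 - A ^ 2) * r2 := by
        rw [hr2]; ring
      rw [e1, g1, d2]; ring)
    obtain ⟨c, hc⟩ := isq (n := (-A + C) * (B + C)) (q := 9 * P * s ^ 2 * z / (A + C)) (by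
      push_cast
      rw [div_pow, eq_div_iff (pow_ne_zero 2 m2)]
      have e1 : (-(A : ℚ) + C) * (B + C) * (A + C) ^ 2 = ((C : ℚ) ^ 2 - A ^ 2) * r3 := by
        rw [hr3]; ring
      rw [e1, g2, d3]; ring)
    exact ⟨-A, B, C, a, b, c, by ring, rfl, rfl, ha, hb, hc⟩
  · have d1 : r1 = s ^ 2 * (-P * x ^ 2) := dv hsq c1
    have d2 : r2 = s ^ 2 * (-5 * y ^ 2) := dv hsq c2
    have d3 : r3 = s ^ 2 * (5 * P * z ^ 2) := dv hsq c3
    have y0 : y ≠ 0 := by rintro rfl; apply hr20; rw [d2]; ring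
    have g3 : (C : ℚ) ^ 2 - B ^ 2 = 80 * P * s ^ 2 := by linear_combination g2 - g1
    obtain ⟨a, ha⟩ := isq (n := (A + -B) * (A + C)) (q := P * s ^ 2 * x / (A + B)) (by
      push_cast
      rw [div_pow, eq_div_iff (pow_ne_zero 2 m1)]
      have e1 : ((A : ℚ) + -B) * (A + C) * (A + B) ^ 2 = -((B : ℚ) ^ 2 - A ^ 2) * r1 := by
        rw [hr1]; ring
      rw [e1, g1, d1]; ring)
    obtain ⟨b, hb⟩ := isq (n := (A + -B) * (-B + C)) (q := 4 * P * s / y) (by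
      push_cast
      rw [div_pow, eq_div_iff (pow_ne_zero 2 y0)]
      have : (s : ℚ) ^ 2 * (((A : ℚ) + -B) * (-B + C) * y ^ 2) = s ^ 2 * (4 * P * s) ^ 2 := by
        have e1 : (-5 : ℚ) * ((s : ℚ) ^ 2 * (((A : ℚ) + -B) * (-B + C) * y ^ 2))
          = -((B : ℚ) ^ 2 - A ^ 2) * ((C : ℚ) ^ 2 - B ^ 2) := by
          have : (-5 : ℚ) * ((s : ℚ) ^ 2 * (((A : ℚ) + -B) * (-B + C) * y ^ 2))
            = (((A : ℚ) + -B) * (-B + C)) * (s ^ 2 * (-5 * y ^ 2)) := by ring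
          rw [this, ← d2, hr2]; ring
        rw [g1, g3] at e1
        linear_combination (-1 / 5 : ℚ) * e1
      exact mul_left_cancel₀ (pow_ne_zero 2 hsq) this)
    obtain ⟨c, hc⟩ := isq (n := (A + C) * (-B + C)) (q := 20 * P * s ^ 2 * z / (B + C)) (by
      push_cast
      rw [div_pow, eq_div_iff (pow_ne_zero 2 m3)]
      have e1 : ((A : ℚ) + C) * (-B + C) * (B + C) ^ 2 = ((C : ℚ) ^ 2 - B ^ 2) * r3 := by
        rw [hr3]; ring
      rw [e1, g3, d3]; ring)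
    exact ⟨A, -B, C, a, b, c, rfl, by ring, rfl, ha, hb, hc⟩
  · have d1 : r1 = s ^ 2 * (-P * x ^ 2) := dv hsq c1
    have d2 : r2 = s ^ 2 * (-5 * P * y ^ 2) := dv hsq c2
    have d3 : r3 = s ^ 2 * (5 * z ^ 2) := dv hsq c3
    have z0 : z ≠ 0 := by rintro rfl; apply hr30; rw [d3]; ring
    have g3 : (C : ℚ) ^ 2 - B ^ 2 = 80 * P * s ^ 2 := by linear_combination g2 - g1
    obtain ⟨a, ha⟩ := isq (n := (A + B) * (A + -C)) (q := 9 * P * s ^ 2 * x / (A + C)) (by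
      push_cast
      rw [div_pow, eq_div_iff (pow_ne_zero 2 m2)]
      have e1 : ((A : ℚ) + B) * (A + -C) * (A + C) ^ 2 = -((C : ℚ) ^ 2 - A ^ 2) * r1 := by
        rw [hr1]; ring
      rw [e1, g2, d1]; ring)
    obtain ⟨b, hb⟩ := isq (n := (A + B) * (B + -C)) (q := 20 * P * s ^ 2 * y / (B + C)) (by
      push_cast
      rw [div_pow, eq_div_iff (pow_ne_zero 2 m3)]
      have e1 : ((A : ℚ) + B) * (B + -C) * (B + C) ^ 2 = -((C : ℚ) ^ 2 - B ^ 2) * r2 := by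
        rw [hr2]; ring
      rw [e1, g3, d2]; ring)
    obtain ⟨c, hc⟩ := isq (n := (A + -C) * (B + -C)) (q := 36 * P * s / z) (by
      push_cast
      rw [div_pow, eq_div_iff (pow_ne_zero 2 z0)]
      have : (s : ℚ) ^ 2 * (((A : ℚ) + -C) * (B + -C) * z ^ 2) = s ^ 2 * (36 * P * s) ^ 2 := by
        have e1 : (5 : ℚ) * ((s : ℚ) ^ 2 * (((A : ℚ) + -C) * (B + -C) * z ^ 2))
          = ((C : ℚ) ^ 2 - A ^ 2) * ((C : ℚ) ^ 2 - B ^ 2) := by
          have : (5 : ℚ) * ((s : ℚ) ^ 2 * (((A : ℚ) + -C) * (B + -C) * z ^ 2))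
            = (((A : ℚ) + -C) * (B + -C)) * (s ^ 2 * (5 * z ^ 2)) := by ring
          rw [this, ← d3, hr3]; ring
        rw [g2, g3] at e1
        linear_combination (1 / 5 : ℚ) * e1
      exact mul_left_cancel₀ (pow_ne_zero 2 hsq) this)
    exact ⟨A, B, -C, a, b, c, rfl, rfl, by ring, ha, hb, hc⟩

theorem no_sol {P : ℤ} (hP : P ≠ 0) (h4 : Four P) (hF : Fin' P) : ∀ (n : ℕ) (A B C s : ℤ),
    s.natAbs = n → s ≠ 0 → B ^ 2 - A ^ 2 = P * s ^ 2 → C ^ 2 - A ^ 2 = 81 * P * s ^ 2 → False := by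
  intro n
  induction n using Nat.strong_induction_on with
  | _ n ih =>
    intro A B C s hn hs h1 h2
    obtain ⟨A', B', C', a, b, c, eA, eB, eC, ha, hb, hc⟩ := half hP h4 A B C s hs h1 h2
    have f1 : b ^ 2 - a ^ 2 = P * s ^ 2 := by
      rw [← ha, ← hb, ← h1, ← eA, ← eB]; ring
    have f2 : c ^ 2 - a ^ 2 = 81 * P * s ^ 2 := by
      rw [← ha, ← hc, ← h2, ← eA, ← eC]; ring
    have hcop : IsCoprime a s := by
      rw [Int.isCoprime_iff_gcd_eq_one]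
      by_contra hg
      obtain ⟨q, hq, hqg⟩ := Nat.exists_prime_and_dvd hg
      have hqa : (q : ℤ) ∣ a := (Int.natCast_dvd_natCast.mpr hqg).trans (Int.gcd_dvd_left ..)
      have hqs : (q : ℤ) ∣ s := (Int.natCast_dvd_natCast.mpr hqg).trans (Int.gcd_dvd_right ..)
      have hqp : Prime (q : ℤ) := Nat.prime_iff_prime_int.mp hq
      have hqb : (q : ℤ) ∣ b := by
        apply hqp.dvd_of_dvd_pow (n := 2)
        have : b ^ 2 = a ^ 2 + P * s ^ 2 := by rw [← f1]; ring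
        rw [this]
        exact dvd_add (dvd_pow hqa (by norm_num)) (dvd_mul_of_dvd_right (dvd_pow hqs (by norm_num)) _)
      have hqc : (q : ℤ) ∣ c := by
        apply hqp.dvd_of_dvd_pow (n := 2)
        have : c ^ 2 = a ^ 2 + 81 * P * s ^ 2 := by rw [← f2]; ring
        rw [this]
        exact dvd_add (dvd_pow hqa (by norm_num)) (dvd_mul_of_dvd_right (dvd_pow hqs (by norm_num)) _)
      obtain ⟨a', rfl⟩ := hqa
      obtain ⟨b', rfl⟩ := hqb
      obtain ⟨c', rfl⟩ := hqc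
      obtain ⟨s', rfl⟩ := hqs
      have hq2 : ((q : ℤ)) ^ 2 ≠ 0 := pow_ne_zero 2 hqp.ne_zero
      refine ih s'.natAbs ?_ a' b' c' s' rfl ?_ ?_ ?_
      · rw [← hn, Int.natAbs_mul, Int.natAbs_natCast]
        have h0 : 0 < s'.natAbs := by
          rw [Int.natAbs_pos]; rintro rfl; simp at hs
        have := hq.one_lt
        nlinarith
      · rintro rfl; simp at hs
      · apply mul_left_cancel₀ hq2; linear_combination f1
      · apply mul_left_cancel₀ hq2; linear_combination f2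
    have hbcop : IsCoprime b s := by
      have h : IsCoprime (b ^ 2) s := by
        have e : b ^ 2 = a ^ 2 + (P * s) * s := by linear_combination f1
        rw [e]
        exact (IsCoprime.pow_left hcop).add_mul_right_left _
      exact (IsCoprime.pow_left_iff (by norm_num)).mp h
    have hccop : IsCoprime c s := by
      have h : IsCoprime (c ^ 2) s := by
        have e : c ^ 2 = a ^ 2 + (81 * P * s) * s := by linear_combination f2
        rw [e]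
        exact (IsCoprime.pow_left hcop).add_mul_right_left _
      exact (IsCoprime.pow_left_iff (by norm_num)).mp h
    set x := A' + B' with hx
    set y := A' + C' with hy
    set z := B' + C' with hz
    have e1 : x * (z - y) = P * s ^ 2 := by rw [← f1, ← ha, ← hb]; ring
    have e2 : y * (z - x) = 81 * P * s ^ 2 := by rw [← f2, ← ha, ← hc]; ring
    have e3 : z * (y - x) = 80 * P * s ^ 2 := by linear_combination hc - hb + f2 - f1
    have cx : IsCoprime x (s ^ 2) := by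
      apply IsCoprime.pow_right
      have h : IsCoprime (x * y) s := by rw [ha]; exact hcop.pow_left
      exact h.of_mul_left_left
    have cy : IsCoprime y (s ^ 2) := by
      apply IsCoprime.pow_right
      have h : IsCoprime (x * y) s := by rw [ha]; exact hcop.pow_left
      exact h.of_mul_left_right
    have cz : IsCoprime z (s ^ 2) := by
      apply IsCoprime.pow_right
      have h : IsCoprime (x * z) s := by rw [hb]; exact hbcop.pow_left
      exact h.of_mul_left_right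
    exact hF x y z a b c s hs ha hb hc (cx.dvd_of_dvd_mul_right ⟨_, e1.symm⟩)
      (cy.dvd_of_dvd_mul_right ⟨_, e2.symm⟩) (cz.dvd_of_dvd_mul_right ⟨_, e3.symm⟩) f1

/-- no rational `x, y, z` with `y² - x² = P`, `z² - x² = 81 P` -/
theorem no_rat {P : ℤ} (hP : P ≠ 0) (h4 : Four P) (hF : Fin' P) (x y z : ℚ)
    (h1 : y ^ 2 - x ^ 2 = P) (h2 : z ^ 2 - x ^ 2 = 81 * P) : False := by
  have ex : ∀ q : ℚ, ∃ n d : ℤ, d ≠ 0 ∧ q = n / d := fun q =>
    ⟨q.num, q.den, by exact_mod_cast q.den_nz, by exact_mod_cast (Rat.num_div_den q).symm⟩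
  obtain ⟨a, d, hd, rfl⟩ := ex x
  obtain ⟨b, f, hf, rfl⟩ := ex y
  obtain ⟨c, g, hg, rfl⟩ := ex z
  have dq : (d : ℚ) ≠ 0 := by exact_mod_cast hd
  have fq : (f : ℚ) ≠ 0 := by exact_mod_cast hf
  have gq : (g : ℚ) ≠ 0 := by exact_mod_cast hg
  refine no_sol hP h4 hF _ (a * f * g) (b * d * g) (c * d * f) (d * f * g) rfl ?_ ?_ ?_
  · exact mul_ne_zero (mul_ne_zero hd hf) hg
  · have : ((b : ℚ) * d * g) ^ 2 - ((a : ℚ) * f * g) ^ 2 = P * ((d : ℚ) * f * g) ^ 2 := by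
      rw [← h1]; field_simp
    exact_mod_cast this
  · have : ((c : ℚ) * d * f) ^ 2 - ((a : ℚ) * f * g) ^ 2 = 81 * P * ((d : ℚ) * f * g) ^ 2 := by
      rw [← h2]; field_simp
    exact_mod_cast this

/-- only trivial rational points -/
theorem no_point {P : ℤ} (hP : P ≠ 0) (h4 : Four P) (hF : Fin' P) (X Y : ℚ)
    (h : Y ^ 2 = X * (X + P) * (X + 81 * P)) : Y = 0 := by
  by_contra hY
  have hPq : (P : ℚ) ≠ 0 := by exact_mod_cast hP
  have hX0 : X ≠ 0 := by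
    rintro h0; rw [h0] at h; apply hY; simpa using h
  have hX1 : X + P ≠ 0 := by
    intro h0; rw [h0] at h; apply hY; simpa using h
  have hX2 : X + 81 * P ≠ 0 := by
    intro h0; rw [h0] at h; apply hY; simpa using h
  obtain ⟨x, y, z, hc⟩ := h4 X Y hY h
  rcases hc with ⟨c1, c2, c3⟩ | ⟨c1, c2, c3⟩ | ⟨c1, c2, c3⟩ | ⟨c1, c2, c3⟩
  · exact no_rat hP h4 hF x y z (by rw [← c2, ← c1]; ring) (by rw [← c3, ← c1]; ring)
  · have x0 : x ≠ 0 := by rintro rfl; apply hX0; rw [c1]; ring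
    rw [c1] at c2 c3
    refine no_rat hP h4 hF (9 * P / x) (P * z / x) (9 * P * y / x) ?_ ?_
    · rw [div_pow, div_pow, ← sub_div, div_eq_iff (pow_ne_zero 2 x0)]
      linear_combination (-P : ℚ) * c3
    · rw [div_pow, div_pow, ← sub_div, div_eq_iff (pow_ne_zero 2 x0)]
      linear_combination (-81 * P : ℚ) * c2
  · have y0 : y ≠ 0 := by rintro rfl; apply hX1; rw [c2]; ring
    rw [c1] at c2 c3
    refine no_rat hP h4 hF (P * z / y) (4 * P / y) (4 * P * x / y) ?_ ?_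
    · rw [div_pow, div_pow, ← sub_div, div_eq_iff (pow_ne_zero 2 y0)]
      linear_combination (P / 5 : ℚ) * c3 - (P / 5 : ℚ) * c2
    · rw [div_pow, div_pow, ← sub_div, div_eq_iff (pow_ne_zero 2 y0)]
      linear_combination (P / 5 : ℚ) * c3 - (81 * P / 5 : ℚ) * c2
  · have z0 : z ≠ 0 := by rintro rfl; apply hX2; rw [c3]; ring
    rw [c1] at c2 c3
    refine no_rat hP h4 hF (9 * P * y / z) (4 * P * x / z) (36 * P / z) ?_ ?_
    · rw [div_pow, div_pow, ← sub_div, div_eq_iff (pow_ne_zero 2 z0)]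
      linear_combination (P / 5 : ℚ) * c3 - (81 * P / 5 : ℚ) * c2
    · rw [div_pow, div_pow, ← sub_div, div_eq_iff (pow_ne_zero 2 z0)]
      linear_combination (81 * P / 5 : ℚ) * c3 - (81 * P / 5 : ℚ) * c2

end Vale.Agent.P017.H524
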