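import Vale.Agent.P017.H524.ClassD

/-! For every `k` there are infinitely many `d` with exactly `k` prime factors that satisfy the
criterion. -/

namespace Vale.Agent.P017.H524

structure Star (p m : ℕ) : Prop where
  sqf : Squarefree m
  cop : Nat.Coprime p m
  mod : m % 60 = 1
  pr : ∀ q : ℕ, q.Prime → q ∣ m → q % 60 = 1 ∧ ¬ IsSquare (p : ZMod q) ∧
    ∀ q' : ℕ, q'.Prime → q' ∣ m → q' ≠ q → IsSquare (q' : ZMod q)

theorem star_one (p : ℕ) : Star p 1 :=
  ⟨squarefree_one, Nat.coprime_one_right p, rfl, fun q hq h => by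
    have := hq.one_lt
    have := Nat.le_of_dvd one_pos h
    omega⟩

theorem star_step {p m : ℕ} (hp : p.Prime) (hp60 : p % 60 = 23) (S : Star p m) (N : ℕ) :
    ∃ q > N, q.Prime ∧ ¬ q ∣ m ∧ Star p (q * m) := by
  have hm0 : m ≠ 0 := by rintro rfl; have := S.mod; omega
  have c60 : Nat.Coprime (60 * m) p := by
    apply Nat.Coprime.mul_left
    · have : ¬ p ∣ 60 := by
        intro h
        have h1 := Nat.le_of_dvd (by norm_num) h
        interval_cases p <;> omega
      exact ((Nat.Prime.coprime_iff_not_dvd hp).mpr this).symm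
    · exact S.cop.symm
  obtain ⟨r, hr1, hr2⟩ := Nat.chineseRemainder c60 1 (p - 1)
  have hr : Nat.Coprime r (60 * m * p) := by
    apply Nat.Coprime.mul_right
    · have := hr1.gcd_eq
      rw [Nat.gcd_one_left] at this
      exact this
    · have := hr2.gcd_eq
      have h1 : Nat.gcd (p - 1) p = 1 := by
        have h2 : Nat.Coprime (p - 1) (p - 1 + 1) := by simp
        rwa [Nat.sub_add_cancel hp.one_le] at h2
      rw [h1] at this
      exact this
  have hne : 60 * m * p ≠ 0 := mul_ne_zero (mul_ne_zero (by norm_num) hm0) hp.ne_zero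
  obtain ⟨q, hqN, hq, hqr⟩ := Nat.forall_exists_prime_gt_and_modEq (N + m + p) hne hr
  have hq1 : q ≡ 1 [MOD 60 * m] := (hqr.of_mul_right p).trans hr1
  have hq2 : q ≡ p - 1 [MOD p] := (hqr.of_mul_left (60 * m)).trans hr2
  have hq60 : q % 60 = 1 := by
    have := hq1.of_mul_right m
    exact this
  have hqm : q ≡ 1 [MOD m] := hq1.of_mul_left 60
  have hndvd : ¬ q ∣ m := by
    intro h
    have := Nat.le_of_dvd (by omega) h
    omega
  have hneg : (q : ZMod p) = -1 := by
    have h1 := (ZMod.natCast_eq_natCast_iff _ _ _).mpr hq2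
    rw [h1, Nat.cast_sub hp.one_le]
    simp
  have : Fact q.Prime := ⟨hq⟩
  have : Fact p.Prime := ⟨hp⟩
  have hqp : ¬ IsSquare (p : ZMod q) := by
    rw [ZMod.exists_sq_eq_prime_iff_of_mod_four_eq_one (by omega) (by omega), hneg,
      ZMod.exists_sq_eq_neg_one_iff]
    omega
  have hone : ∀ q' : ℕ, q'.Prime → q' ∣ m → (q : ZMod q') = 1 := by
    intro q' _ hd
    have h1 : q ≡ 1 [MOD q'] := hqm.of_dvd hd
    have h2 := (ZMod.natCast_eq_natCast_iff _ _ _).mpr h1
    rw [h2, Nat.cast_one]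
  refine ⟨q, by omega, hq, hndvd, ?_, ?_, ?_, ?_⟩
  · rw [Nat.squarefree_mul ((Nat.Prime.coprime_iff_not_dvd hq).mpr hndvd)]
    exact ⟨hq.squarefree, S.sqf⟩
  · apply Nat.Coprime.mul_right
    · exact (Nat.coprime_primes hp hq).mpr (by omega)
    · exact S.cop
  · rw [Nat.mul_mod, hq60, S.mod]
  · intro Q hQ hQd
    rcases (Nat.Prime.dvd_mul hQ).mp hQd with h | h
    · have hQq : Q = q := (Nat.prime_dvd_prime_iff_eq hQ hq).mp h
      subst hQq
      refine ⟨hq60, hqp, ?_⟩
      intro q' hq' hq'd hne'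
      rcases (Nat.Prime.dvd_mul hq').mp hq'd with h' | h'
      · exact absurd ((Nat.prime_dvd_prime_iff_eq hq' hQ).mp h') hne'
      · have : Fact q'.Prime := ⟨hq'⟩
        have hq'2 : q' ≠ 2 := by
          rintro rfl
          have := (S.pr 2 hq' h').1
          omega
        rw [ZMod.exists_sq_eq_prime_iff_of_mod_four_eq_one (by omega) hq'2, hone q' hq' h']
        exact IsSquare.one
    · obtain ⟨s1, s2, s3⟩ := S.pr Q hQ h
      refine ⟨s1, s2, ?_⟩
      intro q' hq' hq'd hne'
      rcases (Nat.Prime.dvd_mul hq').mp hq'd with h' | h'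
      · have hQq : q' = q := (Nat.prime_dvd_prime_iff_eq hq' hq).mp h'
        rw [hQq, hone Q hQ h]
        exact IsSquare.one
      · exact s3 q' hq' h' hne'

theorem star_sq {p m : ℕ} (S : Star p m) {q : ℕ} (hq : q.Prime) (hqm : q ∣ m) :
    ∀ x : ℕ, x ∣ m → ¬ q ∣ x → IsSquare (x : ZMod q) := by
  intro x
  induction x using Nat.recOnMul with
  | zero => intro _ h; exact absurd (dvd_zero _) h
  | one => intro _ _; rw [Nat.cast_one]; exact IsSquare.one
  | prime r hr =>
    intro h1 h2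
    exact (S.pr q hq hqm).2.2 r hr h1 (by rintro rfl; exact h2 (dvd_refl _))
  | mul a b ha hb =>
    intro h1 h2
    rw [Nat.cast_mul]
    exact (ha ((dvd_mul_right a b).trans h1) (fun h => h2 (dvd_mul_of_dvd_left h _))).mul
      (hb ((dvd_mul_left b a).trans h1) (fun h => h2 (dvd_mul_of_dvd_right h _)))

theorem star_key {p m : ℕ} (hp : p.Prime) (S : Star p m) {q : ℕ} (hq : q.Prime) (hqm : q ∣ m)
    {x : ℤ} (hx : x ∣ p * m) (hpx : (p : ℤ) ∣ x) (hqx : ¬ (q : ℤ) ∣ x) :
    ¬ IsSquare (x : ZMod q) := by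
  have : Fact q.Prime := ⟨hq⟩
  have hp0 : (p : ℤ) ≠ 0 := by exact_mod_cast hp.ne_zero
  obtain ⟨y, rfl⟩ := hpx
  have hym : y ∣ (m : ℤ) := (mul_dvd_mul_iff_left hp0).mp hx
  have hqy : ¬ (q : ℤ) ∣ y := fun h => hqx (dvd_mul_of_dvd_right h _)
  have zy : (y : ZMod q) ≠ 0 := fun h => hqy ((castq _).mp h)
  have h1 : IsSquare (y.natAbs : ZMod q) := by
    apply star_sq S hq hqm
    · exact Int.natAbs_dvd_natAbs.mpr hym
    · intro h; exact hqy (Int.natCast_dvd.mpr h)
  have hm1 : IsSquare (-1 : ZMod q) := by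
    rw [ZMod.exists_sq_eq_neg_one_iff]
    have := (S.pr q hq hqm).1
    omega
  have h2 : IsSquare (y : ZMod q) := by
    have h3 : ((y.natAbs : ℤ) : ZMod q) = (y.natAbs : ZMod q) := by simp
    rcases Int.natAbs_eq y with h | h
    · rw [h, h3]; exact h1
    · rw [h, Int.cast_neg, h3, ← neg_one_mul]; exact hm1.mul h1
  intro h
  obtain ⟨r, hr⟩ := h
  obtain ⟨s, hs⟩ := h2
  apply (S.pr q hq hqm).2.1
  have s0 : s ≠ 0 := by rintro rfl; apply zy; rw [hs]; ring
  refine ⟨r / s, ?_⟩
  rw [div_mul_div_comm, eq_div_iff (mul_ne_zero s0 s0), ← hs, ← hr]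
  push_cast
  ring

theorem unit_of_no_prime {x : ℤ} (h : ∀ q : ℕ, q.Prime → (q : ℤ) ∣ x → False) :
    x = 1 ∨ x = -1 := by
  by_contra hx
  have h1 : x.natAbs ≠ 1 := by omega
  obtain ⟨q, hq, hqd⟩ := Nat.exists_prime_and_dvd h1
  exact h q hq (Int.natCast_dvd.mpr hqd)

theorem star_crit {p m : ℕ} (hp : p.Prime) (hp60 : p % 60 = 23) (S : Star p m) :
    Squarefree (p * m) ∧ (p * m) % 4 = 3 ∧ CritII ((p * m : ℕ) : ℤ) := by
  have hmod : (p * m) % 60 = 23 := by rw [Nat.mul_mod, hp60, S.mod]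
  have hsqn : Squarefree (p * m) := by
    rw [Nat.squarefree_mul S.cop]; exact ⟨hp.squarefree, S.sqf⟩
  have hsq : Squarefree ((p * m : ℕ) : ℤ) := Int.squarefree_natCast.mpr hsqn
  have hpi : Prime (p : ℤ) := Nat.prime_iff_prime_int.mp hp
  have hP : ((p * m : ℕ) : ℤ) % 60 = 23 := by exact_mod_cast hmod
  have hcast : ((p * m : ℕ) : ℤ) = (p : ℤ) * m := by push_cast; ring
  -- if `p ∣ x`, `x y = ± p m` and `x` is a square modulo the primes dividing `y`, then `y = ± 1`
  have main : ∀ x y : ℤ, (x * y = ((p * m : ℕ) : ℤ) ∨ x * y = -((p * m : ℕ) : ℤ)) →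
      (p : ℤ) ∣ x → SqMod x y → y = 1 ∨ y = -1 := by
    intro x y hxy hpx hs
    apply unit_of_no_prime
    intro q hq hqy
    have hqx : ¬ (q : ℤ) ∣ x := by
      apply sqf_cop hsq (a := y) (b := x) ?_ hq hqy
      rcases hxy with h | h
      · left; rw [← h]; ring
      · right; rw [← h]; ring
    have hqP : (q : ℤ) ∣ (p : ℤ) * m := by
      rw [← hcast]
      rcases hxy with h | h
      · rw [← h]; exact dvd_mul_of_dvd_right hqy _
      · have : ((p * m : ℕ) : ℤ) = x * (-y) := by linear_combination h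
        rw [this]; exact dvd_mul_of_dvd_right (dvd_neg.mpr hqy) _
    have hqm : q ∣ m := by
      have h1 : q ∣ p * m := by exact_mod_cast hqP
      rcases (Nat.Prime.dvd_mul hq).mp h1 with h | h
      · have : q = p := (Nat.prime_dvd_prime_iff_eq hq hp).mp h
        exact absurd (by rw [this]; exact hpx) hqx
      · exact h
    refine star_key hp S hq hqm ?_ hpx hqx (hs q hq hqy)
    rw [← hcast]
    rcases hxy with h | h
    · exact ⟨y, h.symm⟩
    · exact ⟨-y, by linear_combination h⟩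
  refine ⟨hsqn, by omega, ⟨by omega, by omega⟩, ?_, ?_⟩
  · intro b c hbc hb4 h1 h2
    have hc4 : c % 4 = 1 := by
      have h3 : (b * c) % 4 = 1 := by rw [hbc]; omega
      rw [Int.mul_emod, hb4, one_mul, Int.emod_emod_of_dvd _ (dvd_refl 4)] at h3
      exact h3
    have hpbc : (p : ℤ) ∣ b * c := by rw [hbc, hcast]; exact dvd_neg.mpr (dvd_mul_right _ _)
    rcases hpi.dvd_or_dvd hpbc with h | h
    · right
      rcases main b c (Or.inr hbc) h h1 with h | h <;> omega
    · left
      rcases main c b (Or.inr (by rw [mul_comm]; exact hbc)) h h2 with h | h <;> omega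
  · intro a b ha hab h1 h2
    have hpab : (p : ℤ) ∣ a * b := by rw [hab, hcast]; exact dvd_mul_right _ _
    have hb0 : 0 < b := by
      have : 0 < a * b := by rw [hab]; omega
      exact (pos_iff_pos_of_mul_pos this).mp ha
    rcases hpi.dvd_or_dvd hpab with h | h
    · right
      rcases main a b (Or.inl hab) h h1 with h | h <;> omega
    · left
      rcases main b a (Or.inl (by rw [mul_comm]; exact hab)) h h2 with h | h <;> omega

theorem exists_star (k N : ℕ) (p : ℕ) (hp : p.Prime) (hp60 : p % 60 = 23) :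
    ∃ m, Star p m ∧ m.primeFactors.card = k := by
  induction k with
  | zero => exact ⟨1, star_one p, by simp⟩
  | succ k ih =>
    obtain ⟨m, S, hm⟩ := ih
    obtain ⟨q, _, hq, hqm, S'⟩ := star_step hp hp60 S N
    refine ⟨q * m, S', ?_⟩
    have hm0 : m ≠ 0 := by rintro rfl; have := S.mod; omega
    rw [Nat.primeFactors_mul hq.ne_zero hm0, hq.primeFactors, Finset.singleton_union,
      Finset.card_insert_of_notMem, hm]
    intro h
    exact hqm (Nat.dvd_of_mem_primeFactors h)

/-- for every `k ≥ 1` there are infinitely many `d` with exactly `k` prime factors -/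
theorem exists_d (k N : ℕ) (hk : 1 ≤ k) :
    ∃ d > N, Squarefree d ∧ d.primeFactors.card = k ∧ d % 4 = 3 ∧ CritII (d : ℤ) := by
  obtain ⟨p, hpN, hp, hpr⟩ := Nat.forall_exists_prime_gt_and_modEq (N + 60)
    (by norm_num : 60 ≠ 0) (by norm_num : Nat.Coprime 23 60)
  have hp60 : p % 60 = 23 := hpr
  obtain ⟨m, S, hm⟩ := exists_star (k - 1) 0 p hp hp60
  obtain ⟨h1, h2, h3⟩ := star_crit hp hp60 S
  have hm0 : m ≠ 0 := by rintro rfl; have := S.mod; omega
  refine ⟨p * m, ?_, h1, ?_, h2, h3⟩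
  · have : p * 1 ≤ p * m := Nat.mul_le_mul_left p (Nat.one_le_iff_ne_zero.mpr hm0)
    omega
  · rw [Nat.primeFactors_mul hp.ne_zero hm0, hp.primeFactors, Finset.singleton_union,
      Finset.card_insert_of_notMem, hm]
    · omega
    · intro h
      have := Nat.dvd_of_mem_primeFactors h
      exact (Nat.Prime.coprime_iff_not_dvd hp).mp S.cop this

end Vale.Agent.P017.H524
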