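import Vale.Agent.P017.H524.Descent

/-! The two descents: `P = p` and `P = -1`. -/

namespace Vale.Agent.P017.H524

theorem four_of {P : ℤ} (hP : P ≠ 0)
    (H : ∀ X Y : ℚ, Y ≠ 0 → Y ^ 2 = X * (X + P) * (X + 81 * P) →
      ∃ (b1 b2 : ℤ) (x y : ℚ), X = b1 * x ^ 2 ∧ X + P = b2 * y ^ 2 ∧
      ((b1 = 1 ∧ b2 = 1) ∨ (b1 = 1 ∧ b2 = P) ∨ (b1 = -P ∧ b2 = -5) ∨ (b1 = -P ∧ b2 = -5 * P))) :
    Four P := by
  intro X Y hY h
  obtain ⟨b1, b2, x, y, hx, hy, hc⟩ := H X Y hY h
  have hPq : (P : ℚ) ≠ 0 := by exact_mod_cast hP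
  have hX0 : X ≠ 0 := by
    rintro h0; rw [h0] at h; apply hY; simpa using h
  have hX1 : X + P ≠ 0 := by
    intro h0; rw [h0] at h; apply hY; simpa using h
  have x0 : x ≠ 0 := by rintro rfl; apply hX0; rw [hx]; ring
  have y0 : y ≠ 0 := by rintro rfl; apply hX1; rw [hy]; ring
  have hz : X + 81 * P = Y ^ 2 / (X * (X + P)) := by
    rw [h]; field_simp
  rcases hc with ⟨rfl, rfl⟩ | ⟨rfl, rfl⟩ | ⟨rfl, rfl⟩ | ⟨rfl, rfl⟩
  · refine ⟨x, y, Y / (x * y), Or.inl ⟨?_, ?_, ?_⟩⟩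
    · rw [hx]; push_cast; ring
    · rw [hy]; push_cast; ring
    · rw [hz, hy, hx]; push_cast; field_simp
  · refine ⟨x, y, Y / (b2 * x * y), Or.inr (Or.inl ⟨?_, ?_, ?_⟩)⟩
    · rw [hx]; push_cast; ring
    · rw [hy]
    · rw [hz, hy, hx]; push_cast; field_simp
  · refine ⟨x, y, Y / (5 * P * x * y), Or.inr (Or.inr (Or.inl ⟨?_, ?_, ?_⟩))⟩
    · rw [hx]; push_cast; ring
    · rw [hy]; push_cast; ring
    · rw [hz, hy, hx]; push_cast; field_simp
  · refine ⟨x, y, Y / (5 * P * x * y), Or.inr (Or.inr (Or.inr ⟨?_, ?_, ?_⟩))⟩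
    · rw [hx]; push_cast; ring
    · rw [hy]; push_cast; ring
    · rw [hz, hy, hx]; push_cast; field_simp

/-- the hypothesis on the prime -/
def Good (p : ℤ) : Prop :=
  p % 4 = 3 ∧ ((p % 3 = 1 ∧ (p % 5 = 1 ∨ p % 5 = 4)) ∨ (p % 3 = 2 ∧ (p % 5 = 2 ∨ p % 5 = 3)))

theorem four_p {p : ℤ} (hp : Prime p) (hp0 : 0 < p) (hg : Good p) : Four p := by
  apply four_of hp.ne_zero
  intro X Y hY h
  obtain ⟨b1, b2, b3, u1, u2, u3, m, e, d, e1, e2, e3⟩ := exists_dat p X Y hY h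
  refine ⟨b1, b2, (u1 : ℚ) / m, (u2 : ℚ) / m, e1, e2, ?_⟩
  apply classes hp hp0 hg.1 hg.2 d
  -- sign
  have hpq : (0 : ℚ) < p := by exact_mod_cast hp0
  have hYp : 0 < Y ^ 2 := by positivity
  have hXX : 0 < X * (X + p) := by
    by_contra hneg
    push Not at hneg
    have h1 : 0 ≤ X + p := by nlinarith
    have h2 : X ≤ 0 := by
      by_contra h2
      push Not at h2
      nlinarith
    have h3 : 0 ≤ X + 81 * p := by linarith
    rw [h] at hYp
    nlinarith
  have hv : (0 : ℚ) < (b1 * b2 : ℤ) * (((u1 : ℚ) / m) ^ 2 * ((u2 : ℚ) / m) ^ 2) := by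
    have : (0 : ℚ) < (b1 * ((u1 : ℚ) / m) ^ 2) * (b2 * ((u2 : ℚ) / m) ^ 2) := by
      rw [← e1, ← e2]; exact hXX
    push_cast
    calc (0 : ℚ) < _ := this
      _ = _ := by ring
  have hw : (0 : ℚ) ≤ ((u1 : ℚ) / m) ^ 2 * ((u2 : ℚ) / m) ^ 2 := by positivity
  have : (0 : ℚ) < (b1 * b2 : ℤ) := by
    by_contra hneg
    push Not at hneg
    nlinarith
  exact_mod_cast this

theorem four_one : Four (-1) := by
  apply four_of (by norm_num)
  intro X Y hY h
  obtain ⟨b1, b2, b3, u1, u2, u3, m, e, d, e1, e2, e3⟩ := exists_dat (-1) X Y hY h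
  refine ⟨b1, b2, (u1 : ℚ) / m, (u2 : ℚ) / m, e1, e2, ?_⟩
  have hYp : 0 < Y ^ 2 := by positivity
  have hX : 0 < X := by
    by_contra hneg
    push Not at hneg
    rw [h] at hYp
    push_cast at hYp
    have h1 : 0 ≤ X * (X + -1) := by nlinarith
    have h2 : X + 81 * -1 ≤ 0 := by linarith
    nlinarith
  have hb : 0 < b1 := by
    have hw : (0 : ℚ) ≤ ((u1 : ℚ) / m) ^ 2 := by positivity
    have : (0 : ℚ) < b1 := by
      by_contra hneg
      push Not at hneg
      have : X ≤ 0 := by rw [e1]; nlinarith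
      linarith
    exact_mod_cast this
  obtain ⟨c1, c2⟩ := classes_one d hb
  rcases c2 with c | c | c | c
  · left; exact ⟨c1, c⟩
  · right; left; exact ⟨c1, c⟩
  · right; right; right; exact ⟨by rw [c1]; norm_num, by rw [c]; norm_num⟩
  · right; right; left; exact ⟨by rw [c1]; norm_num, c⟩

theorem sq81 {a : ℤ} (h : a ^ 2 ∣ 81) : a ^ 2 = 1 ∨ a ^ 2 = 9 ∨ a ^ 2 = 81 := by
  have h1 : a ^ 2 ≤ 81 := Int.le_of_dvd (by norm_num) h
  have h2 : a ≤ 9 := by nlinarith
  have h3 : -9 ≤ a := by nlinarith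
  interval_cases a <;> first | (norm_num; done) | (exfalso; revert h; decide)

theorem sq80 {a : ℤ} (h : a ^ 2 ∣ 80) : a ^ 2 = 1 ∨ a ^ 2 = 4 ∨ a ^ 2 = 16 := by
  have h1 : a ^ 2 ≤ 80 := Int.le_of_dvd (by norm_num) h
  have h2 : a ≤ 9 := by nlinarith
  have h3 : -9 ≤ a := by nlinarith
  interval_cases a <;> first | (norm_num; done) | (exfalso; revert h; decide)

theorem fin_one : Fin' (-1) := by
  intro x y z a b c s hs hxy hxz hyz hx hy hz hab
  have hx1 : x = 1 ∨ x = -1 := by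
    have : x ∣ 1 := by simpa using hx
    exact Int.isUnit_iff.mp (isUnit_of_dvd_one this)
  have ha : a ^ 2 ∣ 81 := by
    have hy' : y ∣ 81 := by
      have : (81 : ℤ) * -1 = -81 := by norm_num
      rw [this] at hy; exact dvd_neg.mp hy
    rcases hx1 with h | h
    · rw [← hxy, h, one_mul]; exact hy'
    · rw [← hxy, h, neg_one_mul]; exact neg_dvd.mpr hy'
  have hb : b ^ 2 ∣ 80 := by
    have hz' : z ∣ 80 := by
      have : (80 : ℤ) * -1 = -80 := by norm_num
      rw [this] at hz; exact dvd_neg.mp hz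
    rcases hx1 with h | h
    · rw [← hxz, h, one_mul]; exact hz'
    · rw [← hxz, h, neg_one_mul]; exact neg_dvd.mpr hz'
  have hs2 : 0 < s ^ 2 := by positivity
  have key : s ^ 2 = 8 ∨ s ^ 2 = 5 ∨ s ^ 2 = 80 ∨ s ^ 2 = 77 ∨ s ^ 2 = 65 := by
    rcases sq81 ha with h1 | h1 | h1 <;> rcases sq80 hb with h2 | h2 | h2 <;> omega
  have l1 : s < 9 := by rcases key with h | h | h | h | h <;> nlinarith
  have l2 : -9 < s := by rcases key with h | h | h | h | h <;> nlinarith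
  clear hab hs2 hs
  interval_cases s <;> omega

theorem fin_p {p : ℤ} (hp : Prime p) (hp7 : 7 < p) : Fin' p := by
  intro x y z a b c s hs hxy hxz hyz hx hy hz hab
  have np : ∀ k : ℤ, 0 < k → k < 16 → (k = 3 ∨ k = 7 ∨ k = 15) → ¬ p ∣ k := by
    intro k hk hk' h hd
    rcases h with h | h | h
    · have := Int.le_of_dvd hk hd; omega
    · have := Int.le_of_dvd hk hd; omega
    · rw [h] at hd
      have h15 : p ∣ 3 * 5 := by norm_num; exact hd
      rcases hp.dvd_or_dvd h15 with h | h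
      · have := Int.le_of_dvd (by norm_num) h; omega
      · have := Int.le_of_dvd (by norm_num) h; omega
  have hps : 0 < p * s ^ 2 := by positivity
  have n81 : ¬ p ∣ 81 := by
    intro h
    have h' : p ∣ (3 : ℤ) ^ 4 := by norm_num; exact h
    have := Int.le_of_dvd (by norm_num) (hp.dvd_of_dvd_pow h'); omega
  have n80 : ¬ p ∣ 80 := by
    intro h
    have h' : p ∣ (10 : ℤ) ^ 4 := h.trans (by norm_num)
    have h10 := hp.dvd_of_dvd_pow h'
    have h25 : p ∣ 2 * 5 := by norm_num; exact h10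
    rcases hp.dvd_or_dvd h25 with h | h
    · have := Int.le_of_dvd (by norm_num) h; omega
    · have := Int.le_of_dvd (by norm_num) h; omega
  -- a square dividing `k p` with `p ∤ k` divides `k`
  have sqd : ∀ t k : ℤ, ¬ p ∣ k → t ^ 2 ∣ k * p → t ^ 2 ∣ k := by
    intro t k hk ht
    have htp : ¬ p ∣ t := by
      intro h
      have : p * p ∣ k * p := ((mul_dvd_mul h h).trans (by rw [← sq])).trans ht
      exact hk ((mul_dvd_mul_iff_right hp.ne_zero).mp this)
    have : IsCoprime (t ^ 2) p := by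
      apply IsCoprime.pow_left
      exact ((Prime.coprime_iff_not_dvd hp).mpr htp).symm
    exact this.dvd_of_dvd_mul_right ht
  rcases dvd_mul_prime (k := 1) hp (by simpa using hx) with h1 | ⟨w, hw, h1⟩
  · have hx1 : x = 1 ∨ x = -1 := Int.isUnit_iff.mp (isUnit_of_dvd_one h1)
    have ha : a ^ 2 ∣ 81 := by
      apply sqd a 81 n81
      rcases hx1 with h | h
      · rw [← hxy, h, one_mul]; exact hy
      · rw [← hxy, h, neg_one_mul]; exact neg_dvd.mpr hy
    have hb : b ^ 2 ∣ 80 := by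
      apply sqd b 80 n80
      rcases hx1 with h | h
      · rw [← hxz, h, one_mul]; exact hz
      · rw [← hxz, h, neg_one_mul]; exact neg_dvd.mpr hz
    have hd : p ∣ b ^ 2 - a ^ 2 := ⟨s ^ 2, hab⟩
    have key : b ^ 2 - a ^ 2 = 3 ∨ b ^ 2 - a ^ 2 = 7 ∨ b ^ 2 - a ^ 2 = 15 := by
      rcases sq81 ha with h1 | h1 | h1 <;> rcases sq80 hb with h2 | h2 | h2 <;> omega
    exact np _ (by omega) (by omega) key hd
  · have hw1 : w = 1 ∨ w = -1 := Int.isUnit_iff.mp (isUnit_of_dvd_one h1)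
    have hxp : x = p ∨ x = -p := by
      rcases hw1 with h | h
      · left; rw [hw, h]; ring
      · right; rw [hw, h]; ring
    have hpa : p ∣ a := by
      apply hp.dvd_of_dvd_pow (n := 2)
      rw [← hxy, hw]; exact ⟨w * y, by ring⟩
    have hpb : p ∣ b := by
      apply hp.dvd_of_dvd_pow (n := 2)
      rw [← hxz, hw]; exact ⟨w * z, by ring⟩
    obtain ⟨a', rfl⟩ := hpa
    obtain ⟨b', rfl⟩ := hpb
    have ey : w * y = p * a' ^ 2 := by
      apply mul_left_cancel₀ hp.ne_zero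
      rw [hw] at hxy; linear_combination hxy
    have ez : w * z = p * b' ^ 2 := by
      apply mul_left_cancel₀ hp.ne_zero
      rw [hw] at hxz; linear_combination hxz
    have ha : a' ^ 2 ∣ 81 := by
      have : p * a' ^ 2 ∣ p * 81 := by
        rw [← ey, mul_comm p 81]
        rcases hw1 with h | h
        · rw [h, one_mul]; exact hy
        · rw [h, neg_one_mul]; exact neg_dvd.mpr hy
      exact (mul_dvd_mul_iff_left hp.ne_zero).mp this
    have hb : b' ^ 2 ∣ 80 := by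
      have : p * b' ^ 2 ∣ p * 80 := by
        rw [← ez, mul_comm p 80]
        rcases hw1 with h | h
        · rw [h, one_mul]; exact hz
        · rw [h, neg_one_mul]; exact neg_dvd.mpr hz
      exact (mul_dvd_mul_iff_left hp.ne_zero).mp this
    have hab' : p * (b' ^ 2 - a' ^ 2) = s ^ 2 := by
      apply mul_left_cancel₀ hp.ne_zero
      linear_combination hab
    have hps' : p ∣ s := hp.dvd_of_dvd_pow (n := 2) ⟨_, hab'.symm⟩
    obtain ⟨s', rfl⟩ := hps'
    have hab2 : b' ^ 2 - a' ^ 2 = p * s' ^ 2 := by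
      apply mul_left_cancel₀ hp.ne_zero
      linear_combination hab'
    have hd : p ∣ b' ^ 2 - a' ^ 2 := ⟨s' ^ 2, hab2⟩
    have hs' : s' ≠ 0 := by rintro rfl; simp at hs
    have hps : 0 < p * s' ^ 2 := by positivity
    have key : b' ^ 2 - a' ^ 2 = 3 ∨ b' ^ 2 - a' ^ 2 = 7 ∨ b' ^ 2 - a' ^ 2 = 15 := by
      rcases sq81 ha with h1 | h1 | h1 <;> rcases sq80 hb with h2 | h2 | h2 <;> omega
    exact np _ (by omega) (by omega) key hd

/-- `E_2`: `Y² = X (X - 1) (X - 81)` over `ℚ` -/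
theorem rank_one (X Y : ℚ) (h : Y ^ 2 = X * (X - 1) * (X - 81)) : Y = 0 := by
  apply no_point (P := -1) (by norm_num) four_one fin_one X Y
  rw [h]; push_cast; ring

/-- its twist by `-p`: `-p Y² = X (X - 1) (X - 81)` over `ℚ` -/
theorem rank_p {p : ℤ} (hp : Prime p) (hp7 : 7 < p) (hg : Good p) (X Y : ℚ)
    (h : -(p : ℚ) * Y ^ 2 = X * (X - 1) * (X - 81)) : Y = 0 := by
  have hpq : (p : ℚ) ≠ 0 := by exact_mod_cast hp.ne_zero
  have := no_point (P := p) hp.ne_zero (four_p hp (by omega) hg) (fin_p hp hp7) (-p * X)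
    (p ^ 2 * Y) (by linear_combination (-p ^ 3 : ℚ) * h)
  rcases mul_eq_zero.mp this with h | h
  · exact absurd h (pow_ne_zero 2 hpq)
  · exact h

end Vale.Agent.P017.H524
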