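import Vale.Agent.P017.H524.ClassD
import Vale.Agent.P017.H524.Rank

/-! The descent for squarefree `P`. -/

namespace Vale.Agent.P017.H524

theorem four_D {P : ℤ} (hsq : Squarefree P) (hP0 : 0 < P) (h4 : P % 4 = 3)
    (hC : CritI P ∨ CritII P) : Four P := by
  apply four_of hP0.ne'
  intro X Y hY h
  obtain ⟨b1, b2, b3, u1, u2, u3, m, e, d, e1, e2, e3⟩ := exists_dat P X Y hY h
  refine ⟨b1, b2, (u1 : ℚ) / m, (u2 : ℚ) / m, e1, e2, ?_⟩
  apply classesD hsq hP0 h4 hC d
  have hpq : (0 : ℚ) < P := by exact_mod_cast hP0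
  have hYp : 0 < Y ^ 2 := by positivity
  have hXX : 0 < X * (X + P) := by
    by_contra hneg
    push Not at hneg
    have h1 : 0 ≤ X + P := by nlinarith
    have h2 : X ≤ 0 := by
      by_contra h2
      push Not at h2
      nlinarith
    have h3 : 0 ≤ X + 81 * P := by linarith
    rw [h] at hYp
    nlinarith
  have hv : (0 : ℚ) < (b1 * b2 : ℤ) * (((u1 : ℚ) / m) ^ 2 * ((u2 : ℚ) / m) ^ 2) := by
    have : (0 : ℚ) < (b1 * ((u1 : ℚ) / m) ^ 2) * (b2 * ((u2 : ℚ) / m) ^ 2) := by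
      rw [← e1, ← e2]; exact hXX
    push_cast
    calc (0 : ℚ) < _ := this
      _ = _ := by ring
  have hw : (0 : ℚ) ≤ ((u1 : ℚ) / m) ^ 2 * ((u2 : ℚ) / m) ^ 2 := by positivity
  have : (0 : ℚ) < (b1 * b2 : ℤ) := by
    by_contra hneg
    push Not at hneg
    nlinarith
  exact_mod_cast this

theorem sq_dvd_drop {P x x' k t : ℤ} (hsq : Squarefree P) (hx : x * x' = P)
    (hk : ∀ q : ℕ, q.Prime → (q : ℤ) ∣ P → ¬ (q : ℤ) ∣ k) (h : t ^ 2 ∣ k * x') : t ^ 2 ∣ k := by
  have hcop : IsCoprime t x' := by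
    rw [Int.isCoprime_iff_gcd_eq_one]
    by_contra hg
    obtain ⟨q, hq, hqg⟩ := Nat.exists_prime_and_dvd hg
    have hqt : (q : ℤ) ∣ t := (Int.natCast_dvd_natCast.mpr hqg).trans (Int.gcd_dvd_left ..)
    have hqx : (q : ℤ) ∣ x' := (Int.natCast_dvd_natCast.mpr hqg).trans (Int.gcd_dvd_right ..)
    have hqp : Prime (q : ℤ) := Nat.prime_iff_prime_int.mp hq
    have hqP : (q : ℤ) ∣ P := by rw [← hx]; exact dvd_mul_of_dvd_right hqx _
    have hqk := hk q hq hqP
    have h1 : (q : ℤ) * q ∣ x' * k := by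
      have : (q : ℤ) * q ∣ t ^ 2 := by rw [sq]; exact mul_dvd_mul hqt hqt
      rw [mul_comm x' k]; exact this.trans h
    have h2 : IsCoprime ((q : ℤ) * q) k := by
      have : IsCoprime (q : ℤ) k := (Prime.coprime_iff_not_dvd hqp).mpr hqk
      exact this.mul_left this
    have h3 : (q : ℤ) * q ∣ x' := h2.dvd_of_dvd_mul_right h1
    have h4 : (q : ℤ) * q ∣ P := by rw [← hx]; exact dvd_mul_of_dvd_right h3 _
    exact hqp.not_isUnit (hsq q h4)
  exact (hcop.pow_left).dvd_of_dvd_mul_right h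

theorem fin_D {P : ℤ} (hsq : Squarefree P) (hP : 15 < P)
    (h30 : ∀ q : ℕ, q.Prime → (q : ℤ) ∣ P → ¬ (q : ℤ) ∣ 6480) : Fin' P := by
  intro x y z a b c s hs hxy hxz hyz hx hy hz hab
  have hP0 : P ≠ 0 := by omega
  obtain ⟨x', hx'⟩ := hx
  have hx0 : x ≠ 0 := by rintro rfl; apply hP0; rw [hx']; ring
  have hsq' : Squarefree (x * x') := by rw [← hx']; exact hsq
  have hsqx : Squarefree x := hsq'.of_mul_left
  have hcop : IsCoprime x x' := by
    have := (squarefree_mul_iff.mp hsq').1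
    exact this.isCoprime
  have hxa : x ∣ a := (hsqx.dvd_pow_iff_dvd (by norm_num : 2 ≠ 0)).mp ⟨y, hxy.symm⟩
  have hxb : x ∣ b := (hsqx.dvd_pow_iff_dvd (by norm_num : 2 ≠ 0)).mp ⟨z, hxz.symm⟩
  obtain ⟨a', rfl⟩ := hxa
  obtain ⟨b', rfl⟩ := hxb
  have ey : y = x * a' ^ 2 := by
    apply mul_left_cancel₀ hx0; linear_combination hxy
  have ez : z = x * b' ^ 2 := by
    apply mul_left_cancel₀ hx0; linear_combination hxz
  have ha : a' ^ 2 ∣ 81 := by
    apply sq_dvd_drop hsq hx'.symm (fun q hq h h' => h30 q hq h (h'.trans (by norm_num)))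
    have : x * a' ^ 2 ∣ x * (81 * x') := by
      rw [← ey]; rw [hx'] at hy
      have e : x * (81 * x') = 81 * (x * x') := by ring
      rw [e]; exact hy
    exact (mul_dvd_mul_iff_left hx0).mp this
  have hb : b' ^ 2 ∣ 80 := by
    apply sq_dvd_drop hsq hx'.symm (fun q hq h h' => h30 q hq h (h'.trans (by norm_num)))
    have : x * b' ^ 2 ∣ x * (80 * x') := by
      rw [← ez]; rw [hx'] at hz
      have e : x * (80 * x') = 80 * (x * x') := by ring
      rw [e]; exact hz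
    exact (mul_dvd_mul_iff_left hx0).mp this
  have h1 : x * (b' ^ 2 - a' ^ 2) = x' * s ^ 2 := by
    apply mul_left_cancel₀ hx0; rw [hx'] at hab; linear_combination hab
  have hxs : x ∣ s := by
    apply (hsqx.dvd_pow_iff_dvd (by norm_num : 2 ≠ 0)).mp
    exact hcop.dvd_of_dvd_mul_left ⟨_, h1.symm⟩
  obtain ⟨s', rfl⟩ := hxs
  have hs' : s' ≠ 0 := by rintro rfl; simp at hs
  have h2 : b' ^ 2 - a' ^ 2 = P * s' ^ 2 := by
    apply mul_left_cancel₀ hx0; rw [hx']; linear_combination h1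
  have h3 : 1 ≤ s' ^ 2 := by
    have : 0 < s' ^ 2 := by positivity
    omega
  have h4 : 15 < b' ^ 2 - a' ^ 2 := by rw [h2]; nlinarith
  rcases sq81 ha with h1 | h1 | h1 <;> rcases sq80 hb with h2 | h2 | h2 <;> omega

/-- the twist of `E_2` by `-P` over `ℚ` -/
theorem rank_D {P : ℤ} (hsq : Squarefree P) (hP : 15 < P) (h4 : P % 4 = 3)
    (hC : CritI P ∨ CritII P) (X Y : ℚ)
    (h : -(P : ℚ) * Y ^ 2 = X * (X - 1) * (X - 81)) : Y = 0 := by
  have hP3 : P % 3 ≠ 0 := by rcases hC with h | h <;> have := h.1 <;> omega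
  have hP5 : P % 5 ≠ 0 := by rcases hC with h | h <;> have := h.1 <;> omega
  have hP0 : P ≠ 0 := by omega
  have hpq : (P : ℚ) ≠ 0 := by exact_mod_cast hP0
  have := no_point (P := P) hP0 (four_D hsq (by omega) h4 hC)
    (fin_D hsq hP (prime_h30 h4 hP3 hP5)) (-P * X)
    (P ^ 2 * Y) (by linear_combination (-P ^ 3 : ℚ) * h)
  rcases mul_eq_zero.mp this with h | h
  · exact absurd h (pow_ne_zero 2 hpq)
  · exact h

/-- the twist of `E_1 = X_0(15)` by `-P` over `ℚ` -/
theorem E1_twistD {P : ℤ} (hsq : Squarefree P) (hP : 15 < P) (h4 : P % 4 = 3)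
    (hC : CritI P ∨ CritII P) (u b : ℚ)
    (h : -(P : ℚ) * b ^ 2 = u * (u - 16) * (u + 9)) : b = 0 := by
  have hpq : (0 : ℚ) < P := by
    have : (0 : ℤ) < P := by omega
    exact_mod_cast this
  by_cases hx : u - 16 = 0
  · rw [hx] at h
    have h0 : (P : ℚ) * b ^ 2 = 0 := by linarith
    rcases mul_eq_zero.mp h0 with h1 | h1
    · exact absurd h1 hpq.ne'
    · exact pow_eq_zero_iff (by norm_num) |>.mp h1
  have key := rank_D hsq hP h4 hC ((u - 16) + 41 + 400 / (u - 16))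
    (b * (400 - (u - 16) ^ 2) / (u - 16) ^ 2) (by
      field_simp
      linear_combination (400 - (u - 16) ^ 2) ^ 2 * h)
  rw [div_eq_zero_iff] at key
  rcases key with k | k
  · rcases mul_eq_zero.mp k with k | k
    · exact k
    · exfalso
      have h1 : (u - 36) * (u + 4) = 0 := by linarith
      have hb : 0 ≤ (P : ℚ) * b ^ 2 := by positivity
      rcases mul_eq_zero.mp h1 with h2 | h2
      · have : u = 36 := by linarith
        rw [this] at h; norm_num at h; nlinarith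
      · have : u = -4 := by linarith
        rw [this] at h; norm_num at h; nlinarith
  · exact absurd k (pow_ne_zero 2 hx)

end Vale.Agent.P017.H524
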