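import Vale.Agent.P017.H524.Local5
import Vale.Agent.P017.H524.RankD

/-! Primes `p ≢ 1 mod 8` with `p ≡ 1, 2, 4, 8 mod 15`. -/

namespace Vale.Agent.P017.H524

variable {b1 b2 b3 u1 u2 u3 m e : ℤ}

theorem b2_cases_of {p c : ℤ} (hp : Prime p) (h : c ∣ 5 * p) :
    c = 1 ∨ c = -1 ∨ c = 5 ∨ c = -5 ∨ c = p ∨ c = -p ∨ c = 5 * p ∨ c = -5 * p := by
  rcases dvd_mul_prime hp h with h | ⟨c', hc, h⟩
  · rcases dvd5 h with h | h | h | h <;> tauto
  · rcases dvd5 h with h | h | h | h <;> rw [hc, h] <;> ring_nf <;> tauto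

/-- the four square classes for a prime `p ≡ 5 mod 8` -/
theorem classes5 {p : ℤ} (hp : Prime p) (hp0 : 0 < p) (h8 : p % 8 = 5)
    (h15 : (p % 3 = 1 ∧ (p % 5 = 1 ∨ p % 5 = 4)) ∨ (p % 3 = 2 ∧ (p % 5 = 2 ∨ p % 5 = 3)))
    (d : Dat p b1 b2 b3 u1 u2 u3 m e) (hpos : 0 < b1 * b2) :
    (b1 = 1 ∧ b2 = 1) ∨ (b1 = 1 ∧ b2 = p) ∨ (b1 = -p ∧ b2 = -5) ∨ (b1 = -p ∧ b2 = -5 * p) := by
  obtain ⟨l2, l2'⟩ := L2five h8 d
  have hp5 : p % 5 ≠ 0 := by omega
  have hc1 := b1_cases hp d
  have sgn : (0 < b1 ∧ 0 < b2) ∨ (b1 < 0 ∧ b2 < 0) := by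
    rcases lt_or_gt_of_ne d.b10 with h | h
    · right; exact ⟨h, by nlinarith⟩
    · left; exact ⟨h, by nlinarith⟩
  have l5 := L5' hp5 d
  have hb1 : b1 = 1 ∨ b1 = -p := by
    rcases h15 with ⟨h3, h5⟩ | ⟨h3, h5⟩
    · have k5 : b1 % 5 = 1 ∨ b1 % 5 = 4 := by
        rcases l5 with h | h
        · exact h.1
        · exact h.1 h5
      clear l5 l2' sgn hpos
      rcases hc1 with h | h | h | h | h | h | h | h <;> omega
    · have l3 := L3a h3 d
      clear l5 l2' sgn hpos
      rcases hc1 with h | h | h | h | h | h | h | h <;> omega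
  clear hc1 l2
  have h10 : b2 ∣ (5 * p) * 2 := by
    have := b2_dvd hp.ne_zero d
    rw [show (5 * p) * 2 = 10 * p by ring]; exact this
  have hb2 : ¬ (2 : ℤ) ∣ b2 := by
    rintro ⟨c, hc⟩
    have hc5 : c ∣ 5 * p := by
      rw [hc, mul_comm (5 * p) 2] at h10
      exact (mul_dvd_mul_iff_left (by norm_num)).mp h10
    have hcc := b2_cases_of hp hc5
    have hmod : (b1 + c) % 4 = 0 := by
      rcases l2' with h | ⟨c', hc', h⟩
      · exact absurd ⟨c, hc⟩ h.1
      · have : c = c' := by omega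
        rw [this]; exact h
    clear l2' h10 hc5 l5 h15 hpos
    rcases hb1 with h | h
    · have hs : 0 < c := by omega
      clear sgn
      rcases hcc with h' | h' | h' | h' | h' | h' | h' | h' <;> omega
    · have hs : c < 0 := by omega
      clear sgn
      rcases hcc with h' | h' | h' | h' | h' | h' | h' | h' <;> omega
  have hc2 : b2 ∣ 5 * p := by
    have : IsCoprime b2 2 := ((Prime.coprime_iff_not_dvd int_prime2).mpr hb2).symm
    exact this.dvd_of_dvd_mul_right h10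
  have hcc := b2_cases_of hp hc2
  clear hc2 h10 l2'
  rcases h15 with ⟨h3, h5⟩ | ⟨h3, h5⟩
  · have l3 := L3b h3 d
    clear l5 h8 h5 hp5 hb2
    rcases hb1 with h | h
    · have hs : 0 < b2 := by omega
      clear sgn hpos
      rcases hcc with h' | h' | h' | h' | h' | h' | h' | h' <;> omega
    · have hs : b2 < 0 := by omega
      clear sgn hpos
      rcases hcc with h' | h' | h' | h' | h' | h' | h' | h' <;> omega
  · rcases hb1 with h | h
    · have hs : 0 < b2 := by omega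
      have k5 : ¬ (5 : ℤ) ∣ b2 := by
        rcases l5 with h' | h'
        · exact h'.2
        · exfalso
          have := h'.2.1 h5
          omega
      clear sgn hpos l5
      rcases hcc with h' | h' | h' | h' | h' | h' | h' | h' <;> omega
    · have hs : b2 < 0 := by omega
      have k5 : (5 : ℤ) ∣ b2 := by
        rcases l5 with h' | h'
        · exfalso
          have := h'.1
          omega
        · exact h'.2.2
      clear sgn hpos l5
      rcases hcc with h' | h' | h' | h' | h' | h' | h' | h' <;> omega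

/-- sign of `b1 b2` -/
theorem sign_pos {P : ℤ} (hP0 : 0 < P) {X Y : ℚ} (hY : Y ≠ 0)
    (h : Y ^ 2 = X * (X + P) * (X + 81 * P)) {v w : ℚ} (e1 : X = b1 * v ^ 2)
    (e2 : X + P = b2 * w ^ 2) : 0 < b1 * b2 := by
  have hpq : (0 : ℚ) < P := by exact_mod_cast hP0
  have hYp : 0 < Y ^ 2 := by positivity
  have hXX : 0 < X * (X + P) := by
    by_contra hneg
    push Not at hneg
    have h1 : 0 ≤ X + P := by nlinarith
    have h2 : X ≤ 0 := by
      by_contra h2
      push Not at h2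
      nlinarith
    have h3 : 0 ≤ X + 81 * P := by linarith
    rw [h] at hYp
    nlinarith
  have hv : (0 : ℚ) < (b1 * b2 : ℤ) * (v ^ 2 * w ^ 2) := by
    have : (0 : ℚ) < (b1 * v ^ 2) * (b2 * w ^ 2) := by
      rw [← e1, ← e2]; exact hXX
    push_cast
    calc (0 : ℚ) < _ := this
      _ = _ := by ring
  have hw : (0 : ℚ) ≤ v ^ 2 * w ^ 2 := by positivity
  have : (0 : ℚ) < (b1 * b2 : ℤ) := by
    by_contra hneg
    push Not at hneg
    nlinarith
  exact_mod_cast this

/-- the isogeny argument, for any `P` -/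
theorem twist_of {P : ℤ} (hP : 0 < P)
    (hr : ∀ X Y : ℚ, Y ^ 2 = X * (X + P) * (X + 81 * P) → Y = 0) (u b : ℚ)
    (h : -(P : ℚ) * b ^ 2 = u * (u - 16) * (u + 9)) : b = 0 := by
  have hpq : (0 : ℚ) < P := by exact_mod_cast hP
  by_cases hx : u - 16 = 0
  · rw [hx] at h
    have h0 : (P : ℚ) * b ^ 2 = 0 := by linarith
    rcases mul_eq_zero.mp h0 with h1 | h1
    · exact absurd h1 hpq.ne'
    · exact pow_eq_zero_iff (by norm_num) |>.mp h1
  have key := hr (-P * ((u - 16) + 41 + 400 / (u - 16)))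
    (P ^ 2 * (b * (400 - (u - 16) ^ 2) / (u - 16) ^ 2)) (by
      field_simp
      linear_combination (-(400 - (u - 16) ^ 2) ^ 2) * h)
  have key2 : b * (400 - (u - 16) ^ 2) / (u - 16) ^ 2 = 0 := by
    rcases mul_eq_zero.mp key with k | k
    · exact absurd k (pow_ne_zero 2 hpq.ne')
    · exact k
  rw [div_eq_zero_iff] at key2
  rcases key2 with k | k
  · rcases mul_eq_zero.mp k with k | k
    · exact k
    · exfalso
      have h1 : (u - 36) * (u + 4) = 0 := by linarith
      have hb : 0 ≤ (P : ℚ) * b ^ 2 := by positivity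
      rcases mul_eq_zero.mp h1 with h2 | h2
      · have : u = 36 := by linarith
        rw [this] at h; norm_num at h; nlinarith
      · have : u = -4 := by linarith
        rw [this] at h; norm_num at h; nlinarith
  · exact absurd k (pow_ne_zero 2 hx)

theorem twist_prime {p : ℤ} (hp : Prime p) (hp7 : 7 < p) (h8 : p % 8 ≠ 1)
    (h15 : (p % 3 = 1 ∧ (p % 5 = 1 ∨ p % 5 = 4)) ∨ (p % 3 = 2 ∧ (p % 5 = 2 ∨ p % 5 = 3)))
    (u b : ℚ) (h : -(p : ℚ) * b ^ 2 = u * (u - 16) * (u + 9)) : b = 0 := by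
  have hp0 : 0 < p := by omega
  have hodd : p % 2 = 1 := by
    by_contra h2
    have : (2 : ℤ) ∣ p := by omega
    have h3 : Associated (2 : ℤ) p := (int_prime2.dvd_prime_iff_associated hp).mp this
    rcases Int.associated_iff.mp h3 with h4 | h4 <;> omega
  have h4 : Four p := by
    apply four_of hp.ne_zero
    intro X Y hY h
    obtain ⟨b1, b2, b3, u1, u2, u3, m, e, d, e1, e2, e3⟩ := exists_dat p X Y hY h
    refine ⟨b1, b2, (u1 : ℚ) / m, (u2 : ℚ) / m, e1, e2, ?_⟩
    have hs := sign_pos hp0 hY h e1 e2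
    by_cases h5 : p % 8 = 5
    · exact classes5 hp hp0 h5 h15 d hs
    · exact classes hp hp0 (by omega) h15 d hs
  exact twist_of hp0 (fun X Y h => no_point hp.ne_zero h4 (fin_p hp hp7) X Y h) u b h

theorem twist_D {P : ℤ} (hsq : Squarefree P) (hP : 15 < P) (h4 : P % 4 = 3)
    (hC : CritI P ∨ CritII P) (u b : ℚ)
    (h : -(P : ℚ) * b ^ 2 = u * (u - 16) * (u + 9)) : b = 0 :=
  E1_twistD hsq hP h4 hC u b h

end Vale.Agent.P017.H524
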