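import Vale.Agent.P017.H524.Count
import Vale.Agent.P017.H524.Prime
import Vale.Agent.P017.H524.Families

/-! Putting everything together. -/

namespace Vale.Agent.P017.H524

open WeierstrassCurve

universe u

theorem eight_of {K : Type u} [Field K] [NumberField K] {P : ℤ} (hP : 0 < P)
    (hns : ∀ q : ℚ, q ^ 2 ≠ P)
    (htw : ∀ u b : ℚ, -(P : ℚ) * b ^ 2 = u * (u - 16) * (u + 9) → b = 0)
    (hK : Module.finrank ℚ K = 2) (hα : ∃ α : K, α ^ 2 = -(P : K)) :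
    Nat.card (X015.baseChange K).toAffine.Point = 8 := by
  classical
  obtain ⟨α, hα⟩ := hα
  have Q := quad_of hK hP hα
  obtain ⟨σ, hσ⟩ := sigma_of hK Q
  exact card_eight (fun x y h => main_pt hP hns htw Q hσ h)

theorem not_sq_of_sqf {P : ℤ} (hsq : Squarefree P) (hP : 1 < P) (q : ℚ) : q ^ 2 ≠ P := by
  intro h
  have : IsSquare (P : ℚ) := ⟨q, by rw [← h]; ring⟩
  rw [Rat.isSquare_intCast_iff] at this
  obtain ⟨r, hr⟩ := this
  have h1 : IsUnit r := hsq r ⟨1, by rw [hr]; ring⟩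
  rcases Int.isUnit_iff.mp h1 with h2 | h2 <;> rw [h2] at hr <;> omega

theorem eight_prime {K : Type u} [Field K] [NumberField K] {p : ℕ} (hp : p.Prime) (h2 : 2 < p)
    (h8 : p % 8 ≠ 1) (h15 : p % 15 = 1 ∨ p % 15 = 2 ∨ p % 15 = 4 ∨ p % 15 = 8)
    (hK : Module.finrank ℚ K = 2) (hα : ∃ α : K, α ^ 2 = -(p : K)) :
    Nat.card (X015.baseChange K).toAffine.Point = 8 := by
  have hpi : Prime (p : ℤ) := Nat.prime_iff_prime_int.mp hp
  have hne4 : p ≠ 4 := by rintro rfl; revert hp; norm_num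
  have h7 : 7 < p := by omega
  have hp0 : (0 : ℤ) < p := by omega
  have hp7 : (7 : ℤ) < p := by omega
  have hp8 : (p : ℤ) % 8 ≠ 1 := by omega
  have hp15 : ((p : ℤ) % 3 = 1 ∧ ((p : ℤ) % 5 = 1 ∨ (p : ℤ) % 5 = 4)) ∨
      ((p : ℤ) % 3 = 2 ∧ ((p : ℤ) % 5 = 2 ∨ (p : ℤ) % 5 = 3)) := by omega
  refine eight_of (P := (p : ℤ)) hp0 (not_sq hpi) (twist_prime hpi hp7 hp8 hp15) hK ?_
  obtain ⟨α, hα⟩ := hα
  exact ⟨α, by rw [hα]; push_cast; ring⟩

theorem eight_crit {K : Type u} [Field K] [NumberField K] {d : ℕ} (hsq : Squarefree d)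
    (h4 : d % 4 = 3) (hC : CritI (d : ℤ) ∨ CritII (d : ℤ))
    (hK : Module.finrank ℚ K = 2) (hα : ∃ α : K, α ^ 2 = -(d : K)) :
    Nat.card (X015.baseChange K).toAffine.Point = 8 := by
  have hsqi : Squarefree (d : ℤ) := Int.squarefree_natCast.mpr hsq
  have h15 : (15 : ℤ) < d := by
    rcases hC with h | h <;> have := h.1 <;> omega
  have h0 : (0 : ℤ) < d := by omega
  have h1 : (1 : ℤ) < d := by omega
  have h4' : (d : ℤ) % 4 = 3 := by omega
  refine eight_of (P := (d : ℤ)) h0 (not_sq_of_sqf hsqi h1) (twist_D hsqi h15 h4' hC) hK ?_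
  obtain ⟨α, hα⟩ := hα
  exact ⟨α, by rw [hα]; push_cast; ring⟩

end Vale.Agent.P017.H524
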