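import Vale.Agent.P017.H524.RatPts
import Vale.Agent.P017.H524.Defs

/-! Points of `X_0(15)` over `K = ℚ(√(-p))`. -/

namespace Vale.Agent.P017.H524

open WeierstrassCurve

section Field

variable {K : Type*} [Field K] [CharZero K]

/-- `α² = -p` and every element of `K` is `a + b α` with `a, b` rational -/
structure Quad (p : ℤ) (α : K) : Prop where
  sq : α ^ 2 = -(p : K)
  span : ∀ z : K, ∃ a b : ℚ, z = a + b * α

theorem Quad.ind {p : ℤ} (hp : 0 < p) {α : K} (hα : α ^ 2 = -(p : K)) {a b : ℚ}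
    (h : (a : K) + b * α = 0) : a = 0 ∧ b = 0 := by
  have hb : b = 0 := by
    by_contra hb
    have hbK : (b : K) ≠ 0 := by exact_mod_cast hb
    have h1 : α = ((-a / b : ℚ) : K) := by
      push_cast; field_simp; linear_combination h
    rw [h1] at hα
    have h2 : (-a / b) ^ 2 = -(p : ℚ) := by exact_mod_cast hα
    have h3 : (0 : ℚ) < p := by exact_mod_cast hp
    nlinarith [sq_nonneg (-a / b)]
  refine ⟨?_, hb⟩
  rw [hb] at h
  simpa using h

/-- rational squares in `K` -/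
theorem Quad.sq_rat {p : ℤ} (hp : 0 < p) {α : K} (Q : Quad p α) {t : K} {c : ℚ}
    (h : t ^ 2 = c) : ∃ a : ℚ, c = a ^ 2 ∨ c = -p * a ^ 2 := by
  obtain ⟨a, b, rfl⟩ := Q.span t
  have h1 : ((a ^ 2 - p * b ^ 2 - c : ℚ) : K) + ((2 * a * b : ℚ) : K) * α = 0 := by
    push_cast
    linear_combination h - (b : K) ^ 2 * Q.sq
  obtain ⟨h2, h3⟩ := Quad.ind hp Q.sq h1
  rcases mul_eq_zero.mp h3 with h4 | h4
  · have ha : a = 0 := by linarith
    exact ⟨b, Or.inr (by rw [ha] at h2; linarith)⟩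
  · exact ⟨a, Or.inl (by rw [h4] at h2; linarith)⟩

theorem not_sq {p : ℤ} (hp : Prime p) (q : ℚ) : q ^ 2 ≠ p := by
  intro h
  have : IsSquare (p : ℚ) := ⟨q, by rw [← h]; ring⟩
  rw [Rat.isSquare_intCast_iff] at this
  obtain ⟨r, hr⟩ := this
  exact hp.irreducible.not_isSquare ⟨r, hr⟩

/-- `-k²` is not a square in `K` -/
theorem Quad.neg_sq {p : ℤ} (hns : ∀ q : ℚ, q ^ 2 ≠ p) (hp0 : 0 < p) {α : K} (Q : Quad p α)
    {t : K} {k : ℚ} (hk : k ≠ 0) (h : t ^ 2 = ((-k ^ 2 : ℚ) : K)) : False := by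
  have hk2 : 0 < k ^ 2 := by positivity
  obtain ⟨a, ha | ha⟩ := Q.sq_rat hp0 h
  · nlinarith [sq_nonneg a]
  · have ha0 : a ≠ 0 := by
      rintro rfl; nlinarith
    apply hns (k / a)
    field_simp
    linarith

/-- `20` is not a square in `K` -/
theorem Quad.twenty {p : ℤ} (hp0 : 0 < p) {α : K} (Q : Quad p α) {t : K}
    (h : t ^ 2 = ((20 : ℚ) : K)) : False := by
  obtain ⟨a, ha | ha⟩ := Q.sq_rat hp0 h
  · have : IsSquare (20 : ℚ) := ⟨a, by rw [ha]; ring⟩
    revert this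
    norm_num
  · have : (0 : ℚ) < p := by exact_mod_cast hp0
    nlinarith [mul_nonneg this.le (sq_nonneg a)]

end Field

end Vale.Agent.P017.H524
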