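import Vale.Agent.P017.H524.Basic

/-! Local conditions at `2`, `3` and `5` on the square classes. -/

namespace Vale.Agent.P017.H524

variable {P b1 b2 b3 u1 u2 u3 m e : ℤ}

theorem cast3 (x : ℤ) : ((x : ZMod 3) = 0) ↔ (3 : ℤ) ∣ x := by
  have := ZMod.intCast_zmod_eq_zero_iff_dvd x 3
  simpa using this

theorem cast5 (x : ℤ) : ((x : ZMod 5) = 0) ↔ (5 : ℤ) ∣ x := by
  have := ZMod.intCast_zmod_eq_zero_iff_dvd x 5
  simpa using this

theorem cop3 (d : Dat P b1 b2 b3 u1 u2 u3 m e) (h : (3 : ℤ) ∣ b1 * u1 ^ 2) : ¬ (3 : ℤ) ∣ m := by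
  have := not_dvd_m_of_b1 d (q := 3) Nat.prime_three (by exact_mod_cast h)
  exact_mod_cast this

theorem cop5 (d : Dat P b1 b2 b3 u1 u2 u3 m e) (h : (5 : ℤ) ∣ b1 * u1 ^ 2) : ¬ (5 : ℤ) ∣ m := by
  have := not_dvd_m_of_b1 d (q := 5) Nat.prime_five (by exact_mod_cast h)
  exact_mod_cast this

theorem cop2 (d : Dat P b1 b2 b3 u1 u2 u3 m e) (h : (2 : ℤ) ∣ b1 * u1 ^ 2) : ¬ (2 : ℤ) ∣ m := by
  have := not_dvd_m_of_b1 d (q := 2) Nat.prime_two (by exact_mod_cast h)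
  exact_mod_cast this

theorem sqf_not {q c : ℤ} (hq : Prime q) (h : Squarefree (q * c)) : ¬ q ∣ c := by
  intro hc
  exact hq.not_isUnit (h q (mul_dvd_mul_left _ hc))

theorem int_prime3 : Prime (3 : ℤ) := by norm_num
theorem int_prime2 : Prime (2 : ℤ) := by norm_num
theorem int_prime5 : Prime (5 : ℤ) := by norm_num

/-- `P ≡ 2 mod 3` forces `3 ∤ b1`. -/
theorem L3a (hP3 : P % 3 = 2) (d : Dat P b1 b2 b3 u1 u2 u3 m e) : ¬ (3 : ℤ) ∣ b1 := by
  intro h3
  have h3' : ((3 : ℕ) : ℤ) ∣ b1 := by exact_mod_cast h3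
  have hb2 : ¬ (3 : ℤ) ∣ b2 := by
    intro h
    have := prime_b2 d (q := 3) Nat.prime_three (by exact_mod_cast h)
    push_cast at this
    omega
  have hb3 : (3 : ℤ) ∣ b3 := by
    rcases prime_dvd_other d.s1 d.he Nat.prime_three h3' with h | h
    · exact absurd (by exact_mod_cast h) hb2
    · exact_mod_cast h
  have hm : ¬ (3 : ℤ) ∣ m := cop3 d (dvd_mul_of_dvd_left h3 _)
  obtain ⟨c1, rfl⟩ := h3
  obtain ⟨c3, rfl⟩ := hb3
  have hc1 : ¬ (3 : ℤ) ∣ c1 := sqf_not int_prime3 d.s1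
  have hc3 : ¬ (3 : ℤ) ∣ c3 := sqf_not int_prime3 d.s3
  have he : (3 : ℤ) ∣ e := by
    apply int_prime3.dvd_of_dvd_pow (n := 2)
    rw [← d.he]; exact ⟨c1 * b2 * (3 * c3), by ring⟩
  obtain ⟨f, rfl⟩ := he
  have hf : c1 * b2 * c3 = f ^ 2 := by
    have := d.he
    have h9 : (9 : ℤ) * (c1 * b2 * c3) = 9 * f ^ 2 := by linear_combination this
    exact mul_left_cancel₀ (by norm_num) h9
  have e1 : c3 * u3 ^ 2 = c1 * u1 ^ 2 + 27 * P * m ^ 2 := by
    have := d.h3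
    have h9 : (3 : ℤ) * (c3 * u3 ^ 2) = 3 * (c1 * u1 ^ 2 + 27 * P * m ^ 2) := by
      linear_combination this
    exact mul_left_cancel₀ (by norm_num) h9
  -- cast to ZMod 3
  have z1 : (c1 : ZMod 3) ≠ 0 := fun h => hc1 ((cast3 _).mp h)
  have z3 : (c3 : ZMod 3) ≠ 0 := fun h => hc3 ((cast3 _).mp h)
  have z2 : (b2 : ZMod 3) ≠ 0 := fun h => hb2 ((cast3 _).mp h)
  have zm : (m : ZMod 3) ≠ 0 := fun h => hm ((cast3 _).mp h)
  have zP : (P : ZMod 3) = 2 := by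
    have := ZMod.intCast_mod P 3
    rw [← this]
    have h : P % ((3 : ℕ) : ℤ) = 2 := by exact_mod_cast hP3
    rw [h]; rfl
  have c2 : (b2 : ZMod 3) * (u2 : ZMod 3) ^ 2 = 2 * (m : ZMod 3) ^ 2 := by
    have := congrArg (Int.cast : ℤ → ZMod 3) d.h2
    push_cast at this
    rw [this, zP]
    have h0 : (3 : ZMod 3) = 0 := by decide
    rw [h0]; ring
  have cf : (c1 : ZMod 3) * (b2 : ZMod 3) * (c3 : ZMod 3) = (f : ZMod 3) ^ 2 := by
    have := congrArg (Int.cast : ℤ → ZMod 3) hf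
    push_cast at this
    exact this
  have key1 : ∀ x y : ZMod 3, ∀ z : ZMod 3, x ≠ 0 → z ≠ 0 → x * y ^ 2 = 2 * z ^ 2 → x = 2 := by
    decide
  have hb22 : (b2 : ZMod 3) = 2 := key1 _ _ _ z2 zm c2
  rw [hb22] at cf
  have key2 : ∀ x z w : ZMod 3, x ≠ 0 → z ≠ 0 → x * 2 * z = w ^ 2 → x ≠ z := by decide
  have hne : (c1 : ZMod 3) ≠ (c3 : ZMod 3) := key2 _ _ _ z1 z3 cf
  have key3 : ∀ x z v w : ZMod 3, x ≠ 0 → z ≠ 0 → x ≠ z → z * w ^ 2 = x * v ^ 2 → v = 0 ∧ w = 0 := by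
    decide
  have h27 : (27 : ZMod 3) = 0 := by decide
  have h3z : (3 : ZMod 3) = 0 := by decide
  have e1z : (c3 : ZMod 3) * (u3 : ZMod 3) ^ 2 = (c1 : ZMod 3) * (u1 : ZMod 3) ^ 2 := by
    have := congrArg (Int.cast : ℤ → ZMod 3) e1
    push_cast at this
    rw [this, h27]; ring
  obtain ⟨hu1, hu3⟩ := key3 _ _ _ _ z1 z3 hne e1z
  obtain ⟨v1, rfl⟩ := (cast3 _).mp hu1
  obtain ⟨v3, rfl⟩ := (cast3 _).mp hu3
  have e2 : c3 * v3 ^ 2 = c1 * v1 ^ 2 + 3 * P * m ^ 2 := by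
    have h9 : (9 : ℤ) * (c3 * v3 ^ 2) = 9 * (c1 * v1 ^ 2 + 3 * P * m ^ 2) := by
      linear_combination e1
    exact mul_left_cancel₀ (by norm_num) h9
  have e2z : (c3 : ZMod 3) * (v3 : ZMod 3) ^ 2 = (c1 : ZMod 3) * (v1 : ZMod 3) ^ 2 := by
    have := congrArg (Int.cast : ℤ → ZMod 3) e2
    push_cast at this
    rw [this, h3z]; ring
  obtain ⟨hv1, hv3⟩ := key3 _ _ _ _ z1 z3 hne e2z
  obtain ⟨w1, rfl⟩ := (cast3 _).mp hv1
  obtain ⟨w3, rfl⟩ := (cast3 _).mp hv3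
  have e3 : 3 * (c3 * w3 ^ 2 - c1 * w1 ^ 2) = P * m ^ 2 := by
    have h9 : (3 : ℤ) * (3 * (c3 * w3 ^ 2 - c1 * w1 ^ 2)) = 3 * (P * m ^ 2) := by
      linear_combination e2
    exact mul_left_cancel₀ (by norm_num) h9
  have : (3 : ℤ) ∣ P * m ^ 2 := ⟨_, e3.symm⟩
  rcases int_prime3.dvd_or_dvd this with h | h
  · omega
  · exact hm (int_prime3.dvd_of_dvd_pow h)

/-- `P ≡ 1 mod 3` forces `b2 ≡ 1 mod 3`. -/
theorem L3b (hP3 : P % 3 = 1) (d : Dat P b1 b2 b3 u1 u2 u3 m e) : b2 % 3 = 1 := by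
  have hb2 : ¬ (3 : ℤ) ∣ b2 := by
    intro h
    have := prime_b2 d (q := 3) Nat.prime_three (by exact_mod_cast h)
    push_cast at this
    omega
  have zP : (P : ZMod 3) = 1 := by
    have := ZMod.intCast_mod P 3
    rw [← this]
    have h : P % ((3 : ℕ) : ℤ) = 1 := by exact_mod_cast hP3
    rw [h]; rfl
  have z2 : (b2 : ZMod 3) ≠ 0 := fun h => hb2 ((cast3 _).mp h)
  have c2 : (b2 : ZMod 3) * (u2 : ZMod 3) ^ 2 = (b1 : ZMod 3) * (u1 : ZMod 3) ^ 2
      + (m : ZMod 3) ^ 2 := by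
    have := congrArg (Int.cast : ℤ → ZMod 3) d.h2
    push_cast at this
    rw [this, zP]; ring
  have h81 : (81 : ZMod 3) = 0 := by decide
  have c3 : (b3 : ZMod 3) * (u3 : ZMod 3) ^ 2 = (b1 : ZMod 3) * (u1 : ZMod 3) ^ 2 := by
    have := congrArg (Int.cast : ℤ → ZMod 3) d.h3
    push_cast at this
    rw [this, h81]; ring
  have ce : (b1 : ZMod 3) * (b2 : ZMod 3) * (b3 : ZMod 3) = (e : ZMod 3) ^ 2 := by
    have := congrArg (Int.cast : ℤ → ZMod 3) d.he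
    push_cast at this
    exact this
  have concl : (b2 : ZMod 3) = 1 := by
    by_cases hn : (b1 : ZMod 3) * (u1 : ZMod 3) ^ 2 = 0
    · have hm : (m : ZMod 3) ≠ 0 := by
        intro h
        refine cop3 d ((cast3 _).mp ?_) ((cast3 _).mp h)
        push_cast; exact hn
      rw [hn, zero_add] at c2
      have key : ∀ x y z : ZMod 3, z ≠ 0 → x * y ^ 2 = z ^ 2 → x = 1 := by decide
      exact key _ _ _ hm c2
    · have key : ∀ x y z w : ZMod 3, z * w ^ 2 = x * y ^ 2 → x * y ^ 2 ≠ 0 → x = z ∧ x ≠ 0 := by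
        decide
      obtain ⟨k1, k2⟩ := key _ _ _ _ c3 hn
      rw [← k1] at ce
      have key' : ∀ x y z : ZMod 3, x ≠ 0 → y ≠ 0 → x * y * x = z ^ 2 → y = 1 := by decide
      exact key' _ _ _ k2 z2 ce
  have : ((b2 - 1 : ℤ) : ZMod 3) = 0 := by push_cast; rw [concl]; ring
  have := (cast3 _).mp this
  omega

theorem cast5_of_mod {x : ℤ} (k : ℕ) (h : x % 5 = k) : (x : ZMod 5) = (k : ZMod 5) := by
  have := ZMod.intCast_mod x 5
  rw [← this]
  have h' : x % ((5 : ℕ) : ℤ) = k := by exact_mod_cast h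
  rw [h']; simp

/-- condition at `5` -/
theorem L5 (hP5 : ¬ (5 : ℤ) ∣ P) (d : Dat P b1 b2 b3 u1 u2 u3 m e) :
    (((b1 : ZMod 5) = 1 ∨ (b1 : ZMod 5) = 4) ∧ ¬ (5 : ℤ) ∣ b2) ∨
    ((((P : ZMod 5) = 1 ∨ (P : ZMod 5) = 4) → ((b1 : ZMod 5) = 1 ∨ (b1 : ZMod 5) = 4)) ∧
     (((P : ZMod 5) = 2 ∨ (P : ZMod 5) = 3) → ((b1 : ZMod 5) = 2 ∨ (b1 : ZMod 5) = 3)) ∧
     (5 : ℤ) ∣ b2) := by
  have hb1 : ¬ (5 : ℤ) ∣ b1 := by
    intro h
    have := prime_b1 d (q := 5) Nat.prime_five (by exact_mod_cast h)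
    push_cast at this
    omega
  have zP : (P : ZMod 5) ≠ 0 := fun h => hP5 ((cast5 _).mp h)
  have z1 : (b1 : ZMod 5) ≠ 0 := fun h => hb1 ((cast5 _).mp h)
  have c2 : (b2 : ZMod 5) * (u2 : ZMod 5) ^ 2 = (b1 : ZMod 5) * (u1 : ZMod 5) ^ 2
      + P * (m : ZMod 5) ^ 2 := by
    have := congrArg (Int.cast : ℤ → ZMod 5) d.h2
    push_cast at this
    rw [this]
  have h81 : (81 : ZMod 5) = 1 := by decide
  have c3 : (b3 : ZMod 5) * (u3 : ZMod 5) ^ 2 = (b2 : ZMod 5) * (u2 : ZMod 5) ^ 2 := by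
    have := congrArg (Int.cast : ℤ → ZMod 5) d.h3
    push_cast at this
    rw [this, h81, c2]; ring
  have ce : (b1 : ZMod 5) * (b2 : ZMod 5) * (b3 : ZMod 5) = (e : ZMod 5) ^ 2 := by
    have := congrArg (Int.cast : ℤ → ZMod 5) d.he
    push_cast at this
    exact this
  by_cases hn : (b2 : ZMod 5) * (u2 : ZMod 5) ^ 2 = 0
  · right
    have hm : (m : ZMod 5) ≠ 0 := by
      intro h
      refine cop5 d ((cast5 _).mp ?_) ((cast5 _).mp h)
      push_cast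
      rw [hn, h] at c2
      simpa using c2.symm
    rw [hn] at c2
    have key : ∀ x y z w : ZMod 5, x ≠ 0 → w ≠ 0 → z ≠ 0 → 0 = x * y ^ 2 + z * w ^ 2 →
        ((z = 1 ∨ z = 4) → (x = 1 ∨ x = 4)) ∧ ((z = 2 ∨ z = 3) → (x = 2 ∨ x = 3)) := by decide
    obtain ⟨k1, k2⟩ := key _ _ _ _ z1 hm zP c2
    refine ⟨k1, k2, ?_⟩
    by_contra hb2
    have hb3 : ¬ (5 : ℤ) ∣ b3 := by
      intro h
      have he' : b3 * b1 * b2 = e ^ 2 := by rw [← d.he]; ring
      rcases prime_dvd_other d.s3 he' Nat.prime_five (by exact_mod_cast h) with h' | h'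
      · exact hb1 (by exact_mod_cast h')
      · exact hb2 (by exact_mod_cast h')
    have hn2 : (5 : ℤ) ∣ b2 * u2 ^ 2 := by
      apply (cast5 _).mp; push_cast; exact hn
    have hn3 : (5 : ℤ) ∣ b3 * u3 ^ 2 := by
      apply (cast5 _).mp; push_cast; rw [c3]; exact hn
    have hu2 : (5 : ℤ) ∣ u2 := by
      rcases int_prime5.dvd_or_dvd hn2 with h | h
      · exact absurd h hb2
      · exact int_prime5.dvd_of_dvd_pow h
    have hu3 : (5 : ℤ) ∣ u3 := by
      rcases int_prime5.dvd_or_dvd hn3 with h | h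
      · exact absurd h hb3
      · exact int_prime5.dvd_of_dvd_pow h
    obtain ⟨v2, rfl⟩ := hu2
    obtain ⟨v3, rfl⟩ := hu3
    have e3 : 5 * (b3 * v3 ^ 2 - b2 * v2 ^ 2) = 16 * (P * m ^ 2) := by
      have h9 : (5 : ℤ) * (5 * (b3 * v3 ^ 2 - b2 * v2 ^ 2)) = 5 * (16 * (P * m ^ 2)) := by
        linear_combination d.h3 - d.h2
      exact mul_left_cancel₀ (by norm_num) h9
    have h5 : (5 : ℤ) ∣ 16 * (P * m ^ 2) := ⟨_, e3.symm⟩
    rcases int_prime5.dvd_or_dvd h5 with h | h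
    · omega
    rcases int_prime5.dvd_or_dvd h with h | h
    · exact hP5 h
    · exact hm ((cast5 _).mpr (int_prime5.dvd_of_dvd_pow h))
  · left
    have key : ∀ x y z w : ZMod 5, z * w ^ 2 = x * y ^ 2 → x * y ^ 2 ≠ 0 →
        (x * z = 1 ∨ x * z = 4) ∧ x ≠ 0 := by decide
    obtain ⟨k1, k2⟩ := key _ _ _ _ c3 hn
    rw [mul_assoc] at ce
    have key' : ∀ x y z : ZMod 5, x ≠ 0 → (y = 1 ∨ y = 4) → x * y = z ^ 2 → x = 1 ∨ x = 4 := by
      decide
    exact ⟨key' _ _ _ z1 k1 ce, fun h => k2 ((cast5 _).mpr h)⟩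

theorem odd_sq8 {x : ℤ} (h : x % 2 = 1) : (x : ZMod 8) ^ 2 = 1 := by
  have h8 : x % 8 = 1 ∨ x % 8 = 3 ∨ x % 8 = 5 ∨ x % 8 = 7 := by omega
  have := ZMod.intCast_mod x 8
  rw [← this]
  push_cast
  rcases h8 with h | h | h | h <;> rw [h] <;> decide

theorem L2 (hP4 : P % 4 = 3) (d : Dat P b1 b2 b3 u1 u2 u3 m e) : ¬ (2 : ℤ) ∣ b2 ∧ b1 % 4 = 1 := by
  have hb1 : ¬ (2 : ℤ) ∣ b1 := by
    intro h
    have := prime_b1 d (q := 2) Nat.prime_two (by exact_mod_cast h)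
    push_cast at this
    omega
  have hP8 : (P : ZMod 8) = 3 ∨ (P : ZMod 8) = 7 := by
    have := ZMod.intCast_mod P 8
    rw [← this]
    push_cast
    have h8 : P % 8 = 3 ∨ P % 8 = 7 := by omega
    rcases h8 with h | h <;> rw [h]
    · left; decide
    · right; decide
  have par : ∀ x y : ℤ, ¬ (2 : ℤ) ∣ x → ¬ (2 : ℤ) ∣ y → ¬ (2 : ℤ) ∣ x * y := by
    intro x y hx hy h
    rcases int_prime2.dvd_or_dvd h with h | h
    · exact hx h
    · exact hy h
  have parsq : ∀ x : ℤ, (2 : ℤ) ∣ x ^ 2 → (2 : ℤ) ∣ x := fun x h => int_prime2.dvd_of_dvd_pow h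
  have hP2 : ¬ (2 : ℤ) ∣ P := by omega
  have odd' : ∀ x : ℤ, ¬ (2 : ℤ) ∣ x → x % 2 = 1 := by intro x hx; omega
  have part1 : ¬ (2 : ℤ) ∣ b2 := by
    intro hb2
    have hb3 : (2 : ℤ) ∣ b3 := by
      have he' : b2 * b1 * b3 = e ^ 2 := by rw [← d.he]; ring
      rcases prime_dvd_other d.s2 he' Nat.prime_two (by exact_mod_cast hb2) with h | h
      · exact absurd (by exact_mod_cast h) hb1
      · exact_mod_cast h
    obtain ⟨c2, rfl⟩ := hb2
    obtain ⟨c3, rfl⟩ := hb3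
    have hc2 : ¬ (2 : ℤ) ∣ c2 := sqf_not int_prime2 d.s2
    have hc3 : ¬ (2 : ℤ) ∣ c3 := sqf_not int_prime2 d.s3
    have he : (2 : ℤ) ∣ e := by
      apply parsq
      rw [← d.he]; exact ⟨b1 * c2 * (2 * c3), by ring⟩
    obtain ⟨f, rfl⟩ := he
    have hf : b1 * c2 * c3 = f ^ 2 := by
      have h9 : (4 : ℤ) * (b1 * c2 * c3) = 4 * f ^ 2 := by linear_combination d.he
      exact mul_left_cancel₀ (by norm_num) h9
    have hfodd : ¬ (2 : ℤ) ∣ f := by
      intro h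
      have h1 : (2 : ℤ) ∣ b1 * c2 * c3 := by rw [hf]; exact dvd_pow h (by norm_num)
      exact par _ _ (par _ _ hb1 hc2) hc3 h1
    have hf8 := odd_sq8 (odd' f hfodd)
    have hmodd : ¬ (2 : ℤ) ∣ m := by
      intro hm
      refine cop2 d ?_ hm
      have : b1 * u1 ^ 2 = 2 * c2 * u2 ^ 2 - P * m ^ 2 := by rw [d.h2]; ring
      rw [this]
      exact dvd_sub ⟨c2 * u2 ^ 2, by ring⟩ (dvd_mul_of_dvd_right (dvd_pow hm (by norm_num)) _)
    have hm8 := odd_sq8 (odd' m hmodd)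
    have hu1 : ¬ (2 : ℤ) ∣ u1 := by
      intro h
      have h1 : (2 : ℤ) ∣ P * m ^ 2 := by
        have : P * m ^ 2 = 2 * c2 * u2 ^ 2 - b1 * u1 ^ 2 := by rw [d.h2]; ring
        rw [this]
        exact dvd_sub ⟨c2 * u2 ^ 2, by ring⟩ (dvd_mul_of_dvd_right (dvd_pow h (by norm_num)) _)
      exact par _ _ hP2 (fun h => hmodd (parsq _ h)) h1
    have hu18 := odd_sq8 (odd' u1 hu1)
    have e1 : c3 * u3 ^ 2 = c2 * u2 ^ 2 + 40 * P * m ^ 2 := by
      have h9 : (2 : ℤ) * (c3 * u3 ^ 2) = 2 * (c2 * u2 ^ 2 + 40 * P * m ^ 2) := by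
        linear_combination d.h3 - d.h2
      exact mul_left_cancel₀ (by norm_num) h9
    have z2 := congrArg (Int.cast : ℤ → ZMod 8) d.h2
    push_cast at z2
    rw [hu18, hm8] at z2
    have zf := congrArg (Int.cast : ℤ → ZMod 8) hf
    push_cast at zf
    rw [hf8] at zf
    by_cases hu2 : (2 : ℤ) ∣ u2
    · have hu3 : (2 : ℤ) ∣ u3 := by
        have h1 : (2 : ℤ) ∣ c3 * u3 ^ 2 := by
          rw [e1]
          exact dvd_add (dvd_mul_of_dvd_right (dvd_pow hu2 (by norm_num)) _)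
            ⟨20 * P * m ^ 2, by ring⟩
        rcases int_prime2.dvd_or_dvd h1 with h | h
        · exact absurd h hc3
        · exact parsq _ h
      obtain ⟨w2, rfl⟩ := hu2
      obtain ⟨w3, rfl⟩ := hu3
      have e2 : c3 * w3 ^ 2 = c2 * w2 ^ 2 + 10 * P * m ^ 2 := by
        have h9 : (4 : ℤ) * (c3 * w3 ^ 2) = 4 * (c2 * w2 ^ 2 + 10 * P * m ^ 2) := by
          linear_combination e1
        exact mul_left_cancel₀ (by norm_num) h9
      by_cases hw2 : (2 : ℤ) ∣ w2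
      · have hw3 : (2 : ℤ) ∣ w3 := by
          have h1 : (2 : ℤ) ∣ c3 * w3 ^ 2 := by
            rw [e2]
            exact dvd_add (dvd_mul_of_dvd_right (dvd_pow hw2 (by norm_num)) _)
              ⟨5 * P * m ^ 2, by ring⟩
          rcases int_prime2.dvd_or_dvd h1 with h | h
          · exact absurd h hc3
          · exact parsq _ h
        obtain ⟨x2, rfl⟩ := hw2
        obtain ⟨x3, rfl⟩ := hw3
        have e3 : 2 * (c3 * x3 ^ 2 - c2 * x2 ^ 2) = 5 * (P * m ^ 2) := by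
          have h9 : (2 : ℤ) * (2 * (c3 * x3 ^ 2 - c2 * x2 ^ 2)) = 2 * (5 * (P * m ^ 2)) := by
            linear_combination e2
          exact mul_left_cancel₀ (by norm_num) h9
        have h5 : (2 : ℤ) ∣ 5 * (P * m ^ 2) := ⟨_, e3.symm⟩
        exact par _ _ (by norm_num) (par _ _ hP2 (fun h => hmodd (parsq _ h))) h5
      · have hw3 : ¬ (2 : ℤ) ∣ w3 := by
          intro h
          have h1 : (2 : ℤ) ∣ c2 * w2 ^ 2 := by
            have : c2 * w2 ^ 2 = c3 * w3 ^ 2 - 10 * P * m ^ 2 := by rw [e2]; ring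
            rw [this]
            exact dvd_sub (dvd_mul_of_dvd_right (dvd_pow h (by norm_num)) _)
              ⟨5 * P * m ^ 2, by ring⟩
          exact par _ _ hc2 (fun h => hw2 (parsq _ h)) h1
        have hw28 := odd_sq8 (odd' w2 hw2)
        have hw38 := odd_sq8 (odd' w3 hw3)
        have z3 := congrArg (Int.cast : ℤ → ZMod 8) e2
        push_cast at z3
        rw [hw28, hw38, hm8] at z3
        have z2' : (b1 : ZMod 8) = - P := by
          have h4 : (2 * (w2 : ZMod 8)) ^ 2 = 4 := by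
            rw [mul_pow, hw28]; decide
          push_cast at z2
          rw [h4] at z2
          have h8 : (2 : ZMod 8) * c2 * 4 = 0 := by
            have : (2 : ZMod 8) * 4 = 0 := by decide
            calc (2 : ZMod 8) * c2 * 4 = (2 * 4) * c2 := by ring
              _ = 0 := by rw [this, zero_mul]
          rw [h8] at z2
          linear_combination (-1 : ZMod 8) * z2
        have z3' : (c3 : ZMod 8) = c2 + 2 * P := by
          have h10 : (10 : ZMod 8) = 2 := by decide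
          rw [h10] at z3
          linear_combination z3
        rw [z2', z3'] at zf
        have key : ∀ x y : ZMod 8, (y = 3 ∨ y = 7) → -y * x * (x + 2 * y) ≠ 1 := by decide
        exact key _ _ hP8 zf
    · have hu3 : ¬ (2 : ℤ) ∣ u3 := by
        intro h
        have h1 : (2 : ℤ) ∣ c2 * u2 ^ 2 := by
          have : c2 * u2 ^ 2 = c3 * u3 ^ 2 - 40 * P * m ^ 2 := by rw [e1]; ring
          rw [this]
          exact dvd_sub (dvd_mul_of_dvd_right (dvd_pow h (by norm_num)) _)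
            ⟨20 * P * m ^ 2, by ring⟩
        exact par _ _ hc2 (fun h => hu2 (parsq _ h)) h1
      have hu28 := odd_sq8 (odd' u2 hu2)
      have hu38 := odd_sq8 (odd' u3 hu3)
      have z3 := congrArg (Int.cast : ℤ → ZMod 8) e1
      push_cast at z3
      rw [hu28, hu38, hm8] at z3
      rw [hu28] at z2
      have z2' : (b1 : ZMod 8) = 2 * c2 - P := by linear_combination (-1 : ZMod 8) * z2
      have z3' : (c3 : ZMod 8) = c2 := by
        have h40 : (40 : ZMod 8) = 0 := by decide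
        rw [h40] at z3
        linear_combination z3
      rw [z2', z3'] at zf
      have key : ∀ x y : ZMod 8, (y = 3 ∨ y = 7) → (2 * x - y) * x * x ≠ 1 := by decide
      exact key _ _ hP8 zf
  refine ⟨part1, ?_⟩
  have hb3 : ¬ (2 : ℤ) ∣ b3 := by
    intro h
    have he' : b3 * b1 * b2 = e ^ 2 := by rw [← d.he]; ring
    rcases prime_dvd_other d.s3 he' Nat.prime_two (by exact_mod_cast h) with h' | h'
    · exact hb1 (by exact_mod_cast h')
    · exact part1 (by exact_mod_cast h')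
  have heodd : ¬ (2 : ℤ) ∣ e := by
    intro h
    have h1 : (2 : ℤ) ∣ b1 * b2 * b3 := by rw [d.he]; exact dvd_pow h (by norm_num)
    exact par _ _ (par _ _ hb1 part1) hb3 h1
  have he8 := odd_sq8 (odd' e heodd)
  have ze := congrArg (Int.cast : ℤ → ZMod 8) d.he
  push_cast at ze
  rw [he8] at ze
  have z2 := congrArg (Int.cast : ℤ → ZMod 8) d.h2
  push_cast at z2
  have z3 := congrArg (Int.cast : ℤ → ZMod 8) d.h3
  push_cast at z3
  have h81 : (81 : ZMod 8) = 1 := by decide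
  rw [h81, one_mul] at z3
  have fin8 : (b1 : ZMod 8) = 1 ∨ (b1 : ZMod 8) = 5 → b1 % 4 = 1 := by
    intro h
    have h0 : ((b1 - 1 : ℤ) : ZMod 8) = 0 ∨ ((b1 - 5 : ℤ) : ZMod 8) = 0 := by
      rcases h with h | h
      · left; push_cast; rw [h]; ring
      · right; push_cast; rw [h]; ring
    rcases h0 with h | h
    · have := (ZMod.intCast_zmod_eq_zero_iff_dvd _ 8).mp h
      push_cast at this; omega
    · have := (ZMod.intCast_zmod_eq_zero_iff_dvd _ 8).mp h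
      push_cast at this; omega
  apply fin8
  by_cases hm : (2 : ℤ) ∣ m
  · -- `m` even
    have hn1 : ¬ (2 : ℤ) ∣ b1 * u1 ^ 2 := fun h => cop2 d h hm
    have hu1 : ¬ (2 : ℤ) ∣ u1 := fun h => hn1 (dvd_mul_of_dvd_right (dvd_pow h (by norm_num)) _)
    have hu2 : ¬ (2 : ℤ) ∣ u2 := by
      intro h
      apply hn1
      have : b1 * u1 ^ 2 = b2 * u2 ^ 2 - P * m ^ 2 := by rw [d.h2]; ring
      rw [this]
      exact dvd_sub (dvd_mul_of_dvd_right (dvd_pow h (by norm_num)) _)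
        (dvd_mul_of_dvd_right (dvd_pow hm (by norm_num)) _)
    have hu3 : ¬ (2 : ℤ) ∣ u3 := by
      intro h
      apply hn1
      have : b1 * u1 ^ 2 = b3 * u3 ^ 2 - 81 * P * m ^ 2 := by rw [d.h3]; ring
      rw [this]
      exact dvd_sub (dvd_mul_of_dvd_right (dvd_pow h (by norm_num)) _)
        (dvd_mul_of_dvd_right (dvd_pow hm (by norm_num)) _)
    rw [odd_sq8 (odd' _ hu2), odd_sq8 (odd' _ hu1)] at z2
    rw [odd_sq8 (odd' _ hu3), odd_sq8 (odd' _ hu1)] at z3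
    have hm4 : (m : ZMod 8) ^ 2 = 0 ∨ (m : ZMod 8) ^ 2 = 4 := by
      obtain ⟨k, rfl⟩ := hm
      push_cast
      have : ∀ x : ZMod 8, (2 * x) ^ 2 = 0 ∨ (2 * x) ^ 2 = 4 := by decide
      exact this _
    have key : ∀ x y w : ZMod 8, (y = 3 ∨ y = 7) → (w = 0 ∨ w = 4) →
        x * (x + y * w) * (x + y * w) = 1 → x = 1 ∨ x = 5 := by decide
    refine key _ _ _ hP8 hm4 ?_
    have y2 : (b2 : ZMod 8) = b1 + P * (m : ZMod 8) ^ 2 := by linear_combination z2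
    have y3 : (b3 : ZMod 8) = b1 + P * (m : ZMod 8) ^ 2 := by linear_combination z3
    rw [← y2]
    nth_rewrite 2 [y2]
    rw [← y3]
    exact ze
  · rw [odd_sq8 (odd' _ hm)] at z2 z3
    by_cases hu1 : (2 : ℤ) ∣ u1
    · have hPm : ¬ (2 : ℤ) ∣ P * m ^ 2 := par _ _ hP2 (fun h => hm (parsq _ h))
      have hu2 : ¬ (2 : ℤ) ∣ u2 := by
        intro h
        apply hPm
        have : P * m ^ 2 = b2 * u2 ^ 2 - b1 * u1 ^ 2 := by rw [d.h2]; ring
        rw [this]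
        exact dvd_sub (dvd_mul_of_dvd_right (dvd_pow h (by norm_num)) _)
          (dvd_mul_of_dvd_right (dvd_pow hu1 (by norm_num)) _)
      have hu3 : ¬ (2 : ℤ) ∣ u3 := by
        intro h
        have h81' : ¬ (2 : ℤ) ∣ 81 * (P * m ^ 2) := par _ _ (by norm_num) hPm
        apply h81'
        have : 81 * (P * m ^ 2) = b3 * u3 ^ 2 - b1 * u1 ^ 2 := by rw [d.h3]; ring
        rw [this]
        exact dvd_sub (dvd_mul_of_dvd_right (dvd_pow h (by norm_num)) _)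
          (dvd_mul_of_dvd_right (dvd_pow hu1 (by norm_num)) _)
      rw [odd_sq8 (odd' _ hu2)] at z2
      rw [odd_sq8 (odd' _ hu3)] at z3
      have y23 : (b3 : ZMod 8) = b2 := by linear_combination z3 - z2
      rw [y23] at ze
      have key : ∀ x y : ZMod 8, x * y * y = 1 → x = 1 ∨ x = 5 := by decide
      exact key _ _ ze
    · have hu2 : (2 : ℤ) ∣ u2 := by
        by_contra hu2
        rw [odd_sq8 (odd' _ hu1), odd_sq8 (odd' _ hu2)] at z2
        have h2 : (2 : ℤ) ∣ b2 * u2 ^ 2 := by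
          rw [d.h2]
          have a1 : b1 * u1 ^ 2 % 2 = 1 := odd' _ (par _ _ hb1 (fun h => hu1 (parsq _ h)))
          have a2 : P * m ^ 2 % 2 = 1 := odd' _ (par _ _ hP2 (fun h => hm (parsq _ h)))
          omega
        exact par _ _ part1 (fun h => hu2 (parsq _ h)) h2
      obtain ⟨k, rfl⟩ := hu2
      rw [odd_sq8 (odd' _ hu1)] at z2
      push_cast at z2
      have key : ∀ x y z w : ZMod 8, (y = 3 ∨ y = 7) → z * (2 * w) ^ 2 = x * 1 + y * 1 →
          x = 1 ∨ x = 5 := by decide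
      exact key _ _ _ _ hP8 z2

end Vale.Agent.P017.H524
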