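import Vale.Agent.P017.H524.Points

/-! The affine points of `X_0(15)` over `K = ℚ(√(-p))`. -/

namespace Vale.Agent.P017.H524

open WeierstrassCurve

variable {K : Type*} [Field K] [CharZero K]

/-- the seven affine points -/
def Seven (x y : K) : Prop :=
  (x = -1 ∧ y = 0) ∨ (x = 3 ∧ y = -2) ∨ (x = -13 / 4 ∧ y = 9 / 8) ∨ (x = 8 ∧ y = 18) ∨
  (x = 8 ∧ y = -27) ∨ (x = -2 ∧ y = 3) ∨ (x = -2 ∧ y = -2)

theorem w_sq {x y : K} (h : (X015.baseChange K).toAffine.Equation x y) :
    (2 * y + x + 1) ^ 2 = (x + 1) * (x - 3) * (4 * x + 13) := by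
  linear_combination 4 * eqn h

theorem seven_of_w {x y : K} (h : (X015.baseChange K).toAffine.Equation x y)
    (hw : 2 * y + x + 1 = 0) : Seven x y := by
  have h1 := w_sq h
  rw [hw] at h1
  have h2 : (x + 1) * (x - 3) * (4 * x + 13) = 0 := by rw [← h1]; ring
  rcases mul_eq_zero.mp h2 with h3 | h3
  · rcases mul_eq_zero.mp h3 with h4 | h4
    · left
      have hx : x = -1 := by linear_combination h4
      refine ⟨hx, ?_⟩
      have : 2 * y = 0 := by rw [hx] at hw; linear_combination hw
      simpa using this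
    · right; left
      have hx : x = 3 := by linear_combination h4
      refine ⟨hx, ?_⟩
      rw [hx] at hw; linear_combination (1 / 2 : K) * hw
  · right; right; left
    have hx : x = -13 / 4 := by linear_combination (1 / 4 : K) * h3
    refine ⟨hx, ?_⟩
    rw [hx] at hw; linear_combination (1 / 2 : K) * hw

theorem fix_rat {p : ℤ} (hp0 : 0 < p) {α : K} (Q : Quad p α) {σ : K →ₐ[ℚ] K}
    (hσ : σ α = -α) {z : K} (hz : σ z = z) : ∃ a : ℚ, z = a := by
  obtain ⟨a, b, rfl⟩ := Q.span z
  have h1 : σ ((a : K) + b * α) = a - b * α := by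
    rw [map_add, map_mul, hσ, map_ratCast, map_ratCast]; ring
  rw [h1] at hz
  have h2 : ((0 : ℚ) : K) + ((2 * b : ℚ) : K) * α = 0 := by
    push_cast; linear_combination (-1 : K) * hz
  obtain ⟨-, h3⟩ := Quad.ind hp0 Q.sq h2
  have hb : b = 0 := by linarith
  exact ⟨a, by rw [hb]; push_cast; ring⟩

theorem antifix {p : ℤ} (hp0 : 0 < p) {α : K} (Q : Quad p α) {σ : K →ₐ[ℚ] K}
    (hσ : σ α = -α) {z : K} (hz : σ z = -z) : ∃ b : ℚ, z = b * α := by
  obtain ⟨a, b, rfl⟩ := Q.span z
  have h1 : σ ((a : K) + b * α) = a - b * α := by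
    rw [map_add, map_mul, hσ, map_ratCast, map_ratCast]; ring
  rw [h1] at hz
  have h2 : ((2 * a : ℚ) : K) + ((0 : ℚ) : K) * α = 0 := by
    push_cast; linear_combination hz
  obtain ⟨h3, -⟩ := Quad.ind hp0 Q.sq h2
  have ha : a = 0 := by linarith
  exact ⟨b, by rw [ha]; push_cast; ring⟩

theorem invol {p : ℤ} {α : K} (Q : Quad p α) {σ : K →ₐ[ℚ] K} (hσ : σ α = -α) (z : K) :
    σ (σ z) = z := by
  obtain ⟨a, b, rfl⟩ := Q.span z
  rw [map_add, map_mul, hσ, map_ratCast, map_ratCast, map_add, map_mul, map_neg, hσ,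
    map_ratCast, map_ratCast]
  ring

theorem main_pt [DecidableEq K] {p : ℤ} (hp0 : 0 < p) (hns : ∀ q : ℚ, q ^ 2 ≠ p)
    (htw : ∀ u b : ℚ, -(p : ℚ) * b ^ 2 = u * (u - 16) * (u + 9) → b = 0) {α : K}
    (Q : Quad p α) {σ : K →ₐ[ℚ] K} (hσ : σ α = -α) {x y : K}
    (h : (X015.baseChange K).toAffine.Nonsingular x y) : Seven x y := by
  by_cases hw : 2 * y + x + 1 = 0
  · exact seven_of_w h.1 hw
  set P : (X015.baseChange K).toAffine.Point := Affine.Point.some x y h with hPdef
  let φ : (X015.baseChange K).toAffine.Point →+ (X015.baseChange K).toAffine.Point :=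
    Affine.Point.map (W' := X015) σ
  have hφs : ∀ (a b : K) (hab : (X015.baseChange K).toAffine.Nonsingular a b),
      ∃ hab', φ (Affine.Point.some a b hab) = Affine.Point.some (σ a) (σ b) hab' := by
    intro a b hab
    exact ⟨_, Affine.Point.map_some (W' := X015) σ hab⟩
  have hφφ : ∀ R, φ (φ R) = R := by
    intro R
    rcases R with _ | ⟨a, b, hab⟩
    · rfl
    · obtain ⟨h1, e1⟩ := hφs a b hab
      rw [e1]
      obtain ⟨h2, e2⟩ := hφs _ _ h1
      rw [e2]
      simp only [Affine.Point.some.injEq]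
      exact ⟨invol Q hσ a, invol Q hσ b⟩
  -- `S = P - σ P` is killed by `2`
  have hS : (P - φ P) + (P - φ P) = 0 := by
    have hanti : φ (P - φ P) = -(P - φ P) := by
      rw [map_sub, hφφ]; abel
    generalize P - φ P = S at hanti ⊢
    rcases S with _ | ⟨a, b, hab⟩
    · rfl
    · obtain ⟨h1, e1⟩ := hφs a b hab
      rw [e1, Affine.Point.neg_some] at hanti
      simp only [Affine.Point.some.injEq] at hanti
      obtain ⟨ha, hb⟩ := hanti
      rw [negY_eq] at hb
      obtain ⟨r, hr⟩ := fix_rat hp0 Q hσ ha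
      have hww : σ (2 * b + a + 1) = -(2 * b + a + 1) := by
        rw [map_add, map_add, map_mul, map_one, map_ofNat, ha, hb]; ring
      obtain ⟨s, hs⟩ := antifix hp0 Q hσ hww
      have he := w_sq hab.1
      rw [hs, hr] at he
      have he2 : (((-(p : ℚ)) * (4 * s) ^ 2 : ℚ) : K)
          = (((4 * (r + 1)) * (4 * (r + 1) - 16) * (4 * (r + 1) + 9) : ℚ) : K) := by
        push_cast
        linear_combination 16 * he - 16 * (s : K) ^ 2 * Q.sq
      have he3 := htw _ _ (by exact_mod_cast he2 :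
        (-(p : ℚ)) * (4 * s) ^ 2 = (4 * (r + 1)) * (4 * (r + 1) - 16) * (4 * (r + 1) + 9))
      have hs0 : s = 0 := by linarith
      rw [hs0] at hs
      apply Affine.Point.add_self_of_Y_eq
      rw [negY_eq]
      have : 2 * b + a + 1 = 0 := by rw [hs]; push_cast; ring
      linear_combination this
  -- `2 P` is rational
  have hT : φ (P + P) = P + P := by
    rw [map_add]
    have : P + P - (φ P + φ P) = 0 := by rw [← hS]; abel
    exact (sub_eq_zero.mp this).symm
  have hy : y ≠ (X015.baseChange K).toAffine.negY x y := by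
    rw [negY_eq]
    intro h0; apply hw; linear_combination h0
  obtain ⟨X, Y, H, hd⟩ : ∃ X Y H, P + P = Affine.Point.some X Y H :=
    ⟨_, _, _, Affine.Point.add_self_of_Y_ne hy⟩
  rw [hd] at hT
  obtain ⟨h1, e1⟩ := hφs X Y H
  rw [e1] at hT
  simp only [Affine.Point.some.injEq] at hT
  obtain ⟨a, ha⟩ := fix_rat hp0 Q hσ hT.1
  obtain ⟨b, hb⟩ := fix_rat hp0 Q hσ hT.2
  have hw2 := w_sq H.1
  rw [ha, hb] at hw2
  have hE : (4 * (2 * b + a + 1)) ^ 2 = (4 * (a + 1)) * (4 * (a + 1) - 16) * (4 * (a + 1) + 9) := by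
    have : (((4 * (2 * b + a + 1)) ^ 2 : ℚ) : K)
        = (((4 * (a + 1)) * (4 * (a + 1) - 16) * (4 * (a + 1) + 9) : ℚ) : K) := by
      push_cast; linear_combination 16 * hw2
    exact_mod_cast this
  have hdbl := dbl h H hw hd
  have hxw := w_sq h.1
  have hdbl2 : 4 * (X + 1) - 16
      = (((4 * (x + 1)) ^ 2 - 32 * (4 * (x + 1)) - 144) / (8 * (2 * y + x + 1))) ^ 2 := by
    rw [hdbl, div_pow, div_pow, eq_div_iff (pow_ne_zero 2 (mul_ne_zero (by norm_num) hw)),
      sub_mul, div_mul_cancel₀ _ (pow_ne_zero 2 (mul_ne_zero (by norm_num) hw))]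
    linear_combination (-1024 : K) * hxw
  rw [ha] at hdbl hdbl2
  rcases E1_rat _ _ hE with hU | hU | hU | hU | hU
  · -- `U = 0`
    exfalso
    refine Q.neg_sq hns hp0 (k := 4) (by norm_num) (hdbl2.symm.trans ?_)
    have : (4 * ((a : K) + 1)) = ((4 * (a + 1) : ℚ) : K) := by push_cast; ring
    rw [this, hU]; push_cast; norm_num
  · -- `U = 16`
    have h0 : 4 * ((a : K) + 1) - 16 = 0 := by
      have : (4 * ((a : K) + 1)) = ((4 * (a + 1) : ℚ) : K) := by push_cast; ring
      rw [this, hU]; push_cast; norm_num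
    rw [h0] at hdbl2
    have h2 : ((4 * (x + 1)) ^ 2 - 32 * (4 * (x + 1)) - 144) = 0 := by
      have h3 := (pow_eq_zero_iff (n := 2) (by norm_num)).mp hdbl2.symm
      rcases div_eq_zero_iff.mp h3 with h4 | h4
      · exact h4
      · exact absurd h4 (mul_ne_zero (by norm_num) hw)
    have h3 : (x - 8) * (x + 2) = 0 := by linear_combination (1 / 16 : K) * h2
    have he := eqn h.1
    rcases mul_eq_zero.mp h3 with h4 | h4
    · have hx : x = 8 := by linear_combination h4
      rw [hx] at he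
      have h5 : (y - 18) * (y + 27) = 0 := by linear_combination he
      rcases mul_eq_zero.mp h5 with h6 | h6
      · right; right; right; left; exact ⟨hx, by linear_combination h6⟩
      · right; right; right; right; left; exact ⟨hx, by linear_combination h6⟩
    · have hx : x = -2 := by linear_combination h4
      rw [hx] at he
      have h5 : (y - 3) * (y + 2) = 0 := by linear_combination he
      rcases mul_eq_zero.mp h5 with h6 | h6
      · right; right; right; right; right; left; exact ⟨hx, by linear_combination h6⟩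
      · right; right; right; right; right; right; exact ⟨hx, by linear_combination h6⟩
  · exfalso
    refine Q.neg_sq hns hp0 (k := 3) (by norm_num) (hdbl.symm.trans ?_)
    have : (4 * ((a : K) + 1)) = ((4 * (a + 1) : ℚ) : K) := by push_cast; ring
    rw [this, hU]; push_cast; norm_num
  · exfalso
    refine Q.twenty hp0 (hdbl2.symm.trans ?_)
    have : (4 * ((a : K) + 1)) = ((4 * (a + 1) : ℚ) : K) := by push_cast; ring
    rw [this, hU]; push_cast; norm_num
  · exfalso
    refine Q.neg_sq hns hp0 (k := 2) (by norm_num) (hdbl.symm.trans ?_)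
    have : (4 * ((a : K) + 1)) = ((4 * (a + 1) : ℚ) : K) := by push_cast; ring
    rw [this, hU]; push_cast; norm_num

end Vale.Agent.P017.H524
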