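import Vale.Agent.P017.H524.KPart

/-! Points of `X_0(15)` over `K = ℚ(√(-p))`. -/

namespace Vale.Agent.P017.H524

open WeierstrassCurve

variable {K : Type*} [Field K] [CharZero K]

theorem ca1 : (X015.baseChange K).toAffine.a₁ = 1 := by simp [X015, WeierstrassCurve.baseChange]
theorem ca2 : (X015.baseChange K).toAffine.a₂ = 1 := by simp [X015, WeierstrassCurve.baseChange]
theorem ca3 : (X015.baseChange K).toAffine.a₃ = 1 := by simp [X015, WeierstrassCurve.baseChange]
theorem ca4 : (X015.baseChange K).toAffine.a₄ = -10 := by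
  simp [X015, WeierstrassCurve.baseChange]
theorem ca6 : (X015.baseChange K).toAffine.a₆ = -10 := by
  simp [X015, WeierstrassCurve.baseChange]

theorem eqn {x y : K} (h : (X015.baseChange K).toAffine.Equation x y) :
    y ^ 2 + x * y + y = x ^ 3 + x ^ 2 - 10 * x - 10 := by
  rw [Affine.equation_iff, ca1, ca2, ca3, ca4, ca6] at h
  linear_combination h

theorem negY_eq (x y : K) : (X015.baseChange K).toAffine.negY x y = -y - x - 1 := by
  rw [Affine.negY, ca1, ca3]
  ring

/-- the doubling formula -/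
theorem dbl [DecidableEq K] {x y X Y : K} (h : (X015.baseChange K).toAffine.Nonsingular x y)
    (H : (X015.baseChange K).toAffine.Nonsingular X Y) (hw : 2 * y + x + 1 ≠ 0)
    (hd : Affine.Point.some x y h + Affine.Point.some x y h = Affine.Point.some X Y H) :
    4 * (X + 1) = ((((4 * (x + 1)) ^ 2 + 144)) / (8 * (2 * y + x + 1))) ^ 2 := by
  have hy : y ≠ (X015.baseChange K).toAffine.negY x y := by
    rw [negY_eq]
    intro h0; apply hw; linear_combination h0
  rw [Affine.Point.add_self_of_Y_ne hy] at hd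
  have hX := (Affine.Point.some.inj hd).1
  rw [Affine.slope_of_Y_ne rfl hy, negY_eq, Affine.addX, ca1, ca2, ca4] at hX
  have he := eqn h.1
  have e : y - (-y - x - 1) = 2 * y + x + 1 := by ring
  rw [e] at hX
  have he' : (2 * y + x + 1) ^ 2 = (x + 1) * (x - 3) * (4 * x + 13) := by
    linear_combination 4 * he
  set L : K := (3 * x ^ 2 + 2 * 1 * x + -10 - 1 * y) / (2 * y + x + 1) with hL
  have hL2 : (2 * L + 1) * (2 * y + x + 1) = 6 * x ^ 2 + 5 * x - 19 := by
    rw [hL]; field_simp; ring
  have key : 4 * (X + 1) * (2 * y + x + 1) ^ 2 = 4 * ((x + 1) ^ 2 + 9) ^ 2 := by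
    rw [← hX]
    linear_combination ((2 * L + 1) * (2 * y + x + 1) + (6 * x ^ 2 + 5 * x - 19)) * hL2
      - (1 + 8 * x) * he'
  rw [div_pow, eq_div_iff (pow_ne_zero 2 (mul_ne_zero (by norm_num) hw))]
  linear_combination 64 * key

end Vale.Agent.P017.H524
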