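import Vale.Agent.P017.H524.Rank

/-! From `E_2` back to `E_1 : v² = u (u - 16) (u + 9)` through the `2`-isogeny. -/

namespace Vale.Agent.P017.H524

theorem E1_rat (u v : ℚ) (h : v ^ 2 = u * (u - 16) * (u + 9)) :
    u = 0 ∨ u = 16 ∨ u = -9 ∨ u = 36 ∨ u = -4 := by
  by_cases hx : u - 16 = 0
  · right; left; linarith
  have key := rank_one ((u - 16) + 41 + 400 / (u - 16))
    (v * (400 - (u - 16) ^ 2) / (u - 16) ^ 2) (by
      field_simp
      rw [h]
      ring)
  rw [div_eq_zero_iff] at key
  rcases key with k | k
  · rcases mul_eq_zero.mp k with k | k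
    · rw [k] at h
      have h0 : u * (u - 16) * (u + 9) = 0 := by rw [← h]; ring
      rcases mul_eq_zero.mp h0 with h1 | h1
      · rcases mul_eq_zero.mp h1 with h2 | h2
        · left; exact h2
        · exact absurd h2 hx
      · right; right; left; linarith
    · have h1 : (u - 36) * (u + 4) = 0 := by linarith
      rcases mul_eq_zero.mp h1 with h2 | h2
      · right; right; right; left; linarith
      · right; right; right; right; linarith
  · exact absurd k (pow_ne_zero 2 hx)

theorem E1_twist {p : ℤ} (hp : Prime p) (hp7 : 7 < p) (hg : Good p) (u b : ℚ)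
    (h : -(p : ℚ) * b ^ 2 = u * (u - 16) * (u + 9)) : b = 0 := by
  have hpq : (0 : ℚ) < p := by
    have : (0 : ℤ) < p := by omega
    exact_mod_cast this
  by_cases hx : u - 16 = 0
  · rw [hx] at h
    have h0 : (p : ℚ) * b ^ 2 = 0 := by linarith
    rcases mul_eq_zero.mp h0 with h1 | h1
    · exact absurd h1 hpq.ne'
    · exact pow_eq_zero_iff (by norm_num) |>.mp h1
  have key := rank_p hp hp7 hg ((u - 16) + 41 + 400 / (u - 16))
    (b * (400 - (u - 16) ^ 2) / (u - 16) ^ 2) (by
      field_simp
      linear_combination (400 - (u - 16) ^ 2) ^ 2 * h)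
  rw [div_eq_zero_iff] at key
  rcases key with k | k
  · rcases mul_eq_zero.mp k with k | k
    · exact k
    · exfalso
      have h1 : (u - 36) * (u + 4) = 0 := by linarith
      have hb : 0 ≤ (p : ℚ) * b ^ 2 := by positivity
      rcases mul_eq_zero.mp h1 with h2 | h2
      · have : u = 36 := by linarith
        rw [this] at h; norm_num at h; nlinarith
      · have : u = -4 := by linarith
        rw [this] at h; norm_num at h; nlinarith
  · exact absurd k (pow_ne_zero 2 hx)

end Vale.Agent.P017.H524
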